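import Vale.Agent.P353.AN.A.StmtT
import Vale.Agent.P353.AN.A.StmtS
import Vale.Agent.P353.AN.B.Defs

/-! # P353, all `N`, block GL: slice functionals = one global functional (COH)

`h = z + s`, `y = cmb ψ η s`; scales `x^z ~ R`, `x^s ~ 1`, `x^m ~ R^{-1/2}` (all nine directions), `a ~ R^{-3/2}`. -/

open MeasureTheory Filter Topology
open scoped ContDiff

namespace Vale.Agent.P353.Z.AN

variable {d dh dm r ds : ℕ} {F : Type*} [NormedAddCommGroup F] [InnerProductSpace ℂ F]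

/-- splitting of the colours of `h` -/
abbrev Spz (r ds dh : ℕ) : Type := Fin r ⊕ Fin ds ≃ Fin dh

/-- the point of `h` with coordinates `η` (in `z`) and `s` -/
noncomputable def cmb (ψ : Spz r ds dh) (η : Cfg r) (s : Cfg ds) : Cfg dh :=
  WithLp.toLp 2 fun p => Sum.elim (fun a => η (p.1, a)) (fun b => s (p.1, b)) (ψ.symm p.2)

/-- `z`-coordinates -/
noncomputable def hz (ψ : Spz r ds dh) (y : Cfg dh) : Cfg r := WithLp.toLp 2 fun p => y (p.1, ψ (Sum.inl p.2))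

/-- `s`-coordinates -/
noncomputable def hs (ψ : Spz r ds dh) (y : Cfg dh) : Cfg ds := WithLp.toLp 2 fun p => y (p.1, ψ (Sum.inr p.2))

/-- `m`-coordinates, all nine directions -/
noncomputable def pm (φ : Spl dh dm d) (x : Cfg d) : Cfg dm := WithLp.toLp 2 fun p => x (p.1, φ (Sum.inr p.2))

/-- `z` is central in `h` -/
def IsZ (S : Setup d F) (φ : Spl dh dm d) (ψ : Spz r ds dh) : Prop :=
  ∀ a B C, S.f (φ (Sum.inl (ψ (Sum.inl a)))) (φ (Sum.inl B)) (φ (Sum.inl C)) = 0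

/-- `D_i(η)` -/
noncomputable def Dz (S : Setup d F) (φ : Spl dh dm d) (ψ : Spz r ds dh) (η : Cfg r) (i : Fin 9) :
    Matrix (Fin dm) (Fin dm) ℝ := S.Dy φ i (cmb ψ η 0)

/-- `X_i = w_i - D_i a` (`w_8 = 0`) -/
noncomputable def xi (D : Fin 9 → Matrix (Fin dm) (Fin dm) ℝ) (w : Wsp dm) (a : EuclideanSpace ℝ (Fin dm)) : Cfg dm :=
  WithLp.toLp 2 fun p => wt w p.1 p.2 - ∑ C, D p.1 p.2 C * a C

/-- the global functional: `Z^b_R(x) = R^{3dm - 9r/2} b(x^z/R, x^s, R^{1/2}x^m)` -/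
noncomputable def Zb (φ : Spl dh dm d) (ψ : Spz r ds dh) (b : Cfg r × Cfg ds × Cfg dm → F) (R : ℝ) (x : Cfg d) : F :=
  ((R ^ (3 * (dm : ℝ) - 9 * (r : ℝ) / 2) : ℝ) : ℂ) •
    b (R⁻¹ • hz ψ (zy φ x), hs ψ (zy φ x), Real.sqrt R • pm φ x)

/-- its slice version at scale one: `V^b(η,s,w) = |det D_8(η)|^{1/2} ∫ b(η,s,w - D(η)a) da` -/
noncomputable def Vb (S : Setup d F) (φ : Spl dh dm d) (ψ : Spz r ds dh) (b : Cfg r × Cfg ds × Cfg dm → F)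
    (η : Cfg r) (s : Cfg ds) (w : Wsp dm) : F :=
  ((Real.sqrt |(Dz S φ ψ η 8).det| : ℝ) : ℂ) • ∫ a : EuclideanSpace ℝ (Fin dm), b (η, s, xi (Dz S φ ψ η) w a)

/-- scaled slice function: `R^{2dm-9r/2} v(y^z/R, y^s, R^{1/2}w)` -/
noncomputable def Ts0 (ψ : Spz r ds dh) (v : Cfg r → Cfg ds → Wsp dm → F) (R : ℝ) (y : Cfg dh) (w : Wsp dm) : F :=
  ((R ^ (2 * (dm : ℝ) - 9 * (r : ℝ) / 2) : ℝ) : ℂ) • v (R⁻¹ • hz ψ y) (hs ψ y) (Real.sqrt R • w)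

/-- spin transport `exp(-i a·𝒮)` -/
noncomputable def spn (S : Setup d F) (a : Fin d → ℝ) : F →L[ℂ] F :=
  NormedSpace.exp ((-Complex.I) • ∑ C, (a C : ℂ) • S.cS C)

/-- **GL0** integration over the tube without invariance. PROOF: as `TubeStmt` (`DetStmt`, `CooStmt`, `InjStmt`, homogeneity in `R`), without the
last step; for the Bochner integral `integral_image_eq_integral_abs_det_fderiv_smul`. -/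
def TubeJStmt (S : Setup d F) : Prop := ∀ (dh dm : ℕ) (φ : Spl dh dm d) (y₀ : Cfg dh), Std S φ y₀ →
  ∃ ε₀ ρ₀ : ℝ, 0 < ε₀ ∧ 0 < ρ₀ ∧ ∃ j : EuclideanSpace ℝ (Fin dm) → ℝ, Continuous j ∧ (∀ a, 0 ≤ j a) ∧ j 0 = 1 ∧
    ∀ ε ρ : ℝ, 0 < ε → ε ≤ ε₀ → 0 < ρ → ρ ≤ ρ₀ → ∀ R : ℝ, 0 < R →
      (∀ f : Cfg d → ENNReal, Measurable f → ∫⁻ x in Tube S φ y₀ R ε ρ, f x =
        ∫⁻ q in (Metric.ball (0 : EuclideanSpace ℝ (Fin dm)) ρ) ×ˢ (Nb y₀ dm R ε),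
          f (tub S φ q.1 q.2) * ENNReal.ofReal (S.Jd φ q.2.1 * j q.1) ∂(volume.prod (volume.prod volume))) ∧
      (∀ f : Cfg d → ℂ, ∫ x in Tube S φ y₀ R ε ρ, f x =
        ∫ q in (Metric.ball (0 : EuclideanSpace ℝ (Fin dm)) ρ) ×ˢ (Nb y₀ dm R ε),
          ((S.Jd φ q.2.1 * j q.1 : ℝ) : ℂ) * f (tub S φ q.1 q.2) ∂(volume.prod (volume.prod volume)))

/-- **GL1** equivariance of gauge invariant functions. PROOF: `d/dt u(ro(exp(t ad a))x) = -i(a·𝒮)u(…)` (`gx983_fderiv_ad`, `G_C u = 0`), so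
`exp(i t a·𝒮)u(ro(exp(t ad a))x)` is constant; `cS C` is self-adjoint. -/
def EqvStmt (S : Setup d F) : Prop := FiniteDimensional ℂ F → (∀ a v, ‖spn S a v‖ = ‖v‖) ∧
  (∀ a v w, inner ℂ (spn S a v) w = inner ℂ v (spn S (-a) w)) ∧ (Continuous fun a => spn S a) ∧ spn S 0 = 1 ∧
  ∀ u : Cfg d → F, ContDiff ℝ ∞ u → (∀ C x, S.G C u x = 0) →
    ∀ a x, u (ro (NormedSpace.exp (S.adm a)) x) = spn S a (u x)

/-- **GL2** Taylor expansion of the tube coordinates, uniform in the scale. PROOF: `A = ad a`, `e = emb φ y w`, `|e| ≤ C R`: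
`|exp(A)e - e - [a,e]| ≤ C|a|²|e|`; `[a,y] ∈ m` (`a ∈ m`, `IsSub`) with components `-D_i(y)a`; `|[a,w]| ≤ C|a||w|`. Lower bound:
`|D_8(y)a| ≥ cR|a|` (A4 bounds, `BdStmt`), `w_j = X_j + D_ja`. -/
def TayTStmt (S : Setup d F) : Prop := ∀ (dh dm : ℕ) (φ : Spl dh dm d) (y₀ : Cfg dh), Std S φ y₀ →
  ∃ ε₀ ρ₀ c C : ℝ, 0 < ε₀ ∧ 0 < ρ₀ ∧ 0 < c ∧ 0 < C ∧ ∀ R : ℝ, 0 < R → ∀ a p, ‖a‖ < ρ₀ → p ∈ Nb y₀ dm R ε₀ →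
    c * (R * ‖a‖ + ‖p.2‖) ≤ ‖pm φ (tub S φ a p)‖ ∧
    ‖zy φ (tub S φ a p) - p.1‖ ≤ C * ‖a‖ * (R * ‖a‖ + ‖p.2‖) ∧
    ‖pm φ (tub S φ a p) - xi (fun i => S.Dy φ i p.1) p.2 a‖ ≤ C * ‖a‖ * (R * ‖a‖ + ‖p.2‖)

/-- orbit average of `Z` on the slice -/
noncomputable def Zt (S : Setup d F) (φ : Spl dh dm d) (j : EuclideanSpace ℝ (Fin dm) → ℝ) (ρ : ℝ) (Z : Cfg d → F)
    (p : Cfg dh × Wsp dm) : F :=
  ((Real.sqrt (S.Jd φ p.1) : ℝ) : ℂ) • ∫ a in Metric.ball (0 : EuclideanSpace ℝ (Fin dm)) ρ,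
    ((j a : ℝ) : ℂ) • spn S (-(exm φ a)) (Z (tub S φ a p))

/-- **GL3** measurability and scaling. PROOF: `tub`, `spn`, `D`, `J`, `j` are continuous (`ContDiff` in `DetStmt`, GL1), `StronglyMeasurable.integral_prod_right`;
substitution `y = cmb ψ (Rη) s`, `w = R^{-1/2}ω` (`R^{4dm-9r}·R^{9r}·R^{-4dm} = 1`). -/
def MeaStmt (S : Setup d F) : Prop := FiniteDimensional ℂ F → ∀ (dh dm r ds : ℕ) (φ : Spl dh dm d) (ψ : Spz r ds dh),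
  S.IsSub φ →
  (∀ (j : EuclideanSpace ℝ (Fin dm) → ℝ) (ρ : ℝ) (Z : Cfg d → F), Continuous j → StronglyMeasurable Z →
    StronglyMeasurable (Zt S φ j ρ Z)) ∧
  (∀ (R : ℝ) (b : Cfg r × Cfg ds × Cfg dm → F), StronglyMeasurable b → StronglyMeasurable (Zb φ ψ b R) ∧
    StronglyMeasurable (fun q : Cfg r × Cfg ds × Wsp dm => Vb S φ ψ b q.1 q.2.1 q.2.2)) ∧
  ∀ (R : ℝ) (v : Cfg r → Cfg ds → Wsp dm → F), 0 < R → StronglyMeasurable (fun q : Cfg r × Cfg ds × Wsp dm => v q.1 q.2.1 q.2.2) →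
    StronglyMeasurable (fun p : Cfg dh × Wsp dm => Ts0 ψ v R p.1 p.2) ∧
    ∫⁻ p : Cfg dh × Wsp dm, ‖Ts0 ψ v R p.1 p.2‖ₑ ^ 2 ∂(volume.prod volume) =
      ∫⁻ q : Cfg r × Cfg ds × Wsp dm, ‖v q.1 q.2.1 q.2.2‖ₑ ^ 2 ∂(volume.prod (volume.prod volume))

/-- **GL4** `⟨Z,u⟩ = ∫_{Nb}⟨Z̃, res u⟩` for `Z` supported in the tube. PROOF: GL0, GL1, GL3, Fubini (`Z ∈ L²`, the tube is bounded, so `Z ∈ L¹`). -/
def PairStmt (S : Setup d F) : Prop := FiniteDimensional ℂ F → ∀ (dh dm : ℕ) (φ : Spl dh dm d) (y₀ : Cfg dh), Std S φ y₀ →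
  ∃ ε₀ ρ₀ : ℝ, 0 < ε₀ ∧ 0 < ρ₀ ∧ ∃ j : EuclideanSpace ℝ (Fin dm) → ℝ, Continuous j ∧ (∀ a, 0 ≤ j a) ∧ j 0 = 1 ∧
    ∀ ε ρ : ℝ, 0 < ε → ε ≤ ε₀ → 0 < ρ → ρ ≤ ρ₀ → ∀ R : ℝ, 0 < R →
      (∀ f : Cfg d → ENNReal, Measurable f → ∫⁻ x in Tube S φ y₀ R ε ρ, f x =
        ∫⁻ q in (Metric.ball (0 : EuclideanSpace ℝ (Fin dm)) ρ) ×ˢ (Nb y₀ dm R ε),
          f (tub S φ q.1 q.2) * ENNReal.ofReal (S.Jd φ q.2.1 * j q.1) ∂(volume.prod (volume.prod volume))) ∧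
      ∀ Z u : Cfg d → F, StronglyMeasurable Z → MemLp Z 2 → (∀ x, Z x ≠ 0 → x ∈ Tube S φ y₀ R ε ρ) →
        Setup.Tst u → (∀ C x, S.G C u x = 0) →
        ∫ x, inner ℂ (Z x) (u x) = ∫ p in Nb y₀ dm R ε, inner ℂ (Zt S φ j ρ Z p) (S.res φ u p.1 p.2)
          ∂(volume.prod volume)

/-- **GL5** weighted bound for the orbit average, uniform in `R`. PROOF: Cauchy–Schwarz in `a`:
`|Z̃(p)|² ≤ J(y)·C∫(1+R³|a|²)^{-dm-1}da·∫_{|a|<ρ}j(a)(1+R³|a|²)^{dm+1}|Z(tub a p)|²da`, `∫(1+R³|a|²)^{-dm-1}da = C R^{-3dm/2}`,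
`R²|a|² ≤ C|x^m|²` (GL2), integrate with the formula in the hypothesis, and substitute `x^z = Rη`, `x^m = R^{-1/2}X`. -/
def WgtStmt (S : Setup d F) : Prop := FiniteDimensional ℂ F → ∀ (dh dm r ds : ℕ) (φ : Spl dh dm d) (ψ : Spz r ds dh)
  (y₀ : Cfg dh), Std S φ y₀ → ∃ ε₀ ρ₀ : ℝ, 0 < ε₀ ∧ 0 < ρ₀ ∧ ∀ ε ρ : ℝ, 0 < ε → ε ≤ ε₀ → 0 < ρ → ρ ≤ ρ₀ →
  ∀ j : EuclideanSpace ℝ (Fin dm) → ℝ, Continuous j → (∀ a, 0 ≤ j a) → j 0 = 1 →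
  (∀ R : ℝ, 0 < R → ∀ f : Cfg d → ENNReal, Measurable f → ∫⁻ x in Tube S φ y₀ R ε ρ, f x =
        ∫⁻ q in (Metric.ball (0 : EuclideanSpace ℝ (Fin dm)) ρ) ×ˢ (Nb y₀ dm R ε),
          f (tub S φ q.1 q.2) * ENNReal.ofReal (S.Jd φ q.2.1 * j q.1) ∂(volume.prod (volume.prod volume))) →
  ∃ C : ℝ, 0 < C ∧ ∀ R : ℝ, 1 ≤ R → ∀ b : Cfg r × Cfg ds × Cfg dm → F, StronglyMeasurable b →
      ∫⁻ p in Nb y₀ dm R ε, ‖Zt S φ j ρ (Zb φ ψ b R) p‖ₑ ^ 2 ∂(volume.prod volume) ≤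
        ENNReal.ofReal C * ∫⁻ q, ENNReal.ofReal ((1 + ‖q.2.2‖ ^ 2) ^ (dm + 1)) * ‖b q‖ₑ ^ 2
          ∂((volume : Measure (Cfg r)).prod ((volume : Measure (Cfg ds)).prod (volume : Measure (Cfg dm))))

/-- **GL6** convergence of the orbit average for compactly supported `b`. PROOF: substitute `y = cmb ψ (Rη) s`, `w = R^{-1/2}ω`, `a = R^{-3/2}α`
(all powers of `R` cancel; `J(cmb ψ (Rη) s) = R^{dm}|det(D_8(η) + R⁻¹D_8(s))|`); by GL2 the support in `(η,s,ω,α)` stays in a fixed compact set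
(`|α|, |ω| ≤ L/c`, `|s| ≤ L + 1`), the integrand is bounded and converges pointwise (`x^z/R → η`, `x^s → s`, `R^{1/2}x^m → ω - D(η)α`,
`spn(-R^{-3/2}α) → 1`, `j → 1`); dominated convergence twice. -/
def CnvStmt (S : Setup d F) : Prop := FiniteDimensional ℂ F → ∀ (dh dm r ds : ℕ) (φ : Spl dh dm d) (ψ : Spz r ds dh)
  (z₀ : Cfg r), Std S φ (cmb ψ z₀ 0) → ∃ ε₀ ρ₀ : ℝ, 0 < ε₀ ∧ 0 < ρ₀ ∧ ∀ ε ρ : ℝ, 0 < ε → ε ≤ ε₀ → 0 < ρ → ρ ≤ ρ₀ →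
  ∀ j : EuclideanSpace ℝ (Fin dm) → ℝ, Continuous j → (∀ a, 0 ≤ j a) → j 0 = 1 →
  ∀ b : Cfg r × Cfg ds × Cfg dm → F, Continuous b → HasCompactSupport b → (∀ q, b q ≠ 0 → ‖q.1 - z₀‖ ≤ ε / 2) →
    Tendsto (fun R : ℝ => ∫⁻ p in Nb (cmb ψ z₀ 0) dm R ε,
      ‖Zt S φ j ρ (Zb φ ψ b R) p - Ts0 ψ (Vb S φ ψ b) R p.1 p.2‖ₑ ^ 2 ∂(volume.prod volume)) atTop (𝓝 0)

/-- **GL7** the support of `Z^b_R` lies in the tube for large `R`. PROOF: ball of radius `δR` around `R·Y` (`TubeStmt`, any `ε`, `ρ`). -/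
def SupStmt (S : Setup d F) : Prop := ∀ (dh dm r ds : ℕ) (φ : Spl dh dm d) (ψ : Spz r ds dh) (z₀ : Cfg r),
  Std S φ (cmb ψ z₀ 0) → ∃ ε₀ ρ₀ : ℝ, 0 < ε₀ ∧ 0 < ρ₀ ∧ ∀ ε ρ : ℝ, 0 < ε → ε ≤ ε₀ → 0 < ρ → ρ ≤ ρ₀ → ∃ δ : ℝ, 0 < δ ∧
    (∀ R : ℝ, 0 < R → ∀ b : Cfg r × Cfg ds × Cfg dm → F,
      (∀ q, b q ≠ 0 → ‖q.1 - z₀‖ ≤ δ ∧ ‖q.2.1‖ ≤ δ * R ∧ ‖q.2.2‖ ≤ δ * (R * Real.sqrt R)) →
      ∀ x, Zb φ ψ b R x ≠ 0 → x ∈ Tube S φ (cmb ψ z₀ 0) R ε ρ)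

/-- `∑_i ⟨X_i, Ω X_i⟩` -/
noncomputable def qX (Om : Matrix (Fin dm) (Fin dm) ℝ) (X : Cfg dm) : ℝ :=
  ∑ i, ∑ B, ∑ C, X (i, B) * Om B C * X (i, C)

/-- `∫ exp(-s κ⁻² ⟨a, Ω³ a⟩) da` -/
noncomputable def Gs (κ : ℝ) (Om : Matrix (Fin dm) (Fin dm) ℝ) (s : ℝ) : ℝ :=
  ∫ a : EuclideanSpace ℝ (Fin dm), Real.exp (-(s * (κ ^ 2)⁻¹ * ∑ B, ∑ C, a B * (Om * Om * Om) B C * a C))

/-- `∫ exp(-∑⟨X_i,ΩX_i⟩) dX` -/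
noncomputable def Kx (Om : Matrix (Fin dm) (Fin dm) ℝ) : ℝ := ∫ X : Cfg dm, Real.exp (-qX Om X)

/-- frame independent normalisation -/
noncomputable def Nf (κ : ℝ) (Om : Matrix (Fin dm) (Fin dm) ℝ) : ℝ :=
  Real.sqrt (Gs κ Om 1 / (Gs κ Om (1 / 2) ^ 2 * Kx Om))

/-- **GL8** exact Gaussian identity. PROOF: `∑⟨X_i,ΩX_i⟩ = qf D Om w + κ⁻²⟨a - a₀, Ω³(a - a₀)⟩`, `D_8a₀ = s(w)` (`X_i = V_i + T_i(s - D_8a)`,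
`∑T_iΩV_i = 0`, `D_8ᵀΩ t2 D_8 = -Ω∑D_i² = κ⁻²Ω³`, block B `AlgStmt`). So `∫exp(-½qX) da = Gs(½)·gR(w)` and
`Gs(1)·gR(w)² = ∫exp(-qX(xi D w a))da`; integrating over `w` and substituting `X = xi D w a` (`|det| = |det D_8|`):
`Gs(1)·∫gR² = |det D_8|⁻¹ Kx`. -/
def GauStmt : Prop := ∀ (dm : ℕ) (κ : ℝ) (D : Fin 9 → Matrix (Fin dm) (Fin dm) ℝ) (Om : Matrix (Fin dm) (Fin dm) ℝ),
  0 < κ → Frz D → IsOm κ D Om → 0 < Gs κ Om 1 ∧ 0 < Gs κ Om (1 / 2) ∧ 0 < Kx Om ∧ 0 < (∫ w, gR D Om 1 w ^ 2) ∧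
    Integrable (fun w => gR D Om 1 w ^ 2) ∧
    ∀ w : Wsp dm, Integrable (fun a : EuclideanSpace ℝ (Fin dm) => Real.exp (-(1 / 2) * qX Om (xi D w a))) ∧
      Real.sqrt |(D 8).det| * (Nf κ Om * ∫ a, Real.exp (-(1 / 2) * qX Om (xi D w a))) =
        gR D Om 1 w / Real.sqrt (∫ w', gR D Om 1 w' ^ 2)

/-- the Gaussian profile `b(η,s,X) = N a(η,s) exp(-½⟨X,Ω(η)X⟩)` -/
noncomputable def bG (κ : ℝ) (Om : Cfg r → Matrix (Fin dm) (Fin dm) ℝ) (a : Cfg r → Cfg ds → F)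
    (q : Cfg r × Cfg ds × Cfg dm) : F :=
  ((Nf κ (Om q.1) * Real.exp (-(1 / 2) * qX (Om q.1) q.2.2) : ℝ) : ℂ) • a q.1 q.2.1

/-- the slice section `a(η,s) g_η(w)/|g_η|` -/
noncomputable def vG (S : Setup d F) (φ : Spl dh dm d) (ψ : Spz r ds dh) (Om : Cfg r → Matrix (Fin dm) (Fin dm) ℝ)
    (a : Cfg r → Cfg ds → F) (η : Cfg r) (s : Cfg ds) (w : Wsp dm) : F :=
  ((gR (Dz S φ ψ η) (Om η) 1 w / Real.sqrt (∫ w', gR (Dz S φ ψ η) (Om η) 1 w' ^ 2) : ℝ) : ℂ) • a η s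

/-- **GL9** moments, uniformly near `z₀`. PROOF: on the compact ball `Ω(η) ≥ c > 0` and bounded (continuity and `IsOm.pos`), Gaussian domination,
`continuousOn_of_dominated` for `Gs`, `Kx` (`Kx`, `Gs > 0`). -/
def MomStmt : Prop := ∀ (r dm : ℕ) (κ : ℝ) (z₀ : Cfg r) (δ : ℝ) (D : Cfg r → Fin 9 → Matrix (Fin dm) (Fin dm) ℝ)
  (Om : Cfg r → Matrix (Fin dm) (Fin dm) ℝ), 0 < κ → 0 < δ →
  (∀ η, ‖η - z₀‖ ≤ δ → Frz (D η) ∧ IsOm κ (D η) (Om η)) → ContinuousOn Om {η | ‖η - z₀‖ ≤ δ} →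
  ContinuousOn (fun η => Nf κ (Om η)) {η | ‖η - z₀‖ ≤ δ} ∧
  ∀ ε : ℝ, 0 < ε → ∃ C L : ℝ, 0 < C ∧ 0 < L ∧ ∀ η, ‖η - z₀‖ ≤ δ →
    ∫⁻ X : Cfg dm, ENNReal.ofReal ((1 + ‖X‖ ^ 2) ^ (dm + 1) * (Nf κ (Om η) * Real.exp (-(1 / 2) * qX (Om η) X)) ^ 2) ≤
      ENNReal.ofReal C ∧
    ∫⁻ X in {X : Cfg dm | L ≤ ‖X‖},
      ENNReal.ofReal ((1 + ‖X‖ ^ 2) ^ (dm + 1) * (Nf κ (Om η) * Real.exp (-(1 / 2) * qX (Om η) X)) ^ 2) ≤ ENNReal.ofReal ε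

/-- **GL10** MAIN: for every section `a ∈ L²` supported near `z₀` (values in `F`), every sequence of cutoffs `χ_n → 1` supported in
`|x^s|, |x^m| ≤ δR_n`, and every bounded sequence of gauge invariant test functions, the global functional and the slice functional have the
same limit. PROOF. GL7 (support), GL4 (pairing), `‖res u_n‖_{L²(Nb)} ≤ C‖u_n‖` (`NormStmt`). For `a'` continuous with compact support (in the `2δ` ball) and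
`b' = bG a'·χ(|X|/L)` (continuous by GL9): GL6. GL8: `Vb(bG a) = vG a`, `‖vG a‖_{L²} = ‖a‖`. `a' → a` in `L²`, `L → ∞`: GL5 on the `Z` side (weighted norm of
`χ_n bG a - b'` small by GL9 and dominated convergence for `(1-χ_n)bG a`), GL3 on the slice side (`|Vb b'' |² ≤ C∫(1+|X|²)^{dm+1}|b''|²` or directly
`‖Vb(bG a) - Vb(b')‖` by monotonicity). -/
def GluStmt (S : Setup d F) : Prop := FiniteDimensional ℂ F → ∀ (dh dm r ds : ℕ) (φ : Spl dh dm d) (ψ : Spz r ds dh)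
  (z₀ : Cfg r), IsZ S φ ψ → Std S φ (cmb ψ z₀ 0) → ∃ ε₀ : ℝ, 0 < ε₀ ∧ ∀ ε : ℝ, 0 < ε → ε ≤ ε₀ → ∃ δ₀ : ℝ, 0 < δ₀ ∧
  ∀ δ : ℝ, 0 < δ → δ ≤ δ₀ → ∀ (Om : Cfg r → Matrix (Fin dm) (Fin dm) ℝ),
  (∀ η, ‖η - z₀‖ ≤ 2 * δ → Frz (Dz S φ ψ η) ∧ IsOm S.κ (Dz S φ ψ η) (Om η)) →
  ContinuousOn Om {η | ‖η - z₀‖ ≤ 2 * δ} →
  ∀ a : Cfg r → Cfg ds → F, StronglyMeasurable (fun q : Cfg r × Cfg ds => a q.1 q.2) →
  MemLp (fun q : Cfg r × Cfg ds => a q.1 q.2) 2 (volume.prod volume) →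
  (∀ η s, a η s ≠ 0 → ‖η - z₀‖ ≤ δ) →
  ∀ (R : ℕ → ℝ) (χ : ℕ → Cfg r × Cfg ds × Cfg dm → ℝ) (u : ℕ → Cfg d → F) (C : ℝ), Tendsto R atTop atTop →
  (∀ n, Measurable (χ n)) → (∀ n q, 0 ≤ χ n q ∧ χ n q ≤ 1) → (∀ q, Tendsto (fun n => χ n q) atTop (𝓝 1)) →
  (∀ n q, χ n q ≠ 0 → ‖q.2.1‖ ≤ δ₀ * R n ∧ ‖q.2.2‖ ≤ δ₀ * (R n * Real.sqrt (R n))) →
  (∀ n, Setup.Tst (u n)) → (∀ n C x, S.G C (u n) x = 0) → (∀ n, ∫ x, ‖u n x‖ ^ 2 ≤ C) →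
  Tendsto (fun n => (∫ x, inner ℂ (Zb φ ψ (fun q => ((χ n q : ℝ) : ℂ) • bG S.κ Om a q) (R n) x) (u n x)) -
    ∫ p in Nb (cmb ψ z₀ 0) dm (R n) ε, inner ℂ (Ts0 ψ (vG S φ ψ Om a) (R n) p.1 p.2) (S.res φ (u n) p.1 p.2)
      ∂(volume.prod volume)) atTop (𝓝 0)

/-- the weight `(1+|X|²)^{dm+1}` -/
noncomputable def wM (r ds dm : ℕ) : Measure (Cfg r × Cfg ds × Cfg dm) :=
  ((volume : Measure (Cfg r)).prod ((volume : Measure (Cfg ds)).prod (volume : Measure (Cfg dm)))).withDensity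
    fun q => ENNReal.ofReal ((1 + ‖q.2.2‖ ^ 2) ^ (dm + 1))

/-- **GL14** uniform bound of the global functional on gauge invariant functions (local form). PROOF: GL7, GL4, GL5, `NormStmt`. -/
def GluBdStmt (S : Setup d F) : Prop := FiniteDimensional ℂ F → ∀ (dh dm r ds : ℕ) (φ : Spl dh dm d) (ψ : Spz r ds dh)
  (z₀ : Cfg r), Std S φ (cmb ψ z₀ 0) → ∃ δ₀ C R₁ : ℝ, 0 < δ₀ ∧ 0 < C ∧ 0 < R₁ ∧ ∀ R : ℝ, R₁ ≤ R →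
  ∀ b : Cfg r × Cfg ds × Cfg dm → F, StronglyMeasurable b →
  (∀ q, b q ≠ 0 → ‖q.1 - z₀‖ ≤ δ₀ ∧ ‖q.2.1‖ ≤ δ₀ * R ∧ ‖q.2.2‖ ≤ δ₀ * (R * Real.sqrt R)) → MemLp b 2 (wM r ds dm) →
  ∀ u : Cfg d → F, Setup.Tst u → (∀ C x, S.G C u x = 0) →
    ‖∫ x, inner ℂ (Zb φ ψ b R x) (u x)‖ₑ ≤ ENNReal.ofReal C * eLpNorm b 2 (wM r ds dm) * eLpNorm u 2 volume

/-- regular points: the `D_i(η)` have no common kernel (the centraliser of `η` is `h`) -/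
def Reg (S : Setup d F) (φ : Spl dh dm d) (ψ : Spz r ds dh) : Set (Cfg r) :=
  {η | ∀ x : Fin dm → ℝ, (∀ i, (Dz S φ ψ η i).mulVec x = 0) → x = 0}

/-- **GL15** uniform bound over compact sets of regular points. PROOF: at `η₀ ∈ K` there is a unit vector `e ∈ ℝ^9` with `∑e_iD_i(η₀)` invertible
(`Std.lean`: `std_gen`; the `D_i(η₀)` are antisymmetric and commute by `IsZ`), `R₀ ∈ O(9)` with last row `e`; `Std (S.rot R₀ 1) φ (cmb ψ (rox R₀ 1 η₀) 0)`;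
GL14 for `S.rot R₀ 1` and covariance `Zb φ ψ b R x = Zb φ ψ (b ∘ rox⁻¹) R (rox R₀ 1 x)`; finite subcover, `b = ∑ b·1_{A_k}` (disjoint measurable pieces). -/
def GluKStmt (S : Setup d F) : Prop := FiniteDimensional ℂ F → ∀ (dh dm r ds : ℕ) (φ : Spl dh dm d) (ψ : Spz r ds dh)
  (K : Set (Cfg r)), S.IsSub φ → IsZ S φ ψ → IsCompact K → K ⊆ Reg S φ ψ →
  ∃ δ C R₁ : ℝ, 0 < δ ∧ 0 < C ∧ 0 < R₁ ∧ ∀ R : ℝ, R₁ ≤ R →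
  ∀ b : Cfg r × Cfg ds × Cfg dm → F, StronglyMeasurable b →
  (∀ q, b q ≠ 0 → q.1 ∈ K ∧ ‖q.2.1‖ ≤ δ * R ∧ ‖q.2.2‖ ≤ δ * (R * Real.sqrt R)) → MemLp b 2 (wM r ds dm) →
  ∀ u : Cfg d → F, Setup.Tst u → (∀ C x, S.G C u x = 0) →
    ‖∫ x, inner ℂ (Zb φ ψ b R x) (u x)‖ₑ ≤ ENNReal.ofReal C * eLpNorm b 2 (wM r ds dm) * eLpNorm u 2 volume

end Vale.Agent.P353.Z.AN
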