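import Vale.Agent.P353.AN.GL.StmtD
import Vale.Agent.P353.AN.A.Rot
import Vale.Agent.P353.AN.X.TwoCov

/-! # P353, all `N`, block GL: the global functional does not depend on the frame (GL13) -/

open MeasureTheory Filter Topology
open scoped ContDiff

namespace Vale.Agent.P353.Z.AN

variable {d dh dm ds dz n : ℕ} {F : Type*} [NormedAddCommGroup F] [InnerProductSpace ℂ F]
  {R₀ : Matrix (Fin 9) (Fin 9) ℝ}

theorem gb969_one (n : ℕ) :
    (1 : Matrix (Fin n) (Fin n) ℝ) * (1 : Matrix (Fin n) (Fin n) ℝ).transpose = 1 := by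
  rw [Matrix.transpose_one, one_mul]

/-- rotation of the vector index only -/
theorem gb969_apply (R : Matrix (Fin 9) (Fin 9) ℝ) (x : Cfg n) (i : Fin 9) (A : Fin n) :
    rox R 1 x (i, A) = ∑ j, R i j * x (j, A) := by
  rw [rt_apply']
  simp [Matrix.one_apply]

theorem gb969_inv (hR : R₀ * R₀.transpose = 1) (x : Cfg n) : rox R₀.transpose 1 (rox R₀ 1 x) = x := by
  have h := rt_inv hR (gb969_one n) x
  rwa [Matrix.transpose_one] at h

theorem gb969_hR' (hR : R₀ * R₀.transpose = 1) : R₀.transpose * R₀.transpose.transpose = 1 := by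
  rw [Matrix.transpose_transpose]
  exact mul_eq_one_comm.1 hR

theorem gb969_inv' (hR : R₀ * R₀.transpose = 1) (x : Cfg n) : rox R₀ 1 (rox R₀.transpose 1 x) = x := by
  have h := gb969_inv (gb969_hR' hR) x
  rwa [Matrix.transpose_transpose] at h

theorem gb969_smul (R : Matrix (Fin 9) (Fin 9) ℝ) (c : ℝ) (x : Cfg n) :
    rox R 1 (c • x) = c • rox R 1 x := by
  ext ⟨i, A⟩
  rw [gb969_apply, PiLp.smul_apply, gb969_apply, smul_eq_mul, Finset.mul_sum]
  refine Finset.sum_congr rfl fun j _ => ?_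
  rw [PiLp.smul_apply, smul_eq_mul]
  ring

theorem gb969_zy (R : Matrix (Fin 9) (Fin 9) ℝ) (φ : Spl dh dm d) (x : Cfg d) :
    zy φ (rox R 1 x) = rox R 1 (zy φ x) := by
  ext ⟨i, A⟩
  rw [gb969_apply]
  exact gb969_apply R x i _

theorem gb969_pm (R : Matrix (Fin 9) (Fin 9) ℝ) (φ : Spl dh dm d) (x : Cfg d) :
    pm φ (rox R 1 x) = rox R 1 (pm φ x) := by
  ext ⟨i, A⟩
  rw [gb969_apply]
  exact gb969_apply R x i _

theorem gb969_hz (R : Matrix (Fin 9) (Fin 9) ℝ) (ψ : Spz dz ds dh) (x : Cfg dh) :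
    hz ψ (rox R 1 x) = rox R 1 (hz ψ x) := by
  ext ⟨i, A⟩
  rw [gb969_apply]
  exact gb969_apply R x i _

theorem gb969_hs (R : Matrix (Fin 9) (Fin 9) ℝ) (ψ : Spz dz ds dh) (x : Cfg dh) :
    hs ψ (rox R 1 x) = rox R 1 (hs ψ x) := by
  ext ⟨i, A⟩
  rw [gb969_apply]
  exact gb969_apply R x i _

theorem gb969_cmb (R : Matrix (Fin 9) (Fin 9) ℝ) (ψ : Spl ds dz dh) (η : Cfg dz) :
    AD.cmb ψ 0 (rox R 1 η) = rox R 1 (AD.cmb ψ 0 η) := by
  ext ⟨i, A⟩
  rw [gb969_apply]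
  obtain ⟨a, rfl⟩ := ψ.surjective A
  rcases a with a | a
  · simp [AD.cmb]
  · simpa [AD.cmb] using gb969_apply R η i a

theorem gb969_f (S : Setup d F) (hR : R₀ * R₀.transpose = 1)
    (h1 : (1 : Matrix (Fin d) (Fin d) ℝ) * (1 : Matrix (Fin d) (Fin d) ℝ).transpose = 1)
    (A B C : Fin d) : (S.rot R₀ hR 1 h1).f A B C = S.f A B C := by
  show ∑ A', ∑ B', ∑ C', (1 : Matrix (Fin d) (Fin d) ℝ) A A' * (1 : Matrix (Fin d) (Fin d) ℝ) B B' *
    (1 : Matrix (Fin d) (Fin d) ℝ) C C' * S.f A' B' C' = S.f A B C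
  simp [Matrix.one_apply]

theorem gb969_Dz (S : Setup d F) (hR : R₀ * R₀.transpose = 1)
    (h1 : (1 : Matrix (Fin d) (Fin d) ℝ) * (1 : Matrix (Fin d) (Fin d) ℝ).transpose = 1)
    (φ : Spl dh dm d) (ψ : Spl ds dz dh) (η : Cfg dz) :
    AD.Dz (S.rot R₀ hR 1 h1) φ ψ (rox R₀ 1 η) = fun i => ∑ j, R₀ i j • AD.Dz S φ ψ η j := by
  funext i
  ext B C
  rw [Matrix.sum_apply]
  simp only [AD.Dz, Setup.Dy, Setup.Dm, Matrix.smul_apply, Matrix.of_apply, gb969_f, gb969_cmb,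
    gb969_apply, smul_eq_mul, Finset.mul_sum]
  rw [Finset.sum_comm]
  refine Finset.sum_congr rfl fun j _ => Finset.sum_congr rfl fun A _ => ?_
  ring

theorem gb969_omc (κ : ℝ) (D D' : Fin 9 → Matrix (Fin dm) (Fin dm) ℝ)
    (h : ∀ Om, IsOm κ D Om ↔ IsOm κ D' Om) : AD.omc κ D = AD.omc κ D' := by
  have h1 : IsOm κ D = IsOm κ D' := funext fun Om => propext (h Om)
  unfold AD.omc
  rw [h1]

theorem gb969_om (S : Setup d F) (hR : R₀ * R₀.transpose = 1)
    (h1 : (1 : Matrix (Fin d) (Fin d) ℝ) * (1 : Matrix (Fin d) (Fin d) ℝ).transpose = 1)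
    (φ : Spl dh dm d) (ψ : Spl ds dz dh) (η : Cfg dz) :
    AD.omc (S.rot R₀ hR 1 h1).κ (AD.Dz (S.rot R₀ hR 1 h1) φ ψ (rox R₀ 1 η)) =
      AD.omc S.κ (AD.Dz S φ ψ η) := by
  rw [gb969_Dz]
  exact (gb969_omc S.κ _ _ fun Om => (AX.covF0 S φ R₀ hR h1 (AD.Dz S φ ψ η) Om).2.2).symm

theorem gb969_F0 (S : Setup d F) (hR : R₀ * R₀.transpose = 1)
    (h1 : (1 : Matrix (Fin d) (Fin d) ℝ) * (1 : Matrix (Fin d) (Fin d) ℝ).transpose = 1)
    (φ : Spl dh dm d) (ψ : Spl ds dz dh) (η : Cfg dz) (Om : Matrix (Fin dm) (Fin dm) ℝ) :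
    (S.rot R₀ hR 1 h1).F0 φ (AD.Dz (S.rot R₀ hR 1 h1) φ ψ (rox R₀ 1 η)) Om =
      S.F0 φ (AD.Dz S φ ψ η) Om := by
  rw [gb969_Dz]
  exact (AX.covF0 S φ R₀ hR h1 (AD.Dz S φ ψ η) Om).2.1

theorem gb969_proj [FiniteDimensional ℂ F] {K K' : Submodule ℂ F} (h : K = K') (v : F) :
    K.starProjection v = K'.starProjection v := by
  subst h
  rfl

theorem gb969_qX (hR : R₀ * R₀.transpose = 1) (Om : Matrix (Fin dm) (Fin dm) ℝ) (X : Cfg dm) :
    qX Om (rox R₀ 1 X) = qX Om X := by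
  unfold qX
  simp only [gb969_apply]
  have key : ∀ B C : Fin dm, ∑ i, (∑ j, R₀ i j * X (j, B)) * Om B C * (∑ j, R₀ i j * X (j, C)) =
      ∑ i, X (i, B) * Om B C * X (i, C) := by
    intro B C
    have h := rt_con (K := ℝ) (M := ℝ) (fun i j => R₀ i j) (rt_orth hR)
      (fun j => X (j, B)) (fun j => X (j, C))
    simp only [smul_eq_mul] at h
    have e1 : ∀ i, (∑ j, R₀ i j * X (j, B)) * Om B C * (∑ j, R₀ i j * X (j, C)) =
        Om B C * ((∑ j, R₀ i j * X (j, B)) * (∑ j, R₀ i j * X (j, C))) := fun i => by ring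
    have e2 : ∀ i, X (i, B) * Om B C * X (i, C) = Om B C * (X (i, B) * X (i, C)) := fun i => by ring
    simp only [e1, e2, ← Finset.mul_sum, h]
  have sw : ∀ g : Fin 9 → Fin dm → Fin dm → ℝ,
      ∑ i, ∑ B, ∑ C, g i B C = ∑ B, ∑ C, ∑ i, g i B C := by
    intro g
    rw [Finset.sum_comm]
    exact Finset.sum_congr rfl fun B _ => Finset.sum_comm
  rw [sw, sw]
  exact Finset.sum_congr rfl fun B _ => Finset.sum_congr rfl fun C _ => key B C

/-- covariance of the global functional -/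
theorem gb969_Zgl [FiniteDimensional ℂ F] (S : Setup d F) (hR : R₀ * R₀.transpose = 1)
    (h1 : (1 : Matrix (Fin d) (Fin d) ℝ) * (1 : Matrix (Fin d) (Fin d) ℝ).transpose = 1)
    (φ : Spl dh dm d) (ψ : Spl ds dz dh) (c : ℝ → ℝ) (ε r : ℝ) (χ : Cfg dz → ℝ) (o : Cfg ds → F)
    (x : Cfg d) :
    Zgl (S.rot R₀ hR 1 h1) φ ψ c ε r (fun z => χ (rox R₀.transpose 1 z))
      (fun s => o (rox R₀.transpose 1 s)) (rox R₀ 1 x) = Zgl S φ ψ c ε r χ o x := by
  unfold Zgl Zb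
  simp only [gb969_zy, gb969_pm, gb969_hz, gb969_hs, ← gb969_smul]
  unfold bG aP
  simp only [gb969_om, gb969_qX hR, gb969_inv hR, rt_norm hR (gb969_one _)]
  congr 3
  congr 1
  exact gb969_proj (gb969_F0 S hR h1 φ ψ _ _) _

/-- a gauge invariant test function in the rotated frame -/
theorem gb969_GInv (S : Setup d F) (hR : R₀ * R₀.transpose = 1)
    (h1 : (1 : Matrix (Fin d) (Fin d) ℝ) * (1 : Matrix (Fin d) (Fin d) ℝ).transpose = 1)
    {u : Cfg d → F} (hu : AD.GInv S u) :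
    AD.GInv (S.rot R₀ hR 1 h1) (fun x => u (rox R₀.transpose 1 x)) := by
  have hT : Setup.Tst (fun x => u (rox R₀.transpose 1 x)) := by
    refine ⟨hu.1.1.comp (rtE R₀.transpose (gb969_hR' hR) 1 (gb969_one d)).contDiff, ?_⟩
    exact hu.1.2.comp_homeomorph (rtE R₀.transpose (gb969_hR' hR) 1 (gb969_one d)).toHomeomorph
  refine ⟨hT, fun C x => ?_⟩
  have h2 := rt_G S hR h1 (fun x => u (rox R₀.transpose 1 x)) (hT.1.differentiable (by simp)) C
    (rox R₀.transpose 1 x)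
  rw [gb969_inv' hR] at h2
  rw [h2]
  simp only [gb969_inv hR]
  exact Finset.sum_eq_zero fun C' _ => by rw [hu.2 C', smul_zero]

omit [InnerProductSpace ℂ F] in
theorem gb969_mas (hR : R₀ * R₀.transpose = 1) (u : Cfg d → F) (s t : ℝ) :
    AD.mas (fun x => u (rox R₀.transpose 1 x)) (AD.shl d s t) = AD.mas u (AD.shl d s t) := by
  unfold AD.mas
  have hmp := rt_mp (gb969_hR' hR) (gb969_one d)
  have he : MeasurableEmbedding (rox R₀.transpose 1 : Cfg d → Cfg d) :=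
    (rtE R₀.transpose (gb969_hR' hR) 1 (gb969_one d)).toHomeomorph.measurableEmbedding
  have h3 := hmp.setIntegral_preimage_emb he (fun x => ‖u x‖ ^ 2) (AD.shl d s t)
  have h4 : (rox R₀.transpose 1 : Cfg d → Cfg d) ⁻¹' AD.shl d s t = AD.shl d s t := by
    ext x
    show (s < ‖rox R₀.transpose 1 x‖ ∧ ‖rox R₀.transpose 1 x‖ < t) ↔ (s < ‖x‖ ∧ ‖x‖ < t)
    rw [rt_norm (gb969_hR' hR) (gb969_one d)]
  rw [h4] at h3
  exact h3

/-- **GL13** in every frame the slice functionals have the same limit as the frame independent global functional. -/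
theorem glob_stmt (S : Setup d F) (hS : ∀ S' : Setup d F, SfuStmt S') : GlobStmt S := by
  intro hF R₀ hR h1 dh dm ds dz φ ψ z₀ hz hStd
  have hz' : rox R₀ 1 z₀ ≠ 0 := by
    intro h0
    apply hz
    rw [← norm_eq_zero, ← rt_norm hR (gb969_one dz), h0, norm_zero]
  obtain ⟨ε₀, hε₀, H⟩ := hS (S.rot R₀ hR 1 h1) hF dh dm ds dz φ ψ (rox R₀ 1 z₀) hz' hStd
  refine ⟨ε₀, hε₀, fun ε hε hεε c hc χ o hχ hχs ho R u hRt hu hm => ?_⟩
  have hχ' : ContDiff ℝ ∞ (fun z => χ (rox R₀.transpose 1 z)) :=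
    hχ.comp (rtE R₀.transpose (gb969_hR' hR) (1 : Matrix (Fin dz) (Fin dz) ℝ) (gb969_one dz)).contDiff
  have hχs' : tsupport (fun z => χ (rox R₀.transpose 1 z)) ⊆ Metric.ball (rox R₀ 1 z₀) ε := by
    have h2 : tsupport (χ ∘ (rtE R₀.transpose (gb969_hR' hR) (1 : Matrix (Fin dz) (Fin dz) ℝ)
        (gb969_one dz)).toHomeomorph) = _ := tsupport_comp_eq_preimage χ _
    intro z hz2
    have h3 : rox R₀.transpose 1 z ∈ tsupport χ := by
      have h4 : z ∈ tsupport (χ ∘ (rtE R₀.transpose (gb969_hR' hR)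
        (1 : Matrix (Fin dz) (Fin dz) ℝ) (gb969_one dz)).toHomeomorph) := hz2
      rw [h2] at h4
      exact h4
    have h5 := hχs h3
    rw [Metric.mem_ball, dist_eq_norm] at h5 ⊢
    have h6 : rox R₀ 1 (rox R₀.transpose 1 z - z₀) = z - rox R₀ 1 z₀ := by
      have h7 := (rtE R₀ hR (1 : Matrix (Fin dz) (Fin dz) ℝ) (gb969_one dz)).map_sub
        (rox R₀.transpose 1 z) z₀
      have h8 : rox R₀ 1 (rox R₀.transpose 1 z - z₀) =
        rox R₀ 1 (rox R₀.transpose 1 z) - rox R₀ 1 z₀ := h7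
      rw [h8, gb969_inv' hR]
    rw [← h6, rt_norm hR (gb969_one dz)]
    exact h5
  have ho' : MemLp (fun s => o (rox R₀.transpose 1 s)) 2 (volume : Measure (Cfg ds)) :=
    ho.comp_measurePreserving (rt_mp (gb969_hR' hR) (gb969_one ds))
  have h2 := H ε hε hεε c hc (fun z => χ (rox R₀.transpose 1 z)) (fun s => o (rox R₀.transpose 1 s))
    hχ' hχs' ho' R (fun n x => u n (rox R₀.transpose 1 x)) hRt (fun n => gb969_GInv S hR h1 (hu n))
    (fun s t hs hst => by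
      obtain ⟨C, hC⟩ := hm s t hs hst
      exact ⟨C, fun n => (gb969_mas hR (u n) _ _).le.trans (hC n)⟩)
  refine h2.congr fun n => ?_
  congr 1
  have hmp := rt_mp hR (gb969_one d)
  have he : MeasurableEmbedding (rox R₀ 1 : Cfg d → Cfg d) :=
    (rtE R₀ hR 1 (gb969_one d)).toHomeomorph.measurableEmbedding
  rw [← hmp.integral_comp he]
  refine integral_congr_ae (Eventually.of_forall fun x => ?_)
  simp only [gb969_Zgl, gb969_inv hR]

end Vale.Agent.P353.Z.AN
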