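import Vale.Agent.P353.AN.GL.Stmt
import Vale.Agent.P353.AN.B.AlgQF

/-! # P353, all `N`, block GL8: the exact Gaussian identity (prover helper213) -/

open MeasureTheory Filter Topology Matrix
open scoped ContDiff

namespace Vale.Agent.P353.Z.AN

section GauAlg

variable {dm : ℕ} {κ : ℝ} {D : Fin 9 → Matrix (Fin dm) (Fin dm) ℝ} {Om : Matrix (Fin dm) (Fin dm) ℝ}

lemma gau_dot (A : Matrix (Fin dm) (Fin dm) ℝ) (v w : Fin dm → ℝ) :
    ∑ B, ∑ C, v B * A B C * w C = v ⬝ᵥ (A *ᵥ w) := by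
  simp only [dotProduct, mulVec, Finset.mul_sum, mul_assoc]

lemma gau_xi (D : Fin 9 → Matrix (Fin dm) (Fin dm) ℝ) (w : Wsp dm) (a : EuclideanSpace ℝ (Fin dm)) (i : Fin 9) :
    (fun B => xi D w a (i, B)) = wt w i - D i *ᵥ a.ofLp := rfl

lemma gau_qX (Om : Matrix (Fin dm) (Fin dm) ℝ) (X : Cfg dm) :
    qX Om X = ∑ i, (fun B => X (i, B)) ⬝ᵥ (Om *ᵥ fun B => X (i, B)) := by
  unfold qX
  exact Finset.sum_congr rfl fun i _ => gau_dot Om (fun B => X (i, B)) (fun B => X (i, B))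

/-- the point `a₀` with `D_8 a₀ = s(w)` -/
noncomputable def gauA (D : Fin 9 → Matrix (Fin dm) (Fin dm) ℝ) (w : Wsp dm) : EuclideanSpace ℝ (Fin dm) :=
  WithLp.toLp 2 ((D 8)⁻¹ *ᵥ sV D w)

lemma gau_cross (h : Frz D) (hO : IsOm κ D Om) (hc : ∀ i, D i * Om = Om * D i)
    (V : Fin 9 → Fin dm → ℝ) (hV : ∑ i, D i *ᵥ V i = 0) (b : Fin dm → ℝ) :
    ∑ i, V i ⬝ᵥ (Om *ᵥ (D i *ᵥ b)) = 0 ∧ ∑ i, (D i *ᵥ b) ⬝ᵥ (Om *ᵥ V i) = 0 := by
  have key : ∀ (v : Fin dm → ℝ) i, (D i *ᵥ b) ⬝ᵥ (Om *ᵥ v) = -(b ⬝ᵥ (Om *ᵥ (D i *ᵥ v))) := by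
    intro v i
    rw [dotProduct_comm, dotProduct_mulVec, ← mulVec_transpose, h.anti i, neg_mulVec, neg_dotProduct,
      mulVec_mulVec, hc i, ← mulVec_mulVec, dotProduct_comm]
  have e2 : ∑ i, (D i *ᵥ b) ⬝ᵥ (Om *ᵥ V i) = 0 := by
    simp only [key, Finset.sum_neg_distrib]
    rw [← dotProduct_sum, ← mulVec_sum, hV, mulVec_zero, dotProduct_zero, neg_zero]
  refine ⟨?_, e2⟩
  rw [← e2]
  refine Finset.sum_congr rfl fun i _ => ?_
  rw [dotProduct_mulVec, ← mulVec_transpose, hO.symm, dotProduct_comm]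

lemma gau_quad (hκ : 0 < κ) (h : Frz D) (hO : IsOm κ D Om) (hc : ∀ i, D i * Om = Om * D i) (b : Fin dm → ℝ) :
    ∑ i, (D i *ᵥ b) ⬝ᵥ (Om *ᵥ (D i *ᵥ b)) = (κ ^ 2)⁻¹ * (b ⬝ᵥ ((Om * Om * Om) *ᵥ b)) := by
  have key : ∀ i, (D i *ᵥ b) ⬝ᵥ (Om *ᵥ (D i *ᵥ b)) = -(b ⬝ᵥ ((Om * (D i * D i)) *ᵥ b)) := by
    intro i
    rw [dotProduct_comm, dotProduct_mulVec, ← mulVec_transpose, h.anti i, neg_mulVec, neg_dotProduct,
      mulVec_mulVec, hc i, ← mulVec_mulVec, dotProduct_comm, mulVec_mulVec, mulVec_mulVec, ← mul_assoc]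
  simp only [key, Finset.sum_neg_distrib]
  rw [← dotProduct_sum, ← sum_mulVec, ← Finset.mul_sum]
  have h2 : (∑ i, D i * D i) = -((κ ^ 2)⁻¹ • (Om * Om)) := by
    rw [hO.sq, smul_neg, neg_neg, smul_smul, inv_mul_cancel₀ (by positivity), one_smul]
  rw [h2, mul_neg, neg_mulVec, dotProduct_neg, neg_neg, mul_smul_comm, smul_mulVec, dotProduct_smul, smul_eq_mul,
    mul_assoc]

/-- completion of the square -/
theorem gau_qX_xi (hκ : 0 < κ) (h : Frz D) (hO : IsOm κ D Om) (w : Wsp dm) (a : EuclideanSpace ℝ (Fin dm)) :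
    qX Om (xi D w a) = qf D Om w +
      (κ ^ 2)⁻¹ * ∑ B, ∑ C, (a - gauA D w) B * (Om * Om * Om) B C * (a - gauA D w) C := by
  obtain ⟨hTs, hTc, hT8, hTO, hDO, ht2, hDT, hTV, hDV, hDw, hwt⟩ := Z.alg dm κ D Om hκ h hO
  have hmul : D 8 * (D 8)⁻¹ = 1 := Matrix.mul_nonsing_inv _ (isUnit_iff_ne_zero.2 h.inv)
  have hinv : ∀ i, D i * (D 8)⁻¹ = tI D i := by
    intro i
    calc D i * (D 8)⁻¹ = D 8 * tI D i * (D 8)⁻¹ := by rw [← hDT i]
      _ = tI D i * D 8 * (D 8)⁻¹ := by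
          congr 1
          rw [← hDT i]
          have := hTc i 8
          unfold tI
          rw [mul_assoc, h.comm i 8, ← mul_assoc, Matrix.nonsing_inv_mul _ (isUnit_iff_ne_zero.2 h.inv), one_mul]
      _ = tI D i := by rw [mul_assoc, hmul, mul_one]
  set b : Fin dm → ℝ := (a - gauA D w).ofLp with hb
  have hX : ∀ i, (fun B => xi D w a (i, B)) = VV D w i - D i *ᵥ b := by
    intro i
    rw [gau_xi]
    have e1 : D i *ᵥ a.ofLp = D i *ᵥ b + tI D i *ᵥ sV D w := by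
      rw [hb]
      change _ = D i *ᵥ (a.ofLp - (D 8)⁻¹ *ᵥ sV D w) + _
      rw [mulVec_sub, mulVec_mulVec, hinv, sub_add_cancel]
    rw [e1]
    unfold VV
    abel
  rw [gau_qX]
  have e2 : ∀ i, (fun B => xi D w a (i, B)) ⬝ᵥ (Om *ᵥ fun B => xi D w a (i, B)) =
      VV D w i ⬝ᵥ (Om *ᵥ VV D w i) - VV D w i ⬝ᵥ (Om *ᵥ (D i *ᵥ b)) - (D i *ᵥ b) ⬝ᵥ (Om *ᵥ VV D w i) +
        (D i *ᵥ b) ⬝ᵥ (Om *ᵥ (D i *ᵥ b)) := by
    intro i
    rw [hX i, mulVec_sub, dotProduct_sub, sub_dotProduct, sub_dotProduct]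
    ring
  simp only [e2, Finset.sum_add_distrib, Finset.sum_sub_distrib]
  rw [(gau_cross h hO hDO (VV D w) (hDV w) b).1, (gau_cross h hO hDO (VV D w) (hDV w) b).2, sub_zero, sub_zero,
    gau_quad hκ h hO hDO b]
  unfold qf
  congr 2
  exact (gau_dot (Om * Om * Om) b b).symm

end GauAlg

section GauInt

variable {E : Type*} [NormedAddCommGroup E] [InnerProductSpace ℝ E] [FiniteDimensional ℝ E]

/-- positive definite forms are bounded below -/
lemma gau_low (Q : E → ℝ) (hc : Continuous Q) (hh : ∀ (t : ℝ) x, Q (t • x) = t ^ 2 * Q x)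
    (hp : ∀ x, x ≠ 0 → 0 < Q x) : ∃ c : ℝ, 0 < c ∧ ∀ x, c * ‖x‖ ^ 2 ≤ Q x := by
  have h0 : Q 0 = 0 := by
    have := hh 0 0
    rwa [smul_zero, zero_pow two_ne_zero, zero_mul] at this
  rcases subsingleton_or_nontrivial E with hs | hs
  · refine ⟨1, one_pos, fun x => ?_⟩
    rw [Subsingleton.elim x 0, h0]
    simp
  · obtain ⟨x0, hx0, hmin⟩ := (isCompact_sphere (0 : E) 1).exists_isMinOn
      (NormedSpace.sphere_nonempty.2 zero_le_one) (f := Q) hc.continuousOn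
    have hx0' : x0 ≠ 0 := by
      rintro rfl
      simp at hx0
    refine ⟨Q x0, hp x0 hx0', fun x => ?_⟩
    by_cases hx : x = 0
    · rw [hx, h0]
      simp
    have hn : 0 < ‖x‖ := norm_pos_iff.2 hx
    have h1 := hmin (show ‖x‖⁻¹ • x ∈ Metric.sphere (0 : E) 1 by
      rw [mem_sphere_zero_iff_norm, norm_smul, norm_inv, norm_norm, inv_mul_cancel₀ hn.ne'])
    simp only [Set.mem_ofPred_eq, hh] at h1
    calc Q x0 * ‖x‖ ^ 2 ≤ ‖x‖⁻¹ ^ 2 * Q x * ‖x‖ ^ 2 := mul_le_mul_of_nonneg_right h1 (by positivity)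
      _ = Q x := by field_simp

variable [MeasurableSpace E] [BorelSpace E]

lemma gau_int_sq {c : ℝ} (hc : 0 < c) : Integrable fun x : E => Real.exp (-(c * ‖x‖ ^ 2)) := by
  have := GaussianFourier.integrable_cexp_neg_mul_sq_norm_add (V := E) (b := (c : ℂ))
    (by simpa using hc) 0 0
  have h2 := this.re
  refine h2.congr (Eventually.of_forall fun x => ?_)
  simp only [inner_zero_left, Complex.ofReal_zero, mul_zero, add_zero]
  rw [show (-(c : ℂ) * (‖x‖ : ℂ) ^ 2) = ((-(c * ‖x‖ ^ 2) : ℝ) : ℂ) by push_cast; ring,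
    ← Complex.ofReal_exp]
  exact Complex.ofReal_re _

/-- Gaussians of positive definite forms are integrable -/
lemma gau_int (Q : E → ℝ) (hc : Continuous Q) (hh : ∀ (t : ℝ) x, Q (t • x) = t ^ 2 * Q x)
    (hp : ∀ x, x ≠ 0 → 0 < Q x) {s : ℝ} (hs : 0 < s) : Integrable fun x : E => Real.exp (-(s * Q x)) := by
  obtain ⟨c, hc0, hcl⟩ := gau_low Q hc hh hp
  refine (gau_int_sq (E := E) (mul_pos hs hc0)).mono' ?_ (Eventually.of_forall fun x => ?_)
  · exact (Real.continuous_exp.comp (continuous_const.mul hc).neg).aestronglyMeasurable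
  · rw [Real.norm_eq_abs, abs_of_pos (Real.exp_pos _), Real.exp_le_exp, neg_le_neg_iff, mul_assoc]
    exact mul_le_mul_of_nonneg_left (hcl x) hs.le

lemma gau_pos (Q : E → ℝ) (hc : Continuous Q) (hh : ∀ (t : ℝ) x, Q (t • x) = t ^ 2 * Q x)
    (hp : ∀ x, x ≠ 0 → 0 < Q x) {s : ℝ} (hs : 0 < s) : 0 < ∫ x : E, Real.exp (-(s * Q x)) :=
  integral_exp_pos (gau_int Q hc hh hp hs)

end GauInt

section GauSub

variable {dm : ℕ}

/-- `ℝ^9 ⊗ m = (ℝ^8 ⊗ m) × m` -/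
noncomputable def gauE (dm : ℕ) : WithLp 2 (Wsp dm × EuclideanSpace ℝ (Fin dm)) ≃ₗᵢ[ℝ] Cfg dm where
  toFun p := WithLp.toLp 2 fun q =>
    Fin.lastCases (motive := fun _ => ℝ) (p.ofLp.2 q.2) (fun j => p.ofLp.1 (j, q.2)) q.1
  invFun X := WithLp.toLp 2 (WithLp.toLp 2 fun q => X (q.1.castSucc, q.2), WithLp.toLp 2 fun B => X (Fin.last 8, B))
  map_add' p q := by
    ext ⟨i, B⟩
    induction i using Fin.lastCases with
    | last => simp [-Fin.reduceLast]
    | cast j => simp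
  map_smul' c p := by
    ext ⟨i, B⟩
    induction i using Fin.lastCases with
    | last => simp [-Fin.reduceLast]
    | cast j => simp
  left_inv p := by
    simp [-Fin.reduceLast]
    rfl
  right_inv X := by
    ext ⟨i, B⟩
    induction i using Fin.lastCases with
    | last => simp [-Fin.reduceLast]
    | cast j => simp
  norm_map' p := by
    have h : ‖(WithLp.toLp 2 fun q : Fin 9 × Fin dm =>
        Fin.lastCases (motive := fun _ => ℝ) (p.ofLp.2 q.2) (fun j => p.ofLp.1 (j, q.2)) q.1 : Cfg dm)‖ ^ 2 = ‖p‖ ^ 2 := by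
      rw [EuclideanSpace.real_norm_sq_eq, WithLp.prod_norm_sq_eq_of_L2, EuclideanSpace.real_norm_sq_eq,
        EuclideanSpace.real_norm_sq_eq, Fintype.sum_prod_type, Fintype.sum_prod_type, Fin.sum_univ_castSucc]
      simp [-Fin.reduceLast]
    exact (sq_eq_sq₀ (norm_nonneg _) (norm_nonneg _)).1 h

lemma gauE_mp (dm : ℕ) : MeasurePreserving
    (fun p : Wsp dm × EuclideanSpace ℝ (Fin dm) => gauE dm (WithLp.toLp 2 p)) volume volume :=
  (gauE dm).measurePreserving.comp (WithLp.volume_preserving_toLp (Wsp dm) (EuclideanSpace ℝ (Fin dm)))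

/-- the translation `D'a` -/
noncomputable def gauT (D : Fin 9 → Matrix (Fin dm) (Fin dm) ℝ) (a : EuclideanSpace ℝ (Fin dm)) : Wsp dm :=
  WithLp.toLp 2 fun p => ∑ C, D p.1.castSucc p.2 C * a C

lemma gauE_xi (D : Fin 9 → Matrix (Fin dm) (Fin dm) ℝ) (w : Wsp dm) (a : EuclideanSpace ℝ (Fin dm)) :
    gauE dm (WithLp.toLp 2 (w - gauT D a, Matrix.toEuclideanLin (-D 8) a)) = xi D w a := by
  ext ⟨i, B⟩
  induction i using Fin.lastCases with
  | last =>
    simp only [gauE, xi, wt]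
    simp [-Fin.reduceLast, Matrix.toEuclideanLin, mulVec, dotProduct]
    rfl
  | cast j =>
    simp [gauE, xi, wt, gauT]

/-- substitution `X = w - D a` -/
theorem gau_sub (D : Fin 9 → Matrix (Fin dm) (Fin dm) ℝ) (hD : (D 8).det ≠ 0) (f : Cfg dm → ENNReal)
    (hf : Measurable f) :
    ∫⁻ X, f X = ENNReal.ofReal |(D 8).det| * ∫⁻ w : Wsp dm, ∫⁻ a : EuclideanSpace ℝ (Fin dm), f (xi D w a) := by
  have hmp := gauE_mp dm
  have hm : Measurable fun p : Wsp dm × EuclideanSpace ℝ (Fin dm) => f (gauE dm (WithLp.toLp 2 p)) :=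
    hf.comp hmp.measurable
  rw [← hmp.lintegral_comp hf]
  rw [show (volume : Measure (Wsp dm × EuclideanSpace ℝ (Fin dm))) = volume.prod volume from rfl,
    lintegral_prod_symm' _ hm]
  set G : EuclideanSpace ℝ (Fin dm) → ENNReal := fun c => ∫⁻ w : Wsp dm, f (gauE dm (WithLp.toLp 2 (w, c))) with hG
  have hGm : Measurable G := hm.lintegral_prod_left'
  have hdet : LinearMap.det (Matrix.toEuclideanLin (-D 8)) = (-D 8).det := by
    rw [show Matrix.toEuclideanLin (-D 8) = Matrix.toLpLin 2 2 (-D 8) from rfl, Matrix.toLpLin_eq_toLin, LinearMap.det_toLin]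
  have hdet2 : |(-D 8).det| = |(D 8).det| := by
    rw [Matrix.det_neg, abs_mul, abs_pow, abs_neg, abs_one, one_pow, one_mul]
  have hne : LinearMap.det (Matrix.toEuclideanLin (-D 8)) ≠ 0 := by
    rw [hdet, ← abs_pos, hdet2, abs_pos]
    exact hD
  have hmap := Measure.map_linearMap_addHaar_eq_smul_addHaar (volume : Measure (EuclideanSpace ℝ (Fin dm))) hne
  have hsub : ∫⁻ a, G (Matrix.toEuclideanLin (-D 8) a) = ENNReal.ofReal |(D 8).det|⁻¹ * ∫⁻ c, G c := by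
    have hfm : Measurable (Matrix.toEuclideanLin (-D 8) : EuclideanSpace ℝ (Fin dm) → EuclideanSpace ℝ (Fin dm)) :=
      (LinearMap.continuous_of_finiteDimensional _).measurable
    rw [← lintegral_map hGm hfm, hmap, lintegral_smul_measure, hdet, smul_eq_mul, abs_inv, hdet2]
  have hpos : 0 < |(D 8).det| := abs_pos.2 hD
  have hG2 : ∫⁻ c, G c = ENNReal.ofReal |(D 8).det| * ∫⁻ a, G (Matrix.toEuclideanLin (-D 8) a) := by
    rw [hsub, ← mul_assoc, ← ENNReal.ofReal_mul hpos.le, mul_inv_cancel₀ hpos.ne', ENNReal.ofReal_one, one_mul]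
  change ∫⁻ c, G c = _
  rw [hG2]
  congr 1
  have hxm : Measurable fun q : EuclideanSpace ℝ (Fin dm) × Wsp dm => f (xi D q.2 q.1) := by
    refine hf.comp (Continuous.measurable ?_)
    have : (fun q : EuclideanSpace ℝ (Fin dm) × Wsp dm => xi D q.2 q.1) = fun q =>
        gauE dm (WithLp.toLp 2 (q.2 - gauT D q.1, Matrix.toEuclideanLin (-D 8) q.1)) := by
      funext q
      exact (gauE_xi D q.2 q.1).symm
    rw [this]
    refine (gauE dm).continuous.comp ?_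
    have c1 : Continuous (gauT D) := by
      unfold gauT
      fun_prop
    have c2 : Continuous (Matrix.toEuclideanLin (-D 8) : EuclideanSpace ℝ (Fin dm) → EuclideanSpace ℝ (Fin dm)) :=
      LinearMap.continuous_of_finiteDimensional _
    have c3 : Continuous fun q : EuclideanSpace ℝ (Fin dm) × Wsp dm =>
        ((q.2 - gauT D q.1, Matrix.toEuclideanLin (-D 8) q.1) : Wsp dm × EuclideanSpace ℝ (Fin dm)) :=
      (continuous_snd.sub (c1.comp continuous_fst)).prodMk (c2.comp continuous_fst)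
    exact (WithLp.prod_continuous_toLp 2 _ _).comp c3
  calc ∫⁻ a, G (Matrix.toEuclideanLin (-D 8) a)
      = ∫⁻ a : EuclideanSpace ℝ (Fin dm), ∫⁻ w : Wsp dm, f (xi D w a) := by
        refine lintegral_congr fun a => ?_
        rw [hG]
        change ∫⁻ w : Wsp dm, f (gauE dm (WithLp.toLp 2 (w, Matrix.toEuclideanLin (-D 8) a))) = _
        rw [← lintegral_sub_right_eq_self (fun w : Wsp dm =>
          f (gauE dm (WithLp.toLp 2 (w, Matrix.toEuclideanLin (-D 8) a)))) (gauT D a)]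
        simp only [gauE_xi]
    _ = ∫⁻ w : Wsp dm, ∫⁻ a : EuclideanSpace ℝ (Fin dm), f (xi D w a) :=
        lintegral_lintegral_swap hxm.aemeasurable

end GauSub

section GauMain

variable {dm : ℕ} {κ : ℝ} {D : Fin 9 → Matrix (Fin dm) (Fin dm) ℝ} {Om : Matrix (Fin dm) (Fin dm) ℝ}

lemma gau_qX_cont (Om : Matrix (Fin dm) (Fin dm) ℝ) : Continuous (qX Om) := by
  unfold qX
  fun_prop

lemma gau_qX_smul (Om : Matrix (Fin dm) (Fin dm) ℝ) (t : ℝ) (X : Cfg dm) : qX Om (t • X) = t ^ 2 * qX Om X := by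
  unfold qX
  simp only [PiLp.smul_apply, smul_eq_mul, Finset.mul_sum]
  exact Finset.sum_congr rfl fun i _ => Finset.sum_congr rfl fun B _ => Finset.sum_congr rfl fun C _ => by ring

lemma gau_nn (hO : IsOm κ D Om) (v : Fin dm → ℝ) : 0 ≤ v ⬝ᵥ (Om *ᵥ v) := by
  by_cases hv : v = 0
  · rw [hv, zero_dotProduct]
  · exact (hO.pos v hv).le

lemma gau_qX_pos (hO : IsOm κ D Om) (X : Cfg dm) (hX : X ≠ 0) : 0 < qX Om X := by
  rw [gau_qX]
  by_contra hcon
  have h1 : ∑ i, (fun B => X (i, B)) ⬝ᵥ (Om *ᵥ fun B => X (i, B)) = 0 :=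
    le_antisymm (not_lt.1 hcon) (Finset.sum_nonneg fun i _ => gau_nn hO _)
  apply hX
  ext ⟨i, B⟩
  have h3 := (Finset.sum_eq_zero_iff_of_nonneg fun i _ => gau_nn hO fun B => X (i, B)).1 h1 i (Finset.mem_univ _)
  by_contra hne
  exact (hO.pos (fun B => X (i, B)) fun h => hne (congrFun h B)).ne' h3

/-- the form `⟨a, Ω³ a⟩` -/
noncomputable def gauQ (Om : Matrix (Fin dm) (Fin dm) ℝ) (a : EuclideanSpace ℝ (Fin dm)) : ℝ :=
  ∑ B, ∑ C, a B * (Om * Om * Om) B C * a C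

lemma gauQ_cont (Om : Matrix (Fin dm) (Fin dm) ℝ) : Continuous (gauQ Om) := by
  unfold gauQ
  fun_prop

lemma gauQ_smul (Om : Matrix (Fin dm) (Fin dm) ℝ) (t : ℝ) (a : EuclideanSpace ℝ (Fin dm)) :
    gauQ Om (t • a) = t ^ 2 * gauQ Om a := by
  unfold gauQ
  simp only [PiLp.smul_apply, smul_eq_mul, Finset.mul_sum]
  exact Finset.sum_congr rfl fun B _ => Finset.sum_congr rfl fun C _ => by ring

lemma gauQ_pos (hO : IsOm κ D Om) (a : EuclideanSpace ℝ (Fin dm)) (ha : a ≠ 0) : 0 < gauQ Om a := by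
  have h0 : a.ofLp ≠ 0 := fun h => ha (by ext B; exact congrFun h B)
  have h1 : Om *ᵥ a.ofLp ≠ 0 := by
    intro h
    have := hO.pos _ h0
    rw [h, dotProduct_zero] at this
    exact lt_irrefl _ this
  have h2 := hO.pos _ h1
  unfold gauQ
  rw [gau_dot (Om * Om * Om) a.ofLp a.ofLp]
  have : a.ofLp ⬝ᵥ ((Om * Om * Om) *ᵥ a.ofLp) = (Om *ᵥ a.ofLp) ⬝ᵥ (Om *ᵥ (Om *ᵥ a.ofLp)) := by
    rw [mul_assoc, ← mulVec_mulVec, ← mulVec_mulVec, dotProduct_mulVec, ← mulVec_transpose, hO.symm]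
  rw [this]
  exact h2

lemma gau_Gs_int (hκ : 0 < κ) (hO : IsOm κ D Om) {s : ℝ} (hs : 0 < s) :
    Integrable fun a : EuclideanSpace ℝ (Fin dm) => Real.exp (-(s * (κ ^ 2)⁻¹ * gauQ Om a)) :=
  gau_int (gauQ Om) (gauQ_cont Om) (gauQ_smul Om) (gauQ_pos hO) (by positivity)

lemma gau_Gs_pos (hκ : 0 < κ) (hO : IsOm κ D Om) {s : ℝ} (hs : 0 < s) : 0 < Gs κ Om s :=
  gau_pos (gauQ Om) (gauQ_cont Om) (gauQ_smul Om) (gauQ_pos hO) (by positivity)

lemma gau_Kx_int (hO : IsOm κ D Om) : Integrable fun X : Cfg dm => Real.exp (-qX Om X) := by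
  have := gau_int (qX Om) (gau_qX_cont Om) (gau_qX_smul Om) (gau_qX_pos hO) one_pos
  simpa only [one_mul] using this

lemma gau_Kx_pos (hO : IsOm κ D Om) : 0 < Kx Om := integral_exp_pos (gau_Kx_int hO)

lemma gau_g2 (D : Fin 9 → Matrix (Fin dm) (Fin dm) ℝ) (Om : Matrix (Fin dm) (Fin dm) ℝ) (w : Wsp dm) :
    gR D Om 1 w ^ 2 = Real.exp (-qf D Om w) := by
  unfold gR
  rw [← Real.exp_nat_mul]
  congr 1
  push_cast
  ring

lemma gau_g2_int (hκ : 0 < κ) (h : Frz D) (hO : IsOm κ D Om) : Integrable fun w : Wsp dm => Real.exp (-qf D Om w) := by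
  obtain ⟨M, -, hqf, -, c, hc, hcl⟩ := Z.qfS dm κ D Om hκ h hO
  refine (gau_int_sq (E := Wsp dm) hc).mono' ?_ (Eventually.of_forall fun w => ?_)
  · have : Continuous fun w : Wsp dm => Real.exp (-qf D Om w) := by
      simp only [hqf]
      exact Real.continuous_exp.comp (continuous_id.inner M.continuous).neg
    exact this.aestronglyMeasurable
  · rw [Real.norm_eq_abs, abs_of_pos (Real.exp_pos _), Real.exp_le_exp, neg_le_neg_iff, hqf]
    exact hcl w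

lemma gau_exp (hκ : 0 < κ) (h : Frz D) (hO : IsOm κ D Om) (w : Wsp dm) (a : EuclideanSpace ℝ (Fin dm)) :
    Real.exp (-qX Om (xi D w a)) = Real.exp (-qf D Om w) *
      Real.exp (-(1 * (κ ^ 2)⁻¹ * gauQ Om (a - gauA D w))) := by
  rw [gau_qX_xi hκ h hO, ← Real.exp_add]
  congr 1
  unfold gauQ
  ring

lemma gau_exp2 (hκ : 0 < κ) (h : Frz D) (hO : IsOm κ D Om) (w : Wsp dm) (a : EuclideanSpace ℝ (Fin dm)) :
    Real.exp (-(1 / 2) * qX Om (xi D w a)) = gR D Om 1 w *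
      Real.exp (-(1 / 2 * (κ ^ 2)⁻¹ * gauQ Om (a - gauA D w))) := by
  unfold gR
  rw [gau_qX_xi hκ h hO, ← Real.exp_add]
  congr 1
  unfold gauQ
  ring

/-- `Kx = |det D_8| ∫gR² · Gs(1)` -/
theorem gau_Kx (hκ : 0 < κ) (h : Frz D) (hO : IsOm κ D Om) :
    Kx Om = |(D 8).det| * ((∫ w, gR D Om 1 w ^ 2) * Gs κ Om 1) := by
  simp only [gau_g2]
  have hG := gau_Gs_pos hκ hO one_pos
  have hG1 := gau_Gs_int hκ hO one_pos
  have hI := gau_g2_int hκ h hO
  have hI0 : 0 < ∫ w, Real.exp (-qf D Om w) := integral_exp_pos hI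
  have e : ENNReal.ofReal (Kx Om) =
      ENNReal.ofReal (|(D 8).det| * ((∫ w, Real.exp (-qf D Om w)) * Gs κ Om 1)) := by
    unfold Kx
    rw [ofReal_integral_eq_lintegral_ofReal (gau_Kx_int hO) (Eventually.of_forall fun X => (Real.exp_pos _).le),
      gau_sub D h.inv (fun X => ENNReal.ofReal (Real.exp (-qX Om X)))
        (Real.continuous_exp.comp (gau_qX_cont Om).neg).measurable.ennreal_ofReal,
      ENNReal.ofReal_mul (abs_nonneg _), ENNReal.ofReal_mul hI0.le,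
      ofReal_integral_eq_lintegral_ofReal hI (Eventually.of_forall fun X => (Real.exp_pos _).le)]
    congr 1
    rw [← lintegral_mul_const' _ _ ENNReal.ofReal_ne_top]
    refine lintegral_congr fun w => ?_
    simp only [gau_exp hκ h hO, ENNReal.ofReal_mul (Real.exp_pos _).le]
    rw [lintegral_const_mul' _ _ ENNReal.ofReal_ne_top]
    congr 1
    rw [lintegral_sub_right_eq_self (fun a : EuclideanSpace ℝ (Fin dm) =>
      ENNReal.ofReal (Real.exp (-(1 * (κ ^ 2)⁻¹ * gauQ Om a)))) (gauA D w)]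
    exact (ofReal_integral_eq_lintegral_ofReal hG1 (Eventually.of_forall fun X => (Real.exp_pos _).le)).symm
  exact (ENNReal.ofReal_eq_ofReal_iff (gau_Kx_pos hO).le (by positivity)).1 e

/-- **GL8** exact Gaussian identity -/
theorem gau_stmt : GauStmt := by
  intro dm κ D Om hκ h hO
  have hG1 := gau_Gs_pos hκ hO one_pos
  have hG2 := gau_Gs_pos hκ hO (s := 1 / 2) (by norm_num)
  have hK := gau_Kx_pos hO
  have hI : Integrable fun w => gR D Om 1 w ^ 2 := by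
    simp only [gau_g2]
    exact gau_g2_int hκ h hO
  have hI0 : 0 < ∫ w, gR D Om 1 w ^ 2 := by
    have := integral_exp_pos (gau_g2_int hκ h hO)
    simpa only [gau_g2] using this
  refine ⟨hG1, hG2, hK, hI0, hI, fun w => ⟨?_, ?_⟩⟩
  · simp only [gau_exp2 hκ h hO]
    exact ((gau_Gs_int hκ hO (s := 1 / 2) (by norm_num)).comp_sub_right (gauA D w)).const_mul _
  · have e1 : ∫ a, Real.exp (-(1 / 2) * qX Om (xi D w a)) = gR D Om 1 w * Gs κ Om (1 / 2) := by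
      simp only [gau_exp2 hκ h hO]
      rw [integral_const_mul, integral_sub_right_eq_self (fun a : EuclideanSpace ℝ (Fin dm) =>
        Real.exp (-(1 / 2 * (κ ^ 2)⁻¹ * gauQ Om a))) (gauA D w)]
      rfl
    rw [e1]
    have hdet : 0 < |(D 8).det| := abs_pos.2 h.inv
    have hkey := gau_Kx hκ h hO
    unfold Nf
    set I := ∫ w, gR D Om 1 w ^ 2 with hIdef
    rw [hkey]
    have e2 : Real.sqrt |(D 8).det| * (Real.sqrt (Gs κ Om 1 / (Gs κ Om (1 / 2) ^ 2 * (|(D 8).det| * (I * Gs κ Om 1)))) *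
        Gs κ Om (1 / 2)) = (Real.sqrt I)⁻¹ := by
      rw [← Real.sqrt_inv]
      have h3 : Gs κ Om 1 / (Gs κ Om (1 / 2) ^ 2 * (|(D 8).det| * (I * Gs κ Om 1))) =
          (|(D 8).det|)⁻¹ * ((Gs κ Om (1 / 2)) ^ 2)⁻¹ * I⁻¹ := by
        field_simp
      rw [h3, Real.sqrt_mul (by positivity), Real.sqrt_mul (by positivity), Real.sqrt_inv, Real.sqrt_inv (Gs κ Om (1 / 2) ^ 2),
        Real.sqrt_sq hG2.le]
      have h4 : Real.sqrt |(D 8).det| ≠ 0 := (Real.sqrt_pos.2 hdet).ne'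
      field_simp
    calc Real.sqrt |(D 8).det| * (Real.sqrt (Gs κ Om 1 / (Gs κ Om (1 / 2) ^ 2 * (|(D 8).det| * (I * Gs κ Om 1)))) *
        (gR D Om 1 w * Gs κ Om (1 / 2))) = gR D Om 1 w * (Real.sqrt |(D 8).det| *
          (Real.sqrt (Gs κ Om 1 / (Gs κ Om (1 / 2) ^ 2 * (|(D 8).det| * (I * Gs κ Om 1)))) * Gs κ Om (1 / 2))) := by ring
      _ = gR D Om 1 w / Real.sqrt I := by rw [e2, div_eq_mul_inv]

end GauMain

end Vale.Agent.P353.Z.AN
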