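import Vale.Agent.P353.AN.GL.Stmt
import Vale.Agent.P353.AN.A.Dexp
import Vale.Agent.P353.AN.A.TubeF

/-! # P353, all `N`, block GL5: weighted bound for the orbit average, uniform in the scale -/

open MeasureTheory Filter Topology
open scoped ContDiff ENNReal

namespace Vale.Agent.P353.Z.AN

variable {d dh dm r ds : ℕ} {F : Type*} [NormedAddCommGroup F] [InnerProductSpace ℂ F]

/-! ## coordinates `(z, s, m)` -/

/-- index map of the coordinates `(z, s, m)` -/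
def wgtIdx (φ : Spl dh dm d) (ψ : Spz r ds dh) :
    (Fin 9 × Fin r) ⊕ ((Fin 9 × Fin ds) ⊕ (Fin 9 × Fin dm)) → Fin 9 × Fin d :=
  Sum.elim (fun p => (p.1, φ (Sum.inl (ψ (Sum.inl p.2)))))
    (Sum.elim (fun p => (p.1, φ (Sum.inl (ψ (Sum.inr p.2))))) fun p => (p.1, φ (Sum.inr p.2)))

theorem wgtIdx_bijective (φ : Spl dh dm d) (ψ : Spz r ds dh) : Function.Bijective (wgtIdx φ ψ) := by
  constructor
  · rintro (⟨i, A⟩ | ⟨i, A⟩ | ⟨j, B⟩) (⟨i', A'⟩ | ⟨i', A'⟩ | ⟨j', B'⟩) h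
    all_goals simp only [wgtIdx, Sum.elim_inl, Sum.elim_inr, Prod.mk.injEq,
      EmbeddingLike.apply_eq_iff_eq, Sum.inr.injEq, Sum.inl.injEq, reduceCtorEq,
      and_false] at h
    · rw [h.1, h.2]
    · rw [h.1, h.2]
    · rw [h.1, h.2]
  · rintro ⟨i, A⟩
    obtain ⟨s, rfl⟩ := φ.surjective A
    rcases s with A | B
    · obtain ⟨s, rfl⟩ := ψ.surjective A
      rcases s with a | b
      · exact ⟨Sum.inl (i, a), rfl⟩
      · exact ⟨Sum.inr (Sum.inl (i, b)), rfl⟩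
    · exact ⟨Sum.inr (Sum.inr (i, B)), rfl⟩

/-- the index equivalence -/
noncomputable def wgtEquiv (φ : Spl dh dm d) (ψ : Spz r ds dh) :
    (Fin 9 × Fin r) ⊕ ((Fin 9 × Fin ds) ⊕ (Fin 9 × Fin dm)) ≃ Fin 9 × Fin d :=
  Equiv.ofBijective _ (wgtIdx_bijective φ ψ)

theorem wgt_mp (φ : Spl dh dm d) (ψ : Spz r ds dh) :
    MeasurePreserving (fun x : Cfg d => (hz ψ (zy φ x), (hs ψ (zy φ x), pm φ x))) volume
      (volume.prod (volume.prod volume)) := by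
  have m1 := PiLp.volume_preserving_ofLp (Fin 9 × Fin d)
  have m2 := (volume_measurePreserving_piCongrLeft (fun _ : Fin 9 × Fin d => ℝ)
    (wgtEquiv φ ψ)).symm
  have m3 := volume_measurePreserving_sumPiEquivProdPi
    (fun _ : (Fin 9 × Fin r) ⊕ ((Fin 9 × Fin ds) ⊕ (Fin 9 × Fin dm)) => ℝ)
  have m4 := volume_measurePreserving_sumPiEquivProdPi
    (fun _ : (Fin 9 × Fin ds) ⊕ (Fin 9 × Fin dm) => ℝ)
  have n1 := PiLp.volume_preserving_toLp (Fin 9 × Fin r)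
  have n2 := PiLp.volume_preserving_toLp (Fin 9 × Fin ds)
  have n3 := PiLp.volume_preserving_toLp (Fin 9 × Fin dm)
  have m5 := n1.prod ((n2.prod n3).comp m4)
  exact m5.comp (m3.comp (m2.comp m1))

theorem wgt_map_smul {ι : Type*} [Fintype ι] (c : ℝ) (hc : c ≠ 0) :
    Measure.map (fun x : EuclideanSpace ℝ ι => c • x) volume =
      ENNReal.ofReal |(c ^ Fintype.card ι)⁻¹| • (volume : Measure (EuclideanSpace ℝ ι)) := by
  have h := Measure.map_addHaar_smul (volume : Measure (EuclideanSpace ℝ ι)) hc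
  rw [finrank_euclideanSpace] at h
  exact h

theorem wgt_scale (c₁ c₂ : ℝ) (h1 : c₁ ≠ 0) (h2 : c₂ ≠ 0) (g : Cfg r × Cfg ds × Cfg dm → ℝ≥0∞)
    (hg : Measurable g) :
    ∫⁻ q : Cfg r × Cfg ds × Cfg dm, g (c₁ • q.1, q.2.1, c₂ • q.2.2)
      ∂((volume : Measure (Cfg r)).prod ((volume : Measure (Cfg ds)).prod (volume : Measure (Cfg dm)))) =
    ENNReal.ofReal |(c₁ ^ (9 * r))⁻¹| * ENNReal.ofReal |(c₂ ^ (9 * dm))⁻¹| *
      ∫⁻ q, g q ∂((volume : Measure (Cfg r)).prod ((volume : Measure (Cfg ds)).prod (volume : Measure (Cfg dm)))) := by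
  have e1 := wgt_map_smul (ι := Fin 9 × Fin r) c₁ h1
  have e2 := wgt_map_smul (ι := Fin 9 × Fin dm) c₂ h2
  have k1 : Fintype.card (Fin 9 × Fin r) = 9 * r := by simp
  have k2 : Fintype.card (Fin 9 × Fin dm) = 9 * dm := by simp
  rw [k1] at e1
  rw [k2] at e2
  have mc : ∀ {ι : Type} [Fintype ι] (c : ℝ), Measurable (fun x : EuclideanSpace ℝ ι => c • x) :=
    fun c => (continuous_const_smul c).measurable
  have hm : Measure.map (Prod.map (fun x : Cfg r => c₁ • x) (Prod.map (id : Cfg ds → Cfg ds)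
      (fun x : Cfg dm => c₂ • x)))
      ((volume : Measure (Cfg r)).prod ((volume : Measure (Cfg ds)).prod (volume : Measure (Cfg dm)))) =
      (ENNReal.ofReal |(c₁ ^ (9 * r))⁻¹| * ENNReal.ofReal |(c₂ ^ (9 * dm))⁻¹|) •
      ((volume : Measure (Cfg r)).prod ((volume : Measure (Cfg ds)).prod (volume : Measure (Cfg dm)))) := by
    rw [← Measure.map_prod_map _ _ (mc c₁) (measurable_id.prodMap (mc c₂)),
      ← Measure.map_prod_map _ _ measurable_id (mc c₂), Measure.map_id, e1, e2,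
      Measure.prod_smul_right, Measure.prod_smul_left, Measure.prod_smul_right, smul_smul]
  have h3 := lintegral_map (μ := (volume : Measure (Cfg r)).prod
    ((volume : Measure (Cfg ds)).prod (volume : Measure (Cfg dm)))) hg
    ((mc c₁).prodMap ((measurable_id (α := Cfg ds)).prodMap (mc (ι := Fin 9 × Fin dm) c₂)))
  rw [hm, lintegral_smul_measure, smul_eq_mul] at h3
  exact h3.symm

/-! ## Cauchy–Schwarz and decay -/

theorem wgt_cs {α : Type*} [MeasurableSpace α] (μ : Measure α) (u v : α → ℝ≥0∞) (hu : AEMeasurable u μ)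
    (hv : AEMeasurable v μ) :
    (∫⁻ a, u a * v a ∂μ) ^ 2 ≤ (∫⁻ a, u a ^ 2 ∂μ) * ∫⁻ a, v a ^ 2 ∂μ := by
  have h := ENNReal.lintegral_mul_le_Lp_mul_Lq μ Real.HolderConjugate.two_two hu hv
  simp only [Pi.mul_apply, ENNReal.rpow_two] at h
  have h2 : ∀ x : ℝ≥0∞, (x ^ (1 / 2 : ℝ)) ^ 2 = x := by
    intro x
    rw [← ENNReal.rpow_two, ← ENNReal.rpow_mul]
    norm_num
  calc (∫⁻ a, u a * v a ∂μ) ^ 2
      ≤ ((∫⁻ a, u a ^ 2 ∂μ) ^ (1 / 2 : ℝ) * (∫⁻ a, v a ^ 2 ∂μ) ^ (1 / 2 : ℝ)) ^ 2 := by gcongr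
    _ = _ := by rw [mul_pow, h2, h2]

theorem wgt_csw {α : Type*} [MeasurableSpace α] (μ : Measure α) (j W : α → ℝ) (z : α → ℝ≥0∞)
    (hj : Measurable j) (hW : Measurable W) (hz : Measurable z) (hj0 : ∀ a, 0 ≤ j a) (hW0 : ∀ a, 0 < W a) :
    (∫⁻ a, ENNReal.ofReal (j a) * z a ∂μ) ^ 2 ≤
      (∫⁻ a, ENNReal.ofReal (j a * (W a)⁻¹) ∂μ) * ∫⁻ a, ENNReal.ofReal (W a * j a) * z a ^ 2 ∂μ := by
  have h := wgt_cs μ (fun a => ENNReal.ofReal (Real.sqrt (j a * (W a)⁻¹)))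
    (fun a => ENNReal.ofReal (Real.sqrt (W a * j a)) * z a) (by fun_prop) (by fun_prop)
  have e1 : ∀ a, ENNReal.ofReal (Real.sqrt (j a * (W a)⁻¹)) *
      (ENNReal.ofReal (Real.sqrt (W a * j a)) * z a) = ENNReal.ofReal (j a) * z a := by
    intro a
    rw [← mul_assoc, ← ENNReal.ofReal_mul (Real.sqrt_nonneg _), ← Real.sqrt_mul
      (mul_nonneg (hj0 a) (inv_nonneg.2 (hW0 a).le))]
    have : j a * (W a)⁻¹ * (W a * j a) = j a ^ 2 := by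
      have := (hW0 a).ne'
      field_simp
    rw [this, Real.sqrt_sq (hj0 a)]
  have e2 : ∀ a, ENNReal.ofReal (Real.sqrt (j a * (W a)⁻¹)) ^ 2 = ENNReal.ofReal (j a * (W a)⁻¹) := by
    intro a
    rw [← ENNReal.ofReal_pow (Real.sqrt_nonneg _), Real.sq_sqrt (mul_nonneg (hj0 a) (inv_nonneg.2 (hW0 a).le))]
  have e3 : ∀ a, (ENNReal.ofReal (Real.sqrt (W a * j a)) * z a) ^ 2 = ENNReal.ofReal (W a * j a) * z a ^ 2 := by
    intro a
    rw [mul_pow, ← ENNReal.ofReal_pow (Real.sqrt_nonneg _), Real.sq_sqrt (mul_nonneg (hW0 a).le (hj0 a))]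
  simp only [e1, e2, e3] at h
  exact h

theorem wgt_decay (dm : ℕ) : ∃ K : ℝ, 0 < K ∧ ∀ R : ℝ, 0 < R →
    ∫⁻ a : EuclideanSpace ℝ (Fin dm), ENNReal.ofReal (((1 + R ^ 3 * ‖a‖ ^ 2) ^ (dm + 1))⁻¹) ≤
      ENNReal.ofReal (K * (R ^ (3 / 2 * (dm : ℝ)))⁻¹) := by
  have hint : Integrable (fun a : EuclideanSpace ℝ (Fin dm) => (((1 : ℝ) + ‖a‖ ^ 2) ^ (dm + 1))⁻¹) := by
    have h := integrable_rpow_neg_one_add_norm_sq (E := EuclideanSpace ℝ (Fin dm)) (μ := volume)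
      (r := 2 * ((dm : ℝ) + 1)) (by rw [finrank_euclideanSpace, Fintype.card_fin]; linarith [(Nat.cast_nonneg dm : (0:ℝ) ≤ dm)])
    refine h.congr (ae_of_all _ fun a => ?_)
    have h1 : (0 : ℝ) ≤ 1 + ‖a‖ ^ 2 := by positivity
    have h2 : -(2 * ((dm : ℝ) + 1)) / 2 = -((dm + 1 : ℕ) : ℝ) := by push_cast; ring
    simp only [h2]
    rw [Real.rpow_neg h1, Real.rpow_natCast]
  set K : ℝ := ∫ a : EuclideanSpace ℝ (Fin dm), (((1 : ℝ) + ‖a‖ ^ 2) ^ (dm + 1))⁻¹ with hK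
  have hK0 : 0 ≤ K := integral_nonneg fun a => by positivity
  refine ⟨K + 1, by positivity, fun R hR => ?_⟩
  set c : ℝ := R ^ (3 / 2 : ℝ) with hc
  have hc0 : 0 < c := Real.rpow_pos_of_pos hR _
  have hc2 : c ^ 2 = R ^ 3 := by
    rw [hc, ← Real.rpow_natCast, ← Real.rpow_mul hR.le, ← Real.rpow_natCast]
    norm_num
  have hcd : c ^ dm = R ^ (3 / 2 * (dm : ℝ)) := by
    rw [hc, ← Real.rpow_natCast, ← Real.rpow_mul hR.le]
  have e1 : ∀ a : EuclideanSpace ℝ (Fin dm), ENNReal.ofReal (((1 + R ^ 3 * ‖a‖ ^ 2) ^ (dm + 1))⁻¹) =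
      ENNReal.ofReal (((1 + ‖c • a‖ ^ 2) ^ (dm + 1))⁻¹) := by
    intro a
    rw [norm_smul, mul_pow, Real.norm_of_nonneg hc0.le, hc2]
  simp only [e1]
  have hg : Measurable (fun a : EuclideanSpace ℝ (Fin dm) =>
      ENNReal.ofReal (((1 + ‖a‖ ^ 2) ^ (dm + 1))⁻¹)) := by fun_prop
  have h3 := lintegral_map (μ := (volume : Measure (EuclideanSpace ℝ (Fin dm)))) hg
    (continuous_const_smul c).measurable
  rw [wgt_map_smul c hc0.ne', lintegral_smul_measure, smul_eq_mul] at h3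
  rw [← h3, ← ofReal_integral_eq_lintegral_ofReal hint (ae_of_all _ fun a => by positivity), ← hK,
    ← ENNReal.ofReal_mul (abs_nonneg _), Fintype.card_fin, hcd, abs_of_pos
      (inv_pos.2 (Real.rpow_pos_of_pos hR _)), mul_comm]
  refine ENNReal.ofReal_le_ofReal (mul_le_mul_of_nonneg_right (by linarith) ?_)
  exact (inv_pos.2 (Real.rpow_pos_of_pos hR _)).le

/-! ## continuity of the tube coordinates -/

theorem wgt_exm_cont (φ : Spl dh dm d) : Continuous fun a : EuclideanSpace ℝ (Fin dm) => exm φ a := by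
  refine continuous_pi fun A => ?_
  unfold exm
  rcases φ.symm A with A | B
  · simp only [Sum.elim_inl]
    fun_prop
  · simp only [Sum.elim_inr]
    fun_prop

theorem wgt_tub_cont (S : Setup d F) (φ : Spl dh dm d) :
    Continuous fun q : EuclideanSpace ℝ (Fin dm) × (Cfg dh × Wsp dm) => tub S φ q.1 q.2 := by
  have h := (dexp_stmt S).2.1.continuous
  have h2 : Continuous fun q : EuclideanSpace ℝ (Fin dm) × (Cfg dh × Wsp dm) =>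
      (exm φ q.1, emb φ q.2.1 q.2.2) :=
    ((wgt_exm_cont φ).comp continuous_fst).prodMk ((tbf_continuous_emb φ).comp continuous_snd)
  exact h.comp h2

theorem wgt_tub_meas (S : Setup d F) (φ : Spl dh dm d) (p : Cfg dh × Wsp dm) :
    Measurable fun a : EuclideanSpace ℝ (Fin dm) => tub S φ a p := by
  have h1 : Continuous fun a : EuclideanSpace ℝ (Fin dm) => (a, p) := continuous_id.prodMk continuous_const
  have h2 := Continuous.comp (g := fun q : EuclideanSpace ℝ (Fin dm) × (Cfg dh × Wsp dm) => tub S φ q.1 q.2)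
    (wgt_tub_cont S φ) h1
  exact h2.measurable

/-! ## the weighted norm of the global functional -/

theorem wgt_total (φ : Spl dh dm d) (ψ : Spz r ds dh) (R : ℝ) (hR : 0 < R)
    (b : Cfg r × Cfg ds × Cfg dm → F) (hb : StronglyMeasurable b) :
    ∫⁻ x : Cfg d, ENNReal.ofReal ((1 + ‖Real.sqrt R • pm φ x‖ ^ 2) ^ (dm + 1)) * ‖Zb φ ψ b R x‖ₑ ^ 2 =
      ENNReal.ofReal (R ^ (3 / 2 * (dm : ℝ))) *
        ∫⁻ q, ENNReal.ofReal ((1 + ‖q.2.2‖ ^ 2) ^ (dm + 1)) * ‖b q‖ₑ ^ 2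
          ∂((volume : Measure (Cfg r)).prod ((volume : Measure (Cfg ds)).prod (volume : Measure (Cfg dm)))) := by
  set g : Cfg r × Cfg ds × Cfg dm → ℝ≥0∞ := fun q =>
    ENNReal.ofReal ((1 + ‖q.2.2‖ ^ 2) ^ (dm + 1)) * ‖b q‖ₑ ^ 2 with hg
  have hgm : Measurable g := by
    refine Measurable.mul ?_ (hb.enorm.pow_const 2)
    fun_prop
  have hsq : 0 < Real.sqrt R := Real.sqrt_pos.2 hR
  have hR0 : 0 < R ^ (3 * (dm : ℝ) - 9 * (r : ℝ) / 2) := Real.rpow_pos_of_pos hR _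
  have e1 : ∀ x : Cfg d, ENNReal.ofReal ((1 + ‖Real.sqrt R • pm φ x‖ ^ 2) ^ (dm + 1)) * ‖Zb φ ψ b R x‖ₑ ^ 2 =
      ENNReal.ofReal ((R ^ (3 * (dm : ℝ) - 9 * (r : ℝ) / 2)) ^ 2) *
        g (R⁻¹ • hz ψ (zy φ x), hs ψ (zy φ x), Real.sqrt R • pm φ x) := by
    intro x
    have h1 : ‖Zb φ ψ b R x‖ₑ ^ 2 = ENNReal.ofReal ((R ^ (3 * (dm : ℝ) - 9 * (r : ℝ) / 2)) ^ 2) *
        ‖b (R⁻¹ • hz ψ (zy φ x), hs ψ (zy φ x), Real.sqrt R • pm φ x)‖ₑ ^ 2 := by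
      rw [Zb, enorm_smul, mul_pow, ENNReal.ofReal_pow hR0.le, ← ofReal_norm,
        Complex.norm_real, Real.norm_of_nonneg hR0.le]
    rw [h1, hg]
    ring
  simp only [e1]
  rw [lintegral_const_mul' _ _ ENNReal.ofReal_ne_top]
  have h2 := (wgt_mp φ ψ).lintegral_comp (f := fun q : Cfg r × Cfg ds × Cfg dm =>
    g (R⁻¹ • q.1, q.2.1, Real.sqrt R • q.2.2)) (hgm.comp (by fun_prop))
  simp only at h2
  rw [h2, wgt_scale R⁻¹ (Real.sqrt R) (inv_ne_zero hR.ne') hsq.ne' g hgm, ← mul_assoc, ← mul_assoc,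
    ← ENNReal.ofReal_mul (by positivity), ← ENNReal.ofReal_mul (by positivity)]
  congr 2
  have k1 : |((R⁻¹) ^ (9 * r))⁻¹| = R ^ (9 * (r : ℝ)) := by
    rw [abs_of_pos (by positivity), inv_pow, inv_inv, ← Real.rpow_natCast]
    push_cast
    rfl
  have k2 : |(Real.sqrt R ^ (9 * dm))⁻¹| = R ^ (-(9 * (dm : ℝ) / 2)) := by
    rw [abs_of_pos (by positivity), Real.sqrt_eq_rpow, ← Real.rpow_natCast, ← Real.rpow_mul hR.le,
      ← Real.rpow_neg hR.le]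
    push_cast
    congr 1
    ring
  rw [k1, k2, ← Real.rpow_natCast, ← Real.rpow_mul hR.le, ← Real.rpow_add hR, ← Real.rpow_add hR]
  congr 1
  push_cast
  ring

theorem wgt_nb_open (y₀ : Cfg dh) (dm : ℕ) (R ε : ℝ) : IsOpen (Nb y₀ dm R ε) := by
  have h1 : IsOpen {p : Cfg dh × Wsp dm | ‖p.1 - R • y₀‖ < ε * R} :=
    isOpen_lt ((continuous_fst.sub continuous_const).norm) continuous_const
  have h2 : IsOpen {p : Cfg dh × Wsp dm | ‖p.2‖ < ε * R} :=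
    isOpen_lt continuous_snd.norm continuous_const
  exact h1.inter h2

theorem wgt_pm_cont (φ : Spl dh dm d) : Continuous fun x : Cfg d => pm φ x := by
  unfold pm
  fun_prop

/-- the weighted density -/
noncomputable def wgtG (φ : Spl dh dm d) (R : ℝ) (Z : Cfg d → F) (x : Cfg d) : ℝ≥0∞ :=
  ENNReal.ofReal ((1 + ‖Real.sqrt R • pm φ x‖ ^ 2) ^ (dm + 1)) * ‖Z x‖ₑ ^ 2

omit [InnerProductSpace ℂ F] in
theorem wgtG_meas (φ : Spl dh dm d) (R : ℝ) {Z : Cfg d → F} (hZ : StronglyMeasurable Z) :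
    Measurable (wgtG φ R Z) := by
  unfold wgtG
  refine Measurable.mul ?_ (hZ.enorm.pow_const 2)
  have : Measurable fun x : Cfg d => pm φ x := (wgt_pm_cont φ).measurable
  fun_prop

/-- comparison of the weights -/
theorem wgt_cmp (n : ℕ) (c R t u : ℝ) (hc : 0 < c) (hR : 0 < R) (hu : 0 ≤ u) (h : c * (R * u) ≤ t) :
    (1 + R ^ 3 * u ^ 2) ^ (n + 1) ≤ (1 + (c ^ 2)⁻¹) ^ (n + 1) * (1 + (Real.sqrt R * t) ^ 2) ^ (n + 1) := by
  rw [← mul_pow]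
  refine pow_le_pow_left₀ (by positivity) ?_ _
  have h3 : R ^ 3 * u ^ 2 ≤ (c ^ 2)⁻¹ * (Real.sqrt R * t) ^ 2 := by
    rw [mul_pow, Real.sq_sqrt hR.le]
    have h4 := pow_le_pow_left₀ (by positivity) h 2
    rw [inv_mul_eq_div, le_div_iff₀ (by positivity)]
    nlinarith
  have h6 : 0 ≤ (c ^ 2)⁻¹ := by positivity
  have h7 : 0 ≤ (Real.sqrt R * t) ^ 2 := by positivity
  nlinarith

theorem wgt_mass {j : EuclideanSpace ℝ (Fin dm) → ℝ} {ρ M K R : ℝ} (hM0 : 0 < M) (hR0 : 0 < R)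
    (hM : ∀ a ∈ Metric.ball (0 : EuclideanSpace ℝ (Fin dm)) ρ, j a ≤ M)
    (hdec : ∀ R : ℝ, 0 < R →
    ∫⁻ a : EuclideanSpace ℝ (Fin dm), ENNReal.ofReal (((1 + R ^ 3 * ‖a‖ ^ 2) ^ (dm + 1))⁻¹) ≤
      ENNReal.ofReal (K * (R ^ (3 / 2 * (dm : ℝ)))⁻¹)) :
    ∫⁻ a in Metric.ball (0 : EuclideanSpace ℝ (Fin dm)) ρ,
      ENNReal.ofReal (j a * ((1 + R ^ 3 * ‖a‖ ^ 2) ^ (dm + 1))⁻¹) ≤
      ENNReal.ofReal (M * (K * (R ^ (3 / 2 * (dm : ℝ)))⁻¹)) := by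
  calc ∫⁻ a in Metric.ball (0 : EuclideanSpace ℝ (Fin dm)) ρ,
        ENNReal.ofReal (j a * ((1 + R ^ 3 * ‖a‖ ^ 2) ^ (dm + 1))⁻¹)
      ≤ ∫⁻ a in Metric.ball (0 : EuclideanSpace ℝ (Fin dm)) ρ,
        ENNReal.ofReal M * ENNReal.ofReal (((1 + R ^ 3 * ‖a‖ ^ 2) ^ (dm + 1))⁻¹) := by
        refine setLIntegral_mono' measurableSet_ball fun a ha => ?_
        rw [← ENNReal.ofReal_mul hM0.le]
        exact ENNReal.ofReal_le_ofReal (mul_le_mul_of_nonneg_right (hM a ha) (by positivity))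
    _ ≤ ∫⁻ a : EuclideanSpace ℝ (Fin dm),
        ENNReal.ofReal M * ENNReal.ofReal (((1 + R ^ 3 * ‖a‖ ^ 2) ^ (dm + 1))⁻¹) := setLIntegral_le_lintegral _ _
    _ = ENNReal.ofReal M * ∫⁻ a : EuclideanSpace ℝ (Fin dm),
        ENNReal.ofReal (((1 + R ^ 3 * ‖a‖ ^ 2) ^ (dm + 1))⁻¹) :=
        lintegral_const_mul' _ _ ENNReal.ofReal_ne_top
    _ ≤ ENNReal.ofReal M * ENNReal.ofReal (K * (R ^ (3 / 2 * (dm : ℝ)))⁻¹) := by
        gcongr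
        exact hdec R hR0
    _ = _ := by rw [← ENNReal.ofReal_mul hM0.le]

theorem wgt_h1 (S : Setup d F) (φ : Spl dh dm d) (hiso : ∀ a v, ‖spn S a v‖ = ‖v‖)
    {j : EuclideanSpace ℝ (Fin dm) → ℝ} (ρ : ℝ) (hj0 : ∀ a, 0 ≤ j a) (Z : Cfg d → F) (p : Cfg dh × Wsp dm) :
    ‖Zt S φ j ρ Z p‖ₑ ^ 2 ≤ ENNReal.ofReal (S.Jd φ p.1) *
      (∫⁻ a in Metric.ball (0 : EuclideanSpace ℝ (Fin dm)) ρ,
        ENNReal.ofReal (j a) * ‖Z (tub S φ a p)‖ₑ) ^ 2 := by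
  have hJ : 0 ≤ S.Jd φ p.1 := abs_nonneg _
  have h2 : ‖((Real.sqrt (S.Jd φ p.1) : ℝ) : ℂ)‖ₑ = ENNReal.ofReal (Real.sqrt (S.Jd φ p.1)) := by
    rw [← ofReal_norm, Complex.norm_real, Real.norm_of_nonneg (Real.sqrt_nonneg _)]
  have h3 : ∀ a : EuclideanSpace ℝ (Fin dm),
      ‖((j a : ℝ) : ℂ) • spn S (-(exm φ a)) (Z (tub S φ a p))‖ₑ = ENNReal.ofReal (j a) * ‖Z (tub S φ a p)‖ₑ := by
    intro a
    rw [enorm_smul, ← ofReal_norm, ← ofReal_norm, ← ofReal_norm, hiso,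
      Complex.norm_real, Real.norm_of_nonneg (hj0 a)]
  have h4 := enorm_integral_le_lintegral_enorm (μ := volume.restrict (Metric.ball (0 : EuclideanSpace ℝ (Fin dm)) ρ))
    (fun a => ((j a : ℝ) : ℂ) • spn S (-(exm φ a)) (Z (tub S φ a p)))
  simp only [h3] at h4
  have h6 : ENNReal.ofReal (Real.sqrt (S.Jd φ p.1)) ^ 2 = ENNReal.ofReal (S.Jd φ p.1) := by
    rw [← ENNReal.ofReal_pow (Real.sqrt_nonneg _), Real.sq_sqrt hJ]
  rw [Zt, enorm_smul, mul_pow, h2, h6]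
  exact mul_le_mul' le_rfl (pow_le_pow_left' h4 2)

theorem wgt_h4 (S : Setup d F) (φ : Spl dh dm d) {j : EuclideanSpace ℝ (Fin dm) → ℝ} {ρ c R : ℝ}
    (hj0 : ∀ a, 0 ≤ j a) (hc : 0 < c) (hR0 : 0 < R) (Z : Cfg d → F) (p : Cfg dh × Wsp dm)
    (hTay : ∀ a ∈ Metric.ball (0 : EuclideanSpace ℝ (Fin dm)) ρ, c * (R * ‖a‖) ≤ ‖pm φ (tub S φ a p)‖) :
    ∫⁻ a in Metric.ball (0 : EuclideanSpace ℝ (Fin dm)) ρ,
      ENNReal.ofReal ((1 + R ^ 3 * ‖a‖ ^ 2) ^ (dm + 1) * j a) * ‖Z (tub S φ a p)‖ₑ ^ 2 ≤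
      ENNReal.ofReal ((1 + (c ^ 2)⁻¹) ^ (dm + 1)) *
        ∫⁻ a in Metric.ball (0 : EuclideanSpace ℝ (Fin dm)) ρ,
          ENNReal.ofReal (j a) * wgtG φ R Z (tub S φ a p) := by
  rw [← lintegral_const_mul' _ _ ENNReal.ofReal_ne_top]
  refine setLIntegral_mono' measurableSet_ball fun a ha => ?_
  have h5 := wgt_cmp dm c R _ ‖a‖ hc hR0 (norm_nonneg a) (hTay a ha)
  generalize hx : tub S φ a p = x at h5 ⊢
  have h7 : (Real.sqrt R * ‖pm φ x‖) ^ 2 = ‖Real.sqrt R • pm φ x‖ ^ 2 := by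
    rw [norm_smul, Real.norm_of_nonneg (Real.sqrt_nonneg _)]
  rw [h7] at h5
  rw [wgtG]
  generalize hA : (1 + R ^ 3 * ‖a‖ ^ 2) ^ (dm + 1) = A at h5 ⊢
  generalize hB : (1 + ‖Real.sqrt R • pm φ x‖ ^ 2) ^ (dm + 1) = B at h5 ⊢
  have hC0 : 0 ≤ (1 + (c ^ 2)⁻¹) ^ (dm + 1) := by positivity
  generalize hC : (1 + (c ^ 2)⁻¹) ^ (dm + 1) = C at h5 hC0 ⊢
  have h8 : ENNReal.ofReal (A * j a) ≤ ENNReal.ofReal C * (ENNReal.ofReal (j a) * ENNReal.ofReal B) := by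
    rw [← ENNReal.ofReal_mul (hj0 a), ← ENNReal.ofReal_mul hC0]
    refine ENNReal.ofReal_le_ofReal ((mul_le_mul_of_nonneg_right h5 (hj0 a)).trans (le_of_eq ?_))
    ring
  calc _ ≤ ENNReal.ofReal C * (ENNReal.ofReal (j a) * ENNReal.ofReal B) * ‖Z x‖ₑ ^ 2 :=
        mul_le_mul' h8 le_rfl
    _ = _ := by ring

theorem wgt_h3 (S : Setup d F) (φ : Spl dh dm d)
    {j : EuclideanSpace ℝ (Fin dm) → ℝ} {ρ R : ℝ} (hj : Continuous j) (hj0 : ∀ a, 0 ≤ j a)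
    (hR0 : 0 < R) {Z : Cfg d → F} (hZ : StronglyMeasurable Z) (p : Cfg dh × Wsp dm) :
    (∫⁻ a in Metric.ball (0 : EuclideanSpace ℝ (Fin dm)) ρ,
      ENNReal.ofReal (j a) * ‖Z (tub S φ a p)‖ₑ) ^ 2 ≤
      (∫⁻ a in Metric.ball (0 : EuclideanSpace ℝ (Fin dm)) ρ,
        ENNReal.ofReal (j a * ((1 + R ^ 3 * ‖a‖ ^ 2) ^ (dm + 1))⁻¹)) *
        ∫⁻ a in Metric.ball (0 : EuclideanSpace ℝ (Fin dm)) ρ,
          ENNReal.ofReal ((1 + R ^ 3 * ‖a‖ ^ 2) ^ (dm + 1) * j a) * ‖Z (tub S φ a p)‖ₑ ^ 2 := by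
  have htp : Measurable fun a : EuclideanSpace ℝ (Fin dm) => tub S φ a p := wgt_tub_meas S φ p
  have hz : Measurable fun a : EuclideanSpace ℝ (Fin dm) => ‖Z (tub S φ a p)‖ₑ := hZ.enorm.comp htp
  have hW : Measurable fun a : EuclideanSpace ℝ (Fin dm) => (1 + R ^ 3 * ‖a‖ ^ 2) ^ (dm + 1) := by
    fun_prop
  have hW0 : ∀ a : EuclideanSpace ℝ (Fin dm), 0 < (1 + R ^ 3 * ‖a‖ ^ 2) ^ (dm + 1) := fun a => by
    positivity
  have h := wgt_csw (volume.restrict (Metric.ball (0 : EuclideanSpace ℝ (Fin dm)) ρ)) j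
    (fun a => (1 + R ^ 3 * ‖a‖ ^ 2) ^ (dm + 1)) (fun a => ‖Z (tub S φ a p)‖ₑ) hj.measurable hW hz hj0 hW0
  exact h

/-- pointwise bound of the orbit average -/
theorem wgt_point (S : Setup d F) (φ : Spl dh dm d) (hiso : ∀ a v, ‖spn S a v‖ = ‖v‖)
    {j : EuclideanSpace ℝ (Fin dm) → ℝ} {ρ c R m : ℝ} (hj : Continuous j) (hj0 : ∀ a, 0 ≤ j a) (hc : 0 < c)
    (hR0 : 0 < R) {Z : Cfg d → F} (hZ : StronglyMeasurable Z) (p : Cfg dh × Wsp dm)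
    (hmass : ∫⁻ a in Metric.ball (0 : EuclideanSpace ℝ (Fin dm)) ρ,
      ENNReal.ofReal (j a * ((1 + R ^ 3 * ‖a‖ ^ 2) ^ (dm + 1))⁻¹) ≤ ENNReal.ofReal m)
    (hTay : ∀ a ∈ Metric.ball (0 : EuclideanSpace ℝ (Fin dm)) ρ, c * (R * ‖a‖) ≤ ‖pm φ (tub S φ a p)‖) :
    ‖Zt S φ j ρ Z p‖ₑ ^ 2 ≤ ENNReal.ofReal m * ENNReal.ofReal ((1 + (c ^ 2)⁻¹) ^ (dm + 1)) *
        ∫⁻ a in Metric.ball (0 : EuclideanSpace ℝ (Fin dm)) ρ,
          wgtG φ R Z (tub S φ a p) * ENNReal.ofReal (S.Jd φ p.1 * j a) := by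
  have hJ : 0 ≤ S.Jd φ p.1 := abs_nonneg _
  have h3 : (∫⁻ a in Metric.ball (0 : EuclideanSpace ℝ (Fin dm)) ρ,
      ENNReal.ofReal (j a) * ‖Z (tub S φ a p)‖ₑ) ^ 2 ≤
      (∫⁻ a in Metric.ball (0 : EuclideanSpace ℝ (Fin dm)) ρ,
        ENNReal.ofReal (j a * ((1 + R ^ 3 * ‖a‖ ^ 2) ^ (dm + 1))⁻¹)) *
        ∫⁻ a in Metric.ball (0 : EuclideanSpace ℝ (Fin dm)) ρ,
          ENNReal.ofReal ((1 + R ^ 3 * ‖a‖ ^ 2) ^ (dm + 1) * j a) * ‖Z (tub S φ a p)‖ₑ ^ 2 :=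
    wgt_h3 S φ hj hj0 hR0 hZ p
  have h5 : ∫⁻ a in Metric.ball (0 : EuclideanSpace ℝ (Fin dm)) ρ,
      wgtG φ R Z (tub S φ a p) * ENNReal.ofReal (S.Jd φ p.1 * j a) =
      ENNReal.ofReal (S.Jd φ p.1) * ∫⁻ a in Metric.ball (0 : EuclideanSpace ℝ (Fin dm)) ρ,
        ENNReal.ofReal (j a) * wgtG φ R Z (tub S φ a p) := by
    rw [← lintegral_const_mul' _ _ ENNReal.ofReal_ne_top]
    refine lintegral_congr fun a => ?_
    rw [ENNReal.ofReal_mul hJ, mul_comm, mul_assoc]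
  rw [h5]
  refine ((wgt_h1 S φ hiso ρ hj0 Z p).trans (mul_le_mul' le_rfl (h3.trans (mul_le_mul' hmass
    (wgt_h4 S φ hj0 hc hR0 Z p hTay))))).trans (le_of_eq ?_)
  generalize ENNReal.ofReal m = x1
  generalize ENNReal.ofReal (S.Jd φ p.1) = x2
  generalize ENNReal.ofReal ((1 + (c ^ 2)⁻¹) ^ (dm + 1)) = x3
  generalize ∫⁻ a in Metric.ball (0 : EuclideanSpace ℝ (Fin dm)) ρ,
        ENNReal.ofReal (j a) * wgtG φ R Z (tub S φ a p) = x4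
  ring

/-- Tonelli on the tube -/
theorem wgt_fub (S : Setup d F) (φ : Spl dh dm d) {j : EuclideanSpace ℝ (Fin dm) → ℝ} (hj : Continuous j)
    (y₀ : Cfg dh) (R ε ρ : ℝ) {G : Cfg d → ℝ≥0∞} (hG : Measurable G) :
    ∫⁻ p in Nb y₀ dm R ε, (∫⁻ a in Metric.ball (0 : EuclideanSpace ℝ (Fin dm)) ρ,
      G (tub S φ a p) * ENNReal.ofReal (S.Jd φ p.1 * j a)) ∂(volume.prod volume) =
    ∫⁻ q in (Metric.ball (0 : EuclideanSpace ℝ (Fin dm)) ρ) ×ˢ (Nb y₀ dm R ε),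
          G (tub S φ q.1 q.2) * ENNReal.ofReal (S.Jd φ q.2.1 * j q.1) ∂(volume.prod (volume.prod volume)) := by
  have hJm : Measurable fun q : EuclideanSpace ℝ (Fin dm) × (Cfg dh × Wsp dm) => S.Jd φ q.2.1 * j q.1 :=
    (((tbf_continuous_Jd S φ).comp (continuous_fst.comp continuous_snd)).mul
      (hj.comp continuous_fst)).measurable
  have hm : Measurable fun q : EuclideanSpace ℝ (Fin dm) × (Cfg dh × Wsp dm) =>
      G (tub S φ q.1 q.2) * ENNReal.ofReal (S.Jd φ q.2.1 * j q.1) :=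
    (hG.comp (wgt_tub_cont S φ).measurable).mul hJm.ennreal_ofReal
  rw [← Measure.prod_restrict, lintegral_prod_symm _ hm.aemeasurable]

/-- **GL5** -/
theorem wgt_stmt (S : Setup d F) : TayTStmt S → EqvStmt S → MeaStmt S → WgtStmt S := by
  intro hT hE hMea hfin dh dm r ds φ ψ y₀ hS
  obtain ⟨ε₀, ρ₀, c, C', hε₀, hρ₀, hc, hC', hTay⟩ := hT dh dm φ y₀ hS
  obtain ⟨hiso, -⟩ := hE hfin
  refine ⟨ε₀, ρ₀, hε₀, hρ₀, fun ε ρ hε hεε hρ hρρ j hj hj0 _ htube => ?_⟩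
  obtain ⟨K, hK, hdec⟩ := wgt_decay dm
  obtain ⟨M, hM0, hM⟩ : ∃ M : ℝ, 0 < M ∧ ∀ a ∈ Metric.ball (0 : EuclideanSpace ℝ (Fin dm)) ρ, j a ≤ M := by
    obtain ⟨M, hM⟩ := (isCompact_closedBall (0 : EuclideanSpace ℝ (Fin dm)) ρ).exists_bound_of_continuousOn
      hj.continuousOn
    refine ⟨|M| + 1, by positivity, fun a ha => ?_⟩
    have h1 := hM a (Metric.ball_subset_closedBall ha)
    have h2 := le_abs_self M
    have h3 := le_abs_self (j a)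
    rw [Real.norm_eq_abs] at h1
    linarith
  refine ⟨M * K * (1 + (c ^ 2)⁻¹) ^ (dm + 1), by positivity, fun R hR b hb => ?_⟩
  have hR0 : 0 < R := by linarith
  have hZ : StronglyMeasurable (Zb φ ψ b R) := ((hMea hfin dh dm r ds φ ψ hS.sub).2.1 R b hb).1
  have hmass := wgt_mass (dm := dm) hM0 hR0 hM hdec
  have hbd : ∀ p ∈ Nb y₀ dm R ε, ‖Zt S φ j ρ (Zb φ ψ b R) p‖ₑ ^ 2 ≤
      ENNReal.ofReal (M * (K * (R ^ (3 / 2 * (dm : ℝ)))⁻¹)) * ENNReal.ofReal ((1 + (c ^ 2)⁻¹) ^ (dm + 1)) *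
        ∫⁻ a in Metric.ball (0 : EuclideanSpace ℝ (Fin dm)) ρ,
          wgtG φ R (Zb φ ψ b R) (tub S φ a p) * ENNReal.ofReal (S.Jd φ p.1 * j a) := by
    intro p hp
    refine wgt_point S φ hiso hj hj0 hc hR0 hZ p hmass fun a ha => ?_
    have hp' : p ∈ Nb y₀ dm R ε₀ := by
      refine ⟨hp.1.trans_le ?_, hp.2.trans_le ?_⟩ <;> exact mul_le_mul_of_nonneg_right hεε hR0.le
    have ha' : ‖a‖ < ρ₀ := (mem_ball_zero_iff.1 ha).trans_le hρρ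
    refine le_trans ?_ (hTay R hR0 a p ha' hp').1
    have := norm_nonneg p.2
    nlinarith
  have hfub := wgt_fub S φ hj y₀ R ε ρ (wgtG_meas φ R hZ)
  rw [← htube R hR0 _ (wgtG_meas φ R hZ)] at hfub
  have htot := wgt_total φ ψ R hR0 b hb
  calc ∫⁻ p in Nb y₀ dm R ε, ‖Zt S φ j ρ (Zb φ ψ b R) p‖ₑ ^ 2 ∂(volume.prod volume)
      ≤ ∫⁻ p in Nb y₀ dm R ε, ENNReal.ofReal (M * (K * (R ^ (3 / 2 * (dm : ℝ)))⁻¹)) *
        ENNReal.ofReal ((1 + (c ^ 2)⁻¹) ^ (dm + 1)) *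
        (∫⁻ a in Metric.ball (0 : EuclideanSpace ℝ (Fin dm)) ρ,
          wgtG φ R (Zb φ ψ b R) (tub S φ a p) * ENNReal.ofReal (S.Jd φ p.1 * j a)) ∂(volume.prod volume) :=
        setLIntegral_mono' (wgt_nb_open y₀ dm R ε).measurableSet hbd
    _ = ENNReal.ofReal (M * (K * (R ^ (3 / 2 * (dm : ℝ)))⁻¹)) * ENNReal.ofReal ((1 + (c ^ 2)⁻¹) ^ (dm + 1)) *
        ∫⁻ x in Tube S φ y₀ R ε ρ, wgtG φ R (Zb φ ψ b R) x := by
        rw [lintegral_const_mul' _ _ (ENNReal.mul_ne_top ENNReal.ofReal_ne_top ENNReal.ofReal_ne_top), hfub]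
    _ ≤ ENNReal.ofReal (M * (K * (R ^ (3 / 2 * (dm : ℝ)))⁻¹)) * ENNReal.ofReal ((1 + (c ^ 2)⁻¹) ^ (dm + 1)) *
        ∫⁻ x, wgtG φ R (Zb φ ψ b R) x := mul_le_mul' le_rfl (setLIntegral_le_lintegral _ _)
    _ = _ := by
        simp only [wgtG]
        rw [htot, ← mul_assoc, ← ENNReal.ofReal_mul (by positivity),
          ← ENNReal.ofReal_mul (by positivity)]
        congr 2
        have h9 : R ^ (3 / 2 * (dm : ℝ)) ≠ 0 := (Real.rpow_pos_of_pos hR0 _).ne'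
        field_simp

end Vale.Agent.P353.Z.AN
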