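import Vale.Agent.P353.AN.GL.Stmt
import Vale.Agent.P353.AN.A.Norm
import Vale.Agent.P353.AN.A.Dec

/-! # P353, all `N`, block GL: assembly of `GluStmt` (tools) -/

set_option linter.all false

open MeasureTheory Filter Topology
open scoped ContDiff ENNReal

namespace Vale.Agent.P353.Z.AN

variable {d dh dm r ds : ℕ} {F : Type*} [NormedAddCommGroup F] [InnerProductSpace ℂ F]

section tools

variable {α : Type*} [MeasurableSpace α] {μ : Measure α}

lemma glu_ip {f g : α → F} (hf : AEStronglyMeasurable f μ) (hg : AEStronglyMeasurable g μ) :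
    eLpNorm (fun x => inner ℂ (f x) (g x)) 1 μ ≤ eLpNorm f 2 μ * eLpNorm g 2 μ := by
  have h := eLpNorm_le_eLpNorm_mul_eLpNorm_of_nnnorm (p := 2) (q := 2) (r := 1) hf hg (fun x y => inner ℂ x y) 1
    (ae_of_all _ fun x => by
      rw [one_mul]
      exact nnnorm_inner_le_nnnorm _ _)
  simpa using h

lemma glu_cs {f g : α → F} (hf : AEStronglyMeasurable f μ) (hg : AEStronglyMeasurable g μ) :
    ‖∫ x, inner ℂ (f x) (g x) ∂μ‖ₑ ≤ eLpNorm f 2 μ * eLpNorm g 2 μ := by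
  refine le_trans (enorm_integral_le_lintegral_enorm _) ?_
  rw [← eLpNorm_one_eq_lintegral_enorm]
  exact glu_ip hf hg

lemma glu_int {f g : α → F} (hf : MemLp f 2 μ) (hg : MemLp g 2 μ) : Integrable (fun x => inner ℂ (f x) (g x)) μ := by
  rw [← memLp_one_iff_integrable]
  exact ⟨hf.1.inner hg.1, lt_of_le_of_lt (glu_ip hf.1 hg.1) (ENNReal.mul_lt_top hf.2 hg.2)⟩

lemma glu_sq {E : Type*} [NormedAddCommGroup E] (f : α → E) : ∫⁻ x, ‖f x‖ₑ ^ 2 ∂μ = eLpNorm f 2 μ ^ 2 := by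
  have h := eLpNorm_nnreal_pow_eq_lintegral (μ := μ) (f := f) (p := 2) (by norm_num)
  have h2 : ((2 : NNReal) : ℝ) = ((2 : ℕ) : ℝ) := by norm_num
  have h3 : ((2 : NNReal) : ℝ≥0∞) = 2 := by norm_num
  rw [h2, h3] at h
  simp only [ENNReal.rpow_natCast] at h
  exact h.symm

lemma glu_le_of_sq {E : Type*} [NormedAddCommGroup E] {f : α → E} {C : ℝ≥0∞} (h : ∫⁻ x, ‖f x‖ₑ ^ 2 ∂μ ≤ C ^ 2) :
    eLpNorm f 2 μ ≤ C := by
  rw [glu_sq] at h
  have := ENNReal.rpow_le_rpow h (by norm_num : (0:ℝ) ≤ 1/2)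
  rw [← ENNReal.rpow_natCast, ← ENNReal.rpow_natCast, ← ENNReal.rpow_mul, ← ENNReal.rpow_mul] at this
  norm_num at this
  exact this

end tools

/-- the linear isomorphism `x ↦ (x^z, x^s, x^m)` -/
noncomputable def gluT (φ : Spl dh dm d) (ψ : Spz r ds dh) : Cfg d ≃ₗ[ℝ] Cfg r × Cfg ds × Cfg dm where
  toFun := fun x => (hz ψ (zy φ x), hs ψ (zy φ x), pm φ x)
  map_add' := by intro x y; rfl
  map_smul' := by intro c x; rfl
  invFun := fun q => WithLp.toLp 2 fun p => Sum.elim (fun A => cmb ψ q.1 q.2.1 (p.1, A)) (fun B => q.2.2 (p.1, B)) (φ.symm p.2)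
  left_inv := by
    intro x
    ext ⟨i, A⟩
    obtain ⟨a, rfl⟩ := φ.surjective A
    rcases a with a | a
    · obtain ⟨b, rfl⟩ := ψ.surjective a
      rcases b with b | b <;> simp [cmb, hz, hs, zy, pm]
    · simp [cmb, hz, hs, zy, pm]
  right_inv := by
    intro q
    refine Prod.ext ?_ (Prod.ext ?_ ?_)
    · ext ⟨i, A⟩; simp [cmb, hz, hs, zy, pm]
    · ext ⟨i, A⟩; simp [cmb, hz, hs, zy, pm]
    · ext ⟨i, A⟩; simp [cmb, hz, hs, zy, pm]

/-- with scales -/
noncomputable def gluTR (φ : Spl dh dm d) (ψ : Spz r ds dh) (R : ℝ) (hR : 0 < R) : Cfg d ≃L[ℝ] Cfg r × Cfg ds × Cfg dm :=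
  ((gluT φ ψ).trans ((LinearEquiv.smulOfNeZero ℝ (Cfg r) R⁻¹ (inv_ne_zero hR.ne')).prodCongr
    ((LinearEquiv.refl ℝ (Cfg ds)).prodCongr
      (LinearEquiv.smulOfNeZero ℝ (Cfg dm) (Real.sqrt R) (Real.sqrt_pos.2 hR).ne')))).toContinuousLinearEquiv

lemma gluTR_apply (φ : Spl dh dm d) (ψ : Spz r ds dh) (R : ℝ) (hR : 0 < R) (x : Cfg d) :
    gluTR φ ψ R hR x = (R⁻¹ • hz ψ (zy φ x), hs ψ (zy φ x), Real.sqrt R • pm φ x) := rfl

lemma glu_Zb (φ : Spl dh dm d) (ψ : Spz r ds dh) (b : Cfg r × Cfg ds × Cfg dm → F) (R : ℝ) (hR : 0 < R) (x : Cfg d) :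
    Zb φ ψ b R x = ((R ^ (3 * (dm : ℝ) - 9 * (r : ℝ) / 2) : ℝ) : ℂ) • b (gluTR φ ψ R hR x) := rfl

lemma glu_memLp (φ : Spl dh dm d) (ψ : Spz r ds dh) {b : Cfg r × Cfg ds × Cfg dm → F} (R : ℝ) (hR : 0 < R)
    (hb : MemLp b 2 ((volume : Measure (Cfg r)).prod ((volume : Measure (Cfg ds)).prod (volume : Measure (Cfg dm))))) :
    MemLp (Zb φ ψ b R) 2 volume := by
  have h1 : (Measure.map (gluTR φ ψ R hR) (volume : Measure (Cfg d))).IsAddHaarMeasure :=
    (gluTR φ ψ R hR).isAddHaarMeasure_map _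
  haveI h5 : ((volume : Measure (Cfg ds)).prod (volume : Measure (Cfg dm))).IsAddHaarMeasure :=
    Measure.prod.instIsAddHaarMeasure _ _
  haveI h6 : ((volume : Measure (Cfg r)).prod ((volume : Measure (Cfg ds)).prod (volume : Measure (Cfg dm)))).IsAddHaarMeasure :=
    Measure.prod.instIsAddHaarMeasure _ _
  have h2 := Measure.isAddLeftInvariant_eq_smul (Measure.map (gluTR φ ψ R hR) (volume : Measure (Cfg d)))
    ((volume : Measure (Cfg r)).prod ((volume : Measure (Cfg ds)).prod (volume : Measure (Cfg dm))))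
  have h3 : MemLp b 2 (Measure.map (gluTR φ ψ R hR) (volume : Measure (Cfg d))) := by
    rw [h2]
    exact hb.smul_measure (by simp)
  have h4 : MemLp (b ∘ gluTR φ ψ R hR) 2 (volume : Measure (Cfg d)) :=
    (memLp_map_measure_iff h3.1 (gluTR φ ψ R hR).continuous.aemeasurable).1 h3
  exact h4.const_smul _

/-! ### the weighted measure -/

lemma glu_w_meas (r ds dm : ℕ) : Measurable fun q : Cfg r × Cfg ds × Cfg dm =>
    ENNReal.ofReal ((1 + ‖q.2.2‖ ^ 2) ^ (dm + 1)) := by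
  refine ENNReal.measurable_ofReal.comp ?_
  exact (continuous_const.add ((continuous_snd.comp continuous_snd).norm.pow 2)).pow _ |>.measurable

lemma glu_w_le (r ds dm : ℕ) :
    ((volume : Measure (Cfg r)).prod ((volume : Measure (Cfg ds)).prod (volume : Measure (Cfg dm)))) ≤ wM r ds dm := by
  have h : ((volume : Measure (Cfg r)).prod ((volume : Measure (Cfg ds)).prod (volume : Measure (Cfg dm)))) =
      ((volume : Measure (Cfg r)).prod ((volume : Measure (Cfg ds)).prod (volume : Measure (Cfg dm)))).withDensity 1 :=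
    withDensity_one.symm
  unfold wM
  conv_lhs => rw [h]
  refine withDensity_mono (ae_of_all _ fun q => ?_)
  show (1 : ℝ≥0∞) ≤ _
  rw [← ENNReal.ofReal_one]
  refine ENNReal.ofReal_le_ofReal (one_le_pow₀ ?_)
  nlinarith [sq_nonneg ‖q.2.2‖]

lemma glu_w_lint {f : Cfg r × Cfg ds × Cfg dm → ℝ≥0∞} (hf : Measurable f) :
    ∫⁻ q, f q ∂(wM r ds dm) = ∫⁻ q, ENNReal.ofReal ((1 + ‖q.2.2‖ ^ 2) ^ (dm + 1)) * f q
      ∂((volume : Measure (Cfg r)).prod ((volume : Measure (Cfg ds)).prod (volume : Measure (Cfg dm)))) := by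
  unfold wM
  rw [lintegral_withDensity_eq_lintegral_mul _ (glu_w_meas r ds dm) hf]
  rfl

lemma glu_w_sq {b : Cfg r × Cfg ds × Cfg dm → F} (hb : StronglyMeasurable b) :
    ∫⁻ q, ENNReal.ofReal ((1 + ‖q.2.2‖ ^ 2) ^ (dm + 1)) * ‖b q‖ₑ ^ 2
      ∂((volume : Measure (Cfg r)).prod ((volume : Measure (Cfg ds)).prod (volume : Measure (Cfg dm)))) =
      eLpNorm b 2 (wM r ds dm) ^ 2 := by
  rw [← glu_sq, glu_w_lint (hb.enorm.pow_const 2)]

/-! ### restriction to the slice ball -/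

lemma glu_nb_meas (y₀ : Cfg dh) (dm : ℕ) (R ε : ℝ) : MeasurableSet (Nb y₀ dm R ε) := by
  have e1 : IsOpen {p : Cfg dh × Wsp dm | ‖p.1 - R • y₀‖ < ε * R} :=
    isOpen_lt (continuous_fst.sub continuous_const).norm continuous_const
  have e2 : IsOpen {p : Cfg dh × Wsp dm | ‖p.2‖ < ε * R} :=
    isOpen_lt continuous_snd.norm continuous_const
  exact (e1.inter e2).measurableSet

lemma glu_res_cont (S : Setup d F) (φ : Spl dh dm d) {u : Cfg d → F} (hu : Continuous u) :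
    Continuous fun p : Cfg dh × Wsp dm => S.res φ u p.1 p.2 := by
  have e2 : Continuous fun p : Cfg dh × Wsp dm => ((Real.sqrt (S.Jd φ p.1) : ℝ) : ℂ) := by
    unfold Setup.Jd
    exact Complex.continuous_ofReal.comp (((nrm_continuous_det S φ).comp continuous_fst).abs.sqrt)
  exact e2.smul (hu.comp (nrm_continuous_emb φ))

lemma glu_res_memLp (S : Setup d F) (φ : Spl dh dm d) {u : Cfg d → F} (hu : Continuous u) (y₀ : Cfg dh) (R ε : ℝ) :
    MemLp (fun p : Cfg dh × Wsp dm => S.res φ u p.1 p.2) 2 ((volume.prod volume).restrict (Nb y₀ dm R ε)) := by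
  have hK : IsCompact ((Metric.closedBall (R • y₀) (ε * R)) ×ˢ (Metric.closedBall (0 : Wsp dm) (ε * R))) :=
    (isCompact_closedBall _ _).prod (isCompact_closedBall _ _)
  have hsub : Nb y₀ dm R ε ⊆ (Metric.closedBall (R • y₀) (ε * R)) ×ˢ (Metric.closedBall (0 : Wsp dm) (ε * R)) := by
    intro p hp
    refine ⟨?_, ?_⟩
    · rw [mem_closedBall_iff_norm]; exact hp.1.le
    · rw [mem_closedBall_zero_iff]; exact hp.2.le
  have h1 : MemLp (fun p : Cfg dh × Wsp dm => S.res φ u p.1 p.2) 2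
      ((volume.prod volume).restrict ((Metric.closedBall (R • y₀) (ε * R)) ×ˢ (Metric.closedBall (0 : Wsp dm) (ε * R)))) := by
    obtain ⟨B, hB⟩ := hK.exists_bound_of_continuousOn (glu_res_cont S φ hu).continuousOn
    haveI : IsFiniteMeasure ((volume.prod volume : Measure (Cfg dh × Wsp dm)).restrict
        ((Metric.closedBall (R • y₀) (ε * R)) ×ˢ (Metric.closedBall (0 : Wsp dm) (ε * R)))) :=
      ⟨by rw [Measure.restrict_apply_univ]; exact hK.measure_lt_top⟩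
    refine MemLp.of_bound (glu_res_cont S φ hu).aestronglyMeasurable B ?_
    filter_upwards [ae_restrict_mem hK.measurableSet] with p hp
    exact hB p hp
  exact h1.mono_measure (Measure.restrict_mono hsub le_rfl)

lemma glu_real_sq {α : Type*} [MeasurableSpace α] {μ : Measure α} {f : α → F} (hf : MemLp f 2 μ) :
    ENNReal.ofReal (∫ x, ‖f x‖ ^ 2 ∂μ) = eLpNorm f 2 μ ^ 2 := by
  rw [← glu_sq, ofReal_integral_eq_lintegral_ofReal ((memLp_two_iff_integrable_sq_norm hf.1).1 hf)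
    (ae_of_all _ fun x => sq_nonneg _)]
  refine lintegral_congr fun x => ?_
  rw [ENNReal.ofReal_pow (norm_nonneg _), ofReal_norm_eq_enorm]

lemma glu_res_le (S : Setup d F) (φ : Spl dh dm d) (y₀ : Cfg dh) (R ε ρ c : ℝ) (hc : 0 < c) {u : Cfg d → F}
    (hu : Setup.Tst u) (h : ∫ x in Tube S φ y₀ R ε ρ, ‖u x‖ ^ 2 =
      c * ∫ p in Nb y₀ dm R ε, ‖S.res φ u p.1 p.2‖ ^ 2 ∂(volume.prod volume)) :
    eLpNorm (fun p : Cfg dh × Wsp dm => S.res φ u p.1 p.2) 2 ((volume.prod volume).restrict (Nb y₀ dm R ε)) ≤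
      ENNReal.ofReal (Real.sqrt c)⁻¹ * eLpNorm u 2 volume := by
  have h1 := glu_real_sq (glu_res_memLp S φ hu.1.continuous y₀ R ε)
  have hu2 : MemLp u 2 (volume : Measure (Cfg d)) := hu.memLp
  have h2 := glu_real_sq (hu2.mono_measure (Measure.restrict_le_self (s := Tube S φ y₀ R ε ρ)))
  have h3 : eLpNorm u 2 ((volume : Measure (Cfg d)).restrict (Tube S φ y₀ R ε ρ)) ≤ eLpNorm u 2 volume :=
    eLpNorm_mono_measure _ Measure.restrict_le_self
  have h4 : (∫ p in Nb y₀ dm R ε, ‖S.res φ u p.1 p.2‖ ^ 2 ∂(volume.prod volume)) =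
      c⁻¹ * ∫ x in Tube S φ y₀ R ε ρ, ‖u x‖ ^ 2 := by
    rw [h]; field_simp
  rw [h4, ENNReal.ofReal_mul (inv_nonneg.2 hc.le), h2] at h1
  have h5 : eLpNorm (fun p : Cfg dh × Wsp dm => S.res φ u p.1 p.2) 2
      ((volume.prod volume).restrict (Nb y₀ dm R ε)) ^ 2 ≤
      (ENNReal.ofReal (Real.sqrt c)⁻¹ * eLpNorm u 2 volume) ^ 2 := by
    rw [← h1, mul_pow, ← ENNReal.ofReal_pow (by positivity), inv_pow, Real.sq_sqrt hc.le]
    gcongr
  have := ENNReal.rpow_le_rpow h5 (by norm_num : (0:ℝ) ≤ 1/2)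
  rw [← ENNReal.rpow_natCast, ← ENNReal.rpow_natCast, ← ENNReal.rpow_mul, ← ENNReal.rpow_mul] at this
  norm_num at this
  exact this

end Vale.Agent.P353.Z.AN
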