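import Vale.Agent.P353.AN.GL.StmtD
import Vale.Agent.P353.AN.D.StmtL

/-! # P353, all `N`, block GL: GL12, scaling of the normalised vacuum and the pointwise identity -/

open MeasureTheory Filter Topology Matrix
open scoped ContDiff

namespace Vale.Agent.P353.Z.AN.SfuA

variable {d dh dm ds dz : ℕ} {F : Type*} [NormedAddCommGroup F] [InnerProductSpace ℂ F]

/-! ### scaling of the quadratic form -/

lemma fin_W (dm : ℕ) : Module.finrank ℝ (Wsp dm) = 8 * dm := by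
  rw [finrank_euclideanSpace, Fintype.card_prod, Fintype.card_fin, Fintype.card_fin]

lemma int_sq {E : Type*} [NormedAddCommGroup E] [NormedSpace ℝ E] {R : ℝ} (hR : 0 < R)
    (u : Wsp dm → E) :
    ∫ w, u (Real.sqrt R • w) = (Real.sqrt R ^ (8 * dm))⁻¹ • ∫ w, u w := by
  have h := Measure.integral_comp_smul (volume : Measure (Wsp dm)) u (Real.sqrt R)
  rw [fin_W] at h
  rw [h, abs_of_nonneg]
  have := Real.sqrt_nonneg R
  positivity

lemma wt_smul (c : ℝ) (w : Wsp dm) (i : Fin 9) : wt (c • w) i = c • wt w i := by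
  funext B
  refine Fin.lastCases ?_ (fun j => ?_) i
  · simp only [wt, Pi.smul_apply, Fin.lastCases_last, smul_zero]
  · simp only [wt, Pi.smul_apply, Fin.lastCases_castSucc, PiLp.smul_apply]

lemma sV_smul (D : Fin 9 → Matrix (Fin dm) (Fin dm) ℝ) (c : ℝ) (w : Wsp dm) :
    sV D (c • w) = c • sV D w := by
  unfold sV
  simp only [wt_smul, Matrix.mulVec_smul, ← Finset.smul_sum]

lemma VV_smul (D : Fin 9 → Matrix (Fin dm) (Fin dm) ℝ) (c : ℝ) (w : Wsp dm) (i : Fin 9) :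
    VV D (c • w) i = c • VV D w i := by
  unfold VV
  rw [wt_smul, sV_smul, Matrix.mulVec_smul, smul_sub]

lemma qf_smul (D : Fin 9 → Matrix (Fin dm) (Fin dm) ℝ) (Om : Matrix (Fin dm) (Fin dm) ℝ)
    (c : ℝ) (w : Wsp dm) : qf D Om (c • w) = c ^ 2 * qf D Om w := by
  unfold qf
  simp only [VV_smul, Matrix.mulVec_smul, smul_dotProduct, dotProduct_smul, smul_eq_mul,
    Finset.mul_sum]
  exact Finset.sum_congr rfl fun i _ => by ring

lemma inv_smul' {R : ℝ} (hR : R ≠ 0) (M : Matrix (Fin dm) (Fin dm) ℝ) :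
    (R • M)⁻¹ = R⁻¹ • M⁻¹ := by
  by_cases h : IsUnit M.det
  · exact Matrix.inv_smul' M (Units.mk0 R hR) h
  · rw [Matrix.nonsing_inv_apply_not_isUnit _ h, smul_zero]
    refine Matrix.nonsing_inv_apply_not_isUnit _ ?_
    rw [Matrix.det_smul]
    intro h1
    exact h (isUnit_of_mul_isUnit_right h1)

lemma tI_smul {R : ℝ} (hR : R ≠ 0) (D : Fin 9 → Matrix (Fin dm) (Fin dm) ℝ) (i : Fin 9) :
    tI (fun i => R • D i) i = tI D i := by
  unfold tI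
  rw [inv_smul' hR, Matrix.smul_mul, Matrix.mul_smul, smul_smul, inv_mul_cancel₀ hR, one_smul]

lemma qf_scale {R : ℝ} (hR : R ≠ 0) (D : Fin 9 → Matrix (Fin dm) (Fin dm) ℝ)
    (Om : Matrix (Fin dm) (Fin dm) ℝ) (w : Wsp dm) :
    qf (fun i => R • D i) (R • Om) w = R * qf D Om w := by
  have h2 : t2 (fun i => R • D i) = t2 D := by
    unfold t2
    exact Finset.sum_congr rfl fun i _ => by rw [tI_smul hR]
  have hV : ∀ i, VV (fun i => R • D i) w i = VV D w i := by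
    intro i
    unfold VV sV
    simp only [tI_smul hR, h2]
  unfold qf
  rw [Finset.mul_sum]
  refine Finset.sum_congr rfl fun i _ => ?_
  rw [hV, Matrix.smul_mulVec, dotProduct_smul, smul_eq_mul]

/-- normalised boson vacuum of frozen data -/
noncomputable def gh (D : Fin 9 → Matrix (Fin dm) (Fin dm) ℝ) (Om : Matrix (Fin dm) (Fin dm) ℝ) (w : Wsp dm) : ℝ :=
  gR D Om 1 w / Real.sqrt (∫ w', gR D Om 1 w' ^ 2)

lemma gR_scale {R : ℝ} (hR : 0 < R) (D : Fin 9 → Matrix (Fin dm) (Fin dm) ℝ)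
    (Om : Matrix (Fin dm) (Fin dm) ℝ) (w : Wsp dm) :
    gR (fun i => R • D i) (R • Om) 1 w = gR D Om 1 (Real.sqrt R • w) := by
  unfold gR
  rw [qf_scale hR.ne', qf_smul, Real.sq_sqrt hR.le]

lemma gh_scale {R : ℝ} (hR : 0 < R) (D : Fin 9 → Matrix (Fin dm) (Fin dm) ℝ)
    (Om : Matrix (Fin dm) (Fin dm) ℝ) (w : Wsp dm) :
    gh (fun i => R • D i) (R • Om) w = R ^ (2 * dm) * gh D Om (Real.sqrt R • w) := by
  unfold gh
  have hs : 0 < Real.sqrt R := Real.sqrt_pos.2 hR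
  have h1 : (∫ w' : Wsp dm, gR (fun i => R • D i) (R • Om) 1 w' ^ 2) =
      (R ^ (4 * dm))⁻¹ * ∫ w' : Wsp dm, gR D Om 1 w' ^ 2 := by
    simp only [gR_scale hR]
    rw [int_sq hR (fun w' : Wsp dm => gR D Om 1 w' ^ 2), smul_eq_mul]
    congr 2
    calc Real.sqrt R ^ (8 * dm) = (Real.sqrt R ^ 2) ^ (4 * dm) := by rw [← pow_mul]; congr 1; ring
      _ = R ^ (4 * dm) := by rw [Real.sq_sqrt hR.le]
  rw [h1, gR_scale hR]
  have h2 : Real.sqrt ((R ^ (4 * dm))⁻¹ * ∫ w' : Wsp dm, gR D Om 1 w' ^ 2) =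
      (R ^ (2 * dm))⁻¹ * Real.sqrt (∫ w' : Wsp dm, gR D Om 1 w' ^ 2) := by
    rw [Real.sqrt_mul (by positivity)]
    congr 1
    have : (R ^ (4 * dm))⁻¹ = ((R ^ (2 * dm))⁻¹) ^ 2 := by
      rw [inv_pow, ← pow_mul]; congr 2; ring
    rw [this, Real.sqrt_sq (by positivity)]
  rw [h2]
  have h3 : R ^ (2 * dm) ≠ 0 := (pow_pos hR _).ne'
  by_cases h4 : Real.sqrt (∫ w' : Wsp dm, gR D Om 1 w' ^ 2) = 0
  · rw [h4]; simp
  · field_simp

/-! ### coordinates -/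

lemma Dz_smul (S : Setup d F) (φ : Spl dh dm d) (ψ : Spl ds dz dh) (R : ℝ) (η : Cfg dz) :
    AD.Dz S φ ψ (R • η) = fun i => R • AD.Dz S φ ψ η i := by
  funext i
  ext B C
  simp only [AD.Dz, Setup.Dy, Setup.Dm, Matrix.of_apply, Matrix.smul_apply, smul_eq_mul, Finset.mul_sum]
  refine Finset.sum_congr rfl fun A => ?_
  intro _
  have h1 : AD.cmb ψ 0 (R • η) (i, A) = R * AD.cmb ψ 0 η (i, A) := by
    obtain ⟨a, rfl⟩ := ψ.surjective A
    rcases a with a | a <;> simp [AD.cmb]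
  rw [h1]
  ring

lemma hz_swp (ψ : Spl ds dz dh) (y : Cfg dh) : hz (swp ψ) y = AD.zp ψ y := rfl

lemma hs_swp (ψ : Spl ds dz dh) (y : Cfg dh) : hs (swp ψ) y = AD.sp ψ y := rfl

lemma sp_congr [FiniteDimensional ℂ F] {K K' : Submodule ℂ F} (h : K = K') :
    K.starProjection = K'.starProjection := by
  subst h
  rfl

/-- the slice section at scale one -/
noncomputable def vv [FiniteDimensional ℂ F] (S : Setup d F) (φ : Spl dh dm d) (ψ : Spl ds dz dh) (χ : Cfg dz → ℝ)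
    (o : Cfg ds → F) : Cfg dz → Cfg ds → Wsp dm → F :=
  vG S φ (swp ψ) (fun η => AD.omc S.κ (AD.Dz S φ ψ η)) (aP S φ ψ χ o)

lemma vv_eq [FiniteDimensional ℂ F] (S : Setup d F) (φ : Spl dh dm d) (ψ : Spl ds dz dh) (χ : Cfg dz → ℝ)
    (o : Cfg ds → F) (η : Cfg dz) (s : Cfg ds) (w : Wsp dm) :
    vv S φ ψ χ o η s w = ((gh (AD.Dz S φ ψ η) (AD.omc S.κ (AD.Dz S φ ψ η)) w : ℝ) : ℂ) • aP S φ ψ χ o η s := by
  unfold vv vG gh
  rw [Dz_swp]

/-- the pointwise identity between the integrand of `sfun` and the slice section -/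
lemma pt_id [FiniteDimensional ℂ F] (S : Setup d F) (φ : Spl dh dm d) (ψ : Spl ds dz dh) (hCmb : AD.CmbStmt) {z₀ : Cfg dz}
    {δ : ℝ} (hPc : ∀ η, ‖η - z₀‖ ≤ δ → ∀ R : ℝ, 0 < R →
      AD.omc S.κ (AD.Dz S φ ψ (R • η)) = R • AD.omc S.κ (AD.Dz S φ ψ η) ∧
      S.F0 φ (AD.Dz S φ ψ (R • η)) (AD.omc S.κ (AD.Dz S φ ψ (R • η))) =
        S.F0 φ (AD.Dz S φ ψ η) (AD.omc S.κ (AD.Dz S φ ψ η))) (χ : Cfg dz → ℝ)
    (hχ : ∀ η, χ η ≠ 0 → ‖η - z₀‖ ≤ δ) (o : Cfg ds → F) {R : ℝ} (hR : 0 < R) (ys : Cfg ds) (yz : Cfg dz) (w : Wsp dm)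
    (r : F) :
    ((R ^ (-(9 * (dz : ℝ) / 2)) : ℝ) : ℂ) * (((χ (R⁻¹ • yz) : ℝ) : ℂ) * inner ℂ (AD.vcz S φ ψ yz (o ys) w) r) =
      inner ℂ (Ts0 (swp ψ) (vv S φ ψ χ o) R (AD.cmb ψ ys yz) w) r := by
  obtain ⟨hsp, hzp, -⟩ := hCmb ds dz dh ψ
  have e1 : hz (swp ψ) (AD.cmb ψ ys yz) = yz := hzp ys yz
  have e2 : hs (swp ψ) (AD.cmb ψ ys yz) = ys := hsp ys yz
  unfold Ts0
  rw [e1, e2, vv_eq]
  by_cases h0 : χ (R⁻¹ • yz) = 0
  · have ha : aP S φ ψ χ o (R⁻¹ • yz) ys = 0 := by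
      unfold aP
      rw [h0]
      simp
    rw [ha, h0]
    simp
  · obtain ⟨η, hη⟩ : ∃ η, η = R⁻¹ • yz := ⟨_, rfl⟩
    have hyz : yz = R • η := by rw [hη, smul_smul, mul_inv_cancel₀ hR.ne', one_smul]
    rw [← hη] at h0 ⊢
    obtain ⟨h1, h2⟩ := hPc η (hχ η h0) R hR
    have hv : AD.vcz S φ ψ yz (o ys) w = ((R ^ (2 * dm) * gh (AD.Dz S φ ψ η) (AD.omc S.κ (AD.Dz S φ ψ η))
        (Real.sqrt R • w) : ℝ) : ℂ) •
        (S.F0 φ (AD.Dz S φ ψ η) (AD.omc S.κ (AD.Dz S φ ψ η))).starProjection (o ys) := by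
      unfold AD.vcz
      rw [hyz, sp_congr h2]
      congr 2
      rw [← gh_scale hR, ← h1, ← Dz_smul]
      rfl
    rw [hv]
    unfold aP
    simp only [inner_smul_left, Complex.conj_ofReal]
    have h3 : R ^ (2 * (dm : ℝ) - 9 * (dz : ℝ) / 2) = R ^ (-(9 * (dz : ℝ) / 2)) * R ^ (2 * dm) := by
      rw [← Real.rpow_natCast R (2 * dm), ← Real.rpow_add hR]
      congr 1
      push_cast
      ring
    rw [h3]
    push_cast
    ring

end Vale.Agent.P353.Z.AN.SfuA
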