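import Vale.Agent.P353.AN.GL.Stmt

/-! # P353, all `N`, block GL6, part B: scaled tube estimates -/

open MeasureTheory Filter Topology
open scoped ContDiff

namespace Vale.Agent.P353.Z.AN

variable {d dh dm r ds : ℕ} {F : Type*} [NormedAddCommGroup F] [InnerProductSpace ℂ F]

theorem cnvB_Dy_smul (S : Setup d F) (φ : Spl dh dm d) (i : Fin 9) (c : ℝ) (y : Cfg dh) (B C : Fin dm) :
    S.Dy φ i (c • y) B C = c * S.Dy φ i y B C := by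
  simp only [Setup.Dy, Setup.Dm, Matrix.of_apply, PiLp.smul_apply, smul_eq_mul, Finset.mul_sum]
  exact Finset.sum_congr rfl fun A _ => by ring

theorem cnvB_cmb_smul (ψ : Spz r ds dh) (c : ℝ) (η : Cfg r) (s : Cfg ds) :
    c • cmb ψ η s = cmb ψ (c • η) (c • s) := by
  ext p
  simp only [cmb, PiLp.smul_apply, smul_eq_mul]
  rcases ψ.symm p.2 with a | b <;> simp

theorem cnvB_hz_cmb (ψ : Spz r ds dh) (η : Cfg r) (s : Cfg ds) : hz ψ (cmb ψ η s) = η := by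
  ext p
  simp [hz, cmb]

theorem cnvB_hs_cmb (ψ : Spz r ds dh) (η : Cfg r) (s : Cfg ds) : hs ψ (cmb ψ η s) = s := by
  ext p
  simp [hs, cmb]

theorem cnvB_hz_sub (ψ : Spz r ds dh) (y y' : Cfg dh) : hz ψ (y - y') = hz ψ y - hz ψ y' := by
  ext p
  simp [hz]

theorem cnvB_hs_sub (ψ : Spz r ds dh) (y y' : Cfg dh) : hs ψ (y - y') = hs ψ y - hs ψ y' := by
  ext p
  simp [hs]

theorem cnvB_norm (ψ : Spz r ds dh) (y : Cfg dh) : ‖y‖ ^ 2 = ‖hz ψ y‖ ^ 2 + ‖hs ψ y‖ ^ 2 := by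
  rw [EuclideanSpace.norm_sq_eq, EuclideanSpace.norm_sq_eq, EuclideanSpace.norm_sq_eq]
  rw [Fintype.sum_prod_type, Fintype.sum_prod_type, Fintype.sum_prod_type, ← Finset.sum_add_distrib]
  refine Finset.sum_congr rfl fun i _ => ?_
  rw [← ψ.sum_comp, Fintype.sum_sum_type]
  simp [hz, hs]

theorem cnvB_hz_le (ψ : Spz r ds dh) (y : Cfg dh) : ‖hz ψ y‖ ≤ ‖y‖ := by
  have h := cnvB_norm ψ y
  nlinarith [norm_nonneg (hz ψ y), norm_nonneg (hs ψ y), norm_nonneg y]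

theorem cnvB_hs_le (ψ : Spz r ds dh) (y : Cfg dh) : ‖hs ψ y‖ ≤ ‖y‖ := by
  have h := cnvB_norm ψ y
  nlinarith [norm_nonneg (hz ψ y), norm_nonneg (hs ψ y), norm_nonneg y]

theorem cnvB_wt_smul (c : ℝ) (w : Wsp dm) (i : Fin 9) (B : Fin dm) : wt (c • w) i B = c * wt w i B := by
  unfold wt
  refine Fin.lastCases ?_ (fun j => ?_) i
  · simp only [Fin.lastCases_last, mul_zero]
  · simp only [Fin.lastCases_castSucc, PiLp.smul_apply, smul_eq_mul]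

theorem cnvB_xi (S : Setup d F) (φ : Spl dh dm d) (y : Cfg dh) (w : Wsp dm) (a : EuclideanSpace ℝ (Fin dm)) (t k : ℝ)
    (ht : t ≠ 0) :
    t • xi (fun i => S.Dy φ i y) (t⁻¹ • w) (k • a) = xi (fun i => S.Dy φ i ((t * k) • y)) w a := by
  ext p
  simp only [xi, PiLp.smul_apply, smul_eq_mul, cnvB_wt_smul, cnvB_Dy_smul, mul_sub, Finset.mul_sum]
  congr 1
  · rw [← mul_assoc, mul_inv_cancel₀ ht, one_mul]
  · exact Finset.sum_congr rfl fun C _ => by ring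

theorem cnvB_est (S : Setup d F) (φ : Spl dh dm d) (ψ : Spz r ds dh) (z₀ : Cfg r) (ε₀ ρ₀ c C : ℝ) (hC : 0 < C)
    (hT : ∀ R : ℝ, 0 < R → ∀ a p, ‖a‖ < ρ₀ → p ∈ Nb (cmb ψ z₀ 0) dm R ε₀ →
      c * (R * ‖a‖ + ‖p.2‖) ≤ ‖pm φ (tub S φ a p)‖ ∧ ‖zy φ (tub S φ a p) - p.1‖ ≤ C * ‖a‖ * (R * ‖a‖ + ‖p.2‖) ∧
      ‖pm φ (tub S φ a p) - xi (fun i => S.Dy φ i p.1) p.2 a‖ ≤ C * ‖a‖ * (R * ‖a‖ + ‖p.2‖))
    (R : ℝ) (hR : 1 ≤ R) (η : Cfg r) (s : Cfg ds) (v : Wsp dm) (α : EuclideanSpace ℝ (Fin dm)) (x : Cfg d)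
    (hx : x = tub S φ ((R * Real.sqrt R)⁻¹ • α) (cmb ψ (R • η) s, (Real.sqrt R)⁻¹ • v))
    (ha : ‖(R * Real.sqrt R)⁻¹ • α‖ < ρ₀) (hp : (cmb ψ (R • η) s, (Real.sqrt R)⁻¹ • v) ∈ Nb (cmb ψ z₀ 0) dm R ε₀) :
    c * (‖α‖ + ‖v‖) ≤ ‖Real.sqrt R • pm φ x‖ ∧
    ‖R⁻¹ • hz ψ (zy φ x) - η‖ ≤ C * ‖α‖ * (‖α‖ + ‖v‖) / R ∧
    ‖hs ψ (zy φ x) - s‖ ≤ C * ‖α‖ * (‖α‖ + ‖v‖) / R ∧
    ‖Real.sqrt R • pm φ x - xi (fun i => S.Dy φ i (cmb ψ η (R⁻¹ • s))) v α‖ ≤ C * ‖α‖ * (‖α‖ + ‖v‖) / R := by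
  have hR0 : 0 < R := by linarith
  have hq0 : 0 < Real.sqrt R := Real.sqrt_pos.2 hR0
  have hq1 : 1 ≤ Real.sqrt R := Real.one_le_sqrt.2 hR
  have hqq : Real.sqrt R * Real.sqrt R = R := Real.mul_self_sqrt hR0.le
  set q := Real.sqrt R with hq
  obtain ⟨h1, h2, h3⟩ := hT R hR0 _ _ ha hp
  rw [← hx] at h1 h2 h3
  have na : ‖(R * q)⁻¹ • α‖ = (R * q)⁻¹ * ‖α‖ := by
    rw [norm_smul, Real.norm_of_nonneg (by positivity)]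
  have nw : ‖q⁻¹ • v‖ = q⁻¹ * ‖v‖ := by
    rw [norm_smul, Real.norm_of_nonneg (by positivity)]
  have e0 : R * ((R * q)⁻¹ * ‖α‖) + q⁻¹ * ‖v‖ = q⁻¹ * (‖α‖ + ‖v‖) := by
    field_simp
  simp only [na, nw, e0] at h1 h2 h3
  have e1 : C * ((R * q)⁻¹ * ‖α‖) * (q⁻¹ * (‖α‖ + ‖v‖)) = C * ‖α‖ * (‖α‖ + ‖v‖) / R / R := by
    have : (R * q)⁻¹ * q⁻¹ = 1 / R / R := by
      rw [← mul_inv, mul_assoc, hqq, one_div, mul_inv, div_eq_mul_inv]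
    calc C * ((R * q)⁻¹ * ‖α‖) * (q⁻¹ * (‖α‖ + ‖v‖)) = C * ‖α‖ * (‖α‖ + ‖v‖) * ((R * q)⁻¹ * q⁻¹) := by ring
      _ = _ := by rw [this]; ring
  rw [e1] at h2 h3
  set M := C * ‖α‖ * (‖α‖ + ‖v‖) / R with hM
  have hM0 : 0 ≤ M := by positivity
  have hMR : M / R ≤ M := div_le_self hM0 hR
  refine ⟨?_, ?_, ?_, ?_⟩
  · rw [norm_smul, Real.norm_of_nonneg hq0.le]
    calc c * (‖α‖ + ‖v‖) = q * (c * (q⁻¹ * (‖α‖ + ‖v‖))) := by field_simp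
      _ ≤ q * ‖pm φ x‖ := mul_le_mul_of_nonneg_left h1 hq0.le
  · have k1 : hz ψ (zy φ x) - R • η = hz ψ (zy φ x - cmb ψ (R • η) s) := by
      rw [cnvB_hz_sub, cnvB_hz_cmb]
    have k2 : R⁻¹ • hz ψ (zy φ x) - η = R⁻¹ • (hz ψ (zy φ x) - R • η) := by
      rw [smul_sub, smul_smul, inv_mul_cancel₀ hR0.ne', one_smul]
    rw [k2, k1, norm_smul, Real.norm_of_nonneg (by positivity)]
    calc R⁻¹ * ‖hz ψ (zy φ x - cmb ψ (R • η) s)‖ ≤ 1 * ‖hz ψ (zy φ x - cmb ψ (R • η) s)‖ :=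
          mul_le_mul_of_nonneg_right (inv_le_one_of_one_le₀ hR) (norm_nonneg _)
      _ ≤ ‖zy φ x - cmb ψ (R • η) s‖ := by rw [one_mul]; exact cnvB_hz_le ψ _
      _ ≤ M := h2.trans hMR
  · have k1 : hs ψ (zy φ x) - s = hs ψ (zy φ x - cmb ψ (R • η) s) := by
      rw [cnvB_hs_sub, cnvB_hs_cmb]
    rw [k1]
    exact (cnvB_hs_le ψ _).trans (h2.trans hMR)
  · have k1 : q • xi (fun i => S.Dy φ i (cmb ψ (R • η) s)) (q⁻¹ • v) ((R * q)⁻¹ • α) =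
        xi (fun i => S.Dy φ i (cmb ψ η (R⁻¹ • s))) v α := by
      rw [cnvB_xi S φ _ v α q (R * q)⁻¹ hq0.ne']
      have : (q * (R * q)⁻¹) • cmb ψ (R • η) s = cmb ψ η (R⁻¹ • s) := by
        have e : q * (R * q)⁻¹ = R⁻¹ := by field_simp
        rw [e, cnvB_cmb_smul, smul_smul, inv_mul_cancel₀ hR0.ne', one_smul]
      rw [this]
    rw [← k1, ← smul_sub, norm_smul, Real.norm_of_nonneg hq0.le]
    have hqR : q ≤ R := by nlinarith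
    calc q * ‖pm φ x - xi (fun i => S.Dy φ i (cmb ψ (R • η) s)) (q⁻¹ • v) ((R * q)⁻¹ • α)‖
        ≤ R * (M / R) := mul_le_mul hqR h3 (norm_nonneg _) hR0.le
      _ = M := by field_simp

end Vale.Agent.P353.Z.AN
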