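import Vale.Agent.P353.AN.GL.CnvA
import Vale.Agent.P353.AN.GL.CnvB
import Vale.Agent.P353.AN.A.Dexp
import Vale.Agent.P353.AN.A.Norm

/-! # P353, all `N`, block GL6: convergence of the orbit average -/

open MeasureTheory Filter Topology
open scoped ContDiff

namespace Vale.Agent.P353.Z.AN

variable {d dh dm r ds : ℕ} {F : Type*} [NormedAddCommGroup F] [InnerProductSpace ℂ F]

lemma cnv_hz_cmb (ψ : Spz r ds dh) (η : Cfg r) (s : Cfg ds) : hz ψ (cmb ψ η s) = η := by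
  ext p
  simp [hz, cmb]

lemma cnv_hs_cmb (ψ : Spz r ds dh) (η : Cfg r) (s : Cfg ds) : hs ψ (cmb ψ η s) = s := by
  ext p
  simp [hs, cmb]

lemma cnv_cmb (ψ : Spz r ds dh) (y : Cfg dh) : cmb ψ (hz ψ y) (hs ψ y) = y := by
  ext p
  obtain ⟨i, A⟩ := p
  obtain ⟨q, rfl⟩ := ψ.surjective A
  rcases q with a | b <;> simp [cmb, hz, hs]

lemma cnv_norm_sq (ψ : Spz r ds dh) (y : Cfg dh) : ‖y‖ ^ 2 = ‖hz ψ y‖ ^ 2 + ‖hs ψ y‖ ^ 2 := by
  rw [EuclideanSpace.norm_sq_eq, EuclideanSpace.norm_sq_eq, EuclideanSpace.norm_sq_eq,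
    Fintype.sum_prod_type, Fintype.sum_prod_type, Fintype.sum_prod_type, ← Finset.sum_add_distrib]
  refine Finset.sum_congr rfl fun i _ => ?_
  rw [← ψ.sum_comp, Fintype.sum_sum_type]
  rfl

lemma cnv_hz_le (ψ : Spz r ds dh) (y : Cfg dh) : ‖hz ψ y‖ ≤ ‖y‖ := by
  refine le_of_sq_le_sq ?_ (norm_nonneg _)
  rw [cnv_norm_sq ψ y]
  nlinarith [sq_nonneg ‖hs ψ y‖]

lemma cnv_hs_le (ψ : Spz r ds dh) (y : Cfg dh) : ‖hs ψ y‖ ≤ ‖y‖ := by
  refine le_of_sq_le_sq ?_ (norm_nonneg _)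
  rw [cnv_norm_sq ψ y]
  nlinarith [sq_nonneg ‖hz ψ y‖]

lemma cnv_cmb_le (ψ : Spz r ds dh) (η : Cfg r) (s : Cfg ds) : ‖cmb ψ η s‖ ≤ ‖η‖ + ‖s‖ := by
  refine le_of_sq_le_sq ?_ (by positivity)
  rw [cnv_norm_sq ψ, cnv_hz_cmb, cnv_hs_cmb]
  nlinarith [mul_nonneg (norm_nonneg η) (norm_nonneg s)]

lemma cnv_hz_sub (ψ : Spz r ds dh) (y y' : Cfg dh) : hz ψ (y - y') = hz ψ y - hz ψ y' := rfl

lemma cnv_hs_sub (ψ : Spz r ds dh) (y y' : Cfg dh) : hs ψ (y - y') = hs ψ y - hs ψ y' := rfl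

lemma cnv_hz_smul (ψ : Spz r ds dh) (t : ℝ) (y : Cfg dh) : hz ψ (t • y) = t • hz ψ y := rfl

lemma cnv_cmb_smul (ψ : Spz r ds dh) (t : ℝ) (η : Cfg r) (s : Cfg ds) :
    cmb ψ (t • η) (t • s) = t • cmb ψ η s := by
  ext p
  obtain ⟨i, A⟩ := p
  obtain ⟨q, rfl⟩ := ψ.surjective A
  rcases q with a | b <;> simp [cmb]

lemma cnv_cmb_sub (ψ : Spz r ds dh) (η η' : Cfg r) (s s' : Cfg ds) :
    cmb ψ η s - cmb ψ η' s' = cmb ψ (η - η') (s - s') := by
  ext p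
  obtain ⟨i, A⟩ := p
  obtain ⟨q, rfl⟩ := ψ.surjective A
  rcases q with a | b <;> simp [cmb]

lemma cnv_cont_cmb (ψ : Spz r ds dh) : Continuous fun q : Cfg r × Cfg ds => cmb ψ q.1 q.2 := by
  unfold cmb
  refine (PiLp.continuous_toLp 2 _).comp (continuous_pi fun p => ?_)
  rcases h : ψ.symm p.2 with A | B
  · simp only [Sum.elim_inl]
    fun_prop
  · simp only [Sum.elim_inr]
    fun_prop

lemma cnv_cont_hz (ψ : Spz r ds dh) : Continuous (hz ψ) := by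
  unfold hz
  exact (PiLp.continuous_toLp 2 _).comp (continuous_pi fun p => by fun_prop)

lemma cnv_cont_hs (ψ : Spz r ds dh) : Continuous (hs ψ) := by
  unfold hs
  exact (PiLp.continuous_toLp 2 _).comp (continuous_pi fun p => by fun_prop)

lemma cnv_cont_pm (φ : Spl dh dm d) : Continuous (pm φ) := by
  unfold pm
  exact (PiLp.continuous_toLp 2 _).comp (continuous_pi fun p => by fun_prop)

lemma cnv_cont_zy (φ : Spl dh dm d) : Continuous (zy φ) := by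
  unfold zy
  exact (PiLp.continuous_toLp 2 _).comp (continuous_pi fun p => by fun_prop)

lemma cnv_cont_exm (φ : Spl dh dm d) : Continuous (exm φ) := by
  unfold exm
  refine continuous_pi fun A => ?_
  rcases h : φ.symm A with a | b
  · simp only [Sum.elim_inl]
    exact continuous_const
  · simp only [Sum.elim_inr]
    fun_prop

lemma cnv_cont_tub (S : Setup d F) (φ : Spl dh dm d) :
    Continuous fun p : EuclideanSpace ℝ (Fin dm) × (Cfg dh × Wsp dm) => tub S φ p.1 p.2 := by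
  have h1 := (dexp_stmt S).2.1.continuous
  exact h1.comp (((cnv_cont_exm φ).comp continuous_fst).prodMk ((nrm_continuous_emb φ).comp continuous_snd))

lemma cnv_cont_xi (S : Setup d F) (φ : Spl dh dm d) :
    Continuous fun p : Cfg dh × Wsp dm × EuclideanSpace ℝ (Fin dm) => xi (fun i => S.Dy φ i p.1) p.2.1 p.2.2 := by
  unfold xi
  refine (PiLp.continuous_toLp 2 _).comp (continuous_pi fun q => ?_)
  obtain ⟨i, B⟩ := q
  refine Continuous.sub ?_ ?_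
  · unfold wt
    refine Fin.lastCases ?_ (fun j => ?_) i
    · simp only [Fin.lastCases_last]
      exact continuous_const
    · simp only [Fin.lastCases_castSucc]
      fun_prop
  · refine continuous_finsetSum _ fun C _ => Continuous.mul ?_ (by fun_prop)
    show Continuous fun p : Cfg dh × Wsp dm × EuclideanSpace ℝ (Fin dm) =>
      ∑ A, S.f (φ (Sum.inr B)) (φ (Sum.inl A)) (φ (Sum.inr C)) * p.1 (i, A)
    fun_prop

/-- scaling of `xi` -/
lemma cnv_xi_smul (S : Setup d F) (φ : Spl dh dm d) (t k : ℝ) (ht : 0 < t) (y : Cfg dh) (w : Wsp dm)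
    (a : EuclideanSpace ℝ (Fin dm)) :
    t • xi (fun i => S.Dy φ i y) (t⁻¹ • w) (k • a) = xi (fun i => S.Dy φ i ((t * k) • y)) w a := by
  have hD : ∀ i B C, S.Dy φ i ((t * k) • y) B C = (t * k) * S.Dy φ i y B C := by
    intro i B C
    show ∑ A, S.f (φ (Sum.inr B)) (φ (Sum.inl A)) (φ (Sum.inr C)) * ((t * k) • y) (i, A) =
      (t * k) * ∑ A, S.f (φ (Sum.inr B)) (φ (Sum.inl A)) (φ (Sum.inr C)) * y (i, A)
    rw [Finset.mul_sum]
    refine Finset.sum_congr rfl fun A _ => ?_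
    rw [PiLp.smul_apply, smul_eq_mul]
    ring
  have hw : ∀ i B, t * wt (t⁻¹ • w) i B = wt w i B := by
    intro i B
    unfold wt
    refine Fin.lastCases ?_ (fun j => ?_) i
    · simp only [Fin.lastCases_last, mul_zero]
    · simp only [Fin.lastCases_castSucc, PiLp.smul_apply, smul_eq_mul]
      field_simp
  ext p
  obtain ⟨i, B⟩ := p
  show t * (wt (t⁻¹ • w) i B - ∑ C, S.Dy φ i y B C * (k • a) C) =
    wt w i B - ∑ C, S.Dy φ i ((t * k) • y) B C * a C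
  rw [mul_sub, hw, Finset.mul_sum]
  congr 1
  refine Finset.sum_congr rfl fun C _ => ?_
  rw [hD, PiLp.smul_apply, smul_eq_mul]
  ring

/-! ### the rescaled integrand -/

/-- slice point with scaled coordinates -/
noncomputable def cnvP (ψ : Spz r ds dh) (R : ℝ) (q : Cfg r × Cfg ds × Wsp dm) : Cfg dh × Wsp dm :=
  (cmb ψ (R • q.1) q.2.1, (Real.sqrt R)⁻¹ • q.2.2)

/-- point of the tube -/
noncomputable def cnvX (S : Setup d F) (φ : Spl dh dm d) (ψ : Spz r ds dh) (R : ℝ) (q : Cfg r × Cfg ds × Wsp dm)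
    (α : EuclideanSpace ℝ (Fin dm)) : Cfg d :=
  tub S φ ((R * Real.sqrt R)⁻¹ • α) (cnvP ψ R q)

/-- argument of `b` -/
noncomputable def cnvA (S : Setup d F) (φ : Spl dh dm d) (ψ : Spz r ds dh) (R : ℝ) (q : Cfg r × Cfg ds × Wsp dm)
    (α : EuclideanSpace ℝ (Fin dm)) : Cfg r × Cfg ds × Cfg dm :=
  (R⁻¹ • hz ψ (zy φ (cnvX S φ ψ R q α)), hs ψ (zy φ (cnvX S φ ψ R q α)), Real.sqrt R • pm φ (cnvX S φ ψ R q α))

/-- first integrand, without the cutoff -/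
noncomputable def cnvT (S : Setup d F) (φ : Spl dh dm d) (j : EuclideanSpace ℝ (Fin dm) → ℝ) (R : ℝ)
    (α : EuclideanSpace ℝ (Fin dm)) (v : F) : F :=
  ((j ((R * Real.sqrt R)⁻¹ • α) : ℝ) : ℂ) • spn S (-(exm φ ((R * Real.sqrt R)⁻¹ • α))) v

noncomputable def cnvG1 (S : Setup d F) (φ : Spl dh dm d) (ψ : Spz r ds dh) (j : EuclideanSpace ℝ (Fin dm) → ℝ)
    (ρ : ℝ) (b : Cfg r × Cfg ds × Cfg dm → F) (R : ℝ) (q : Cfg r × Cfg ds × Wsp dm)
    (α : EuclideanSpace ℝ (Fin dm)) : F :=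
  ((Real.sqrt |(S.Dy φ 8 (cmb ψ q.1 (R⁻¹ • q.2.1))).det| : ℝ) : ℂ) •
    (Metric.ball (0 : EuclideanSpace ℝ (Fin dm)) (ρ * (R * Real.sqrt R))).indicator
      (fun α => cnvT S φ j R α (b (cnvA S φ ψ R q α))) α

noncomputable def cnvG2 (S : Setup d F) (φ : Spl dh dm d) (ψ : Spz r ds dh)
    (b : Cfg r × Cfg ds × Cfg dm → F) (q : Cfg r × Cfg ds × Wsp dm)
    (α : EuclideanSpace ℝ (Fin dm)) : F :=
  ((Real.sqrt |(Dz S φ ψ q.1 8).det| : ℝ) : ℂ) • b (q.1, q.2.1, xi (Dz S φ ψ q.1) q.2.2 α)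

/-- the estimates of the tube coordinates in scaled form -/
def cnvE (S : Setup d F) (φ : Spl dh dm d) (ψ : Spz r ds dh) (z₀ : Cfg r) (ε₀ ρ₀ c C : ℝ) : Prop :=
  ∀ (R : ℝ), 1 ≤ R → ∀ (q : Cfg r × Cfg ds × Wsp dm) (α : EuclideanSpace ℝ (Fin dm)),
    ‖(R * Real.sqrt R)⁻¹ • α‖ < ρ₀ → cnvP ψ R q ∈ Nb (cmb ψ z₀ 0) dm R ε₀ →
    c * (‖α‖ + ‖q.2.2‖) ≤ ‖Real.sqrt R • pm φ (cnvX S φ ψ R q α)‖ ∧
    ‖R⁻¹ • hz ψ (zy φ (cnvX S φ ψ R q α)) - q.1‖ ≤ C * ‖α‖ * (‖α‖ + ‖q.2.2‖) / R ∧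
    ‖hs ψ (zy φ (cnvX S φ ψ R q α)) - q.2.1‖ ≤ C * ‖α‖ * (‖α‖ + ‖q.2.2‖) / R ∧
    ‖Real.sqrt R • pm φ (cnvX S φ ψ R q α) - xi (fun i => S.Dy φ i (cmb ψ q.1 (R⁻¹ • q.2.1))) q.2.2 α‖ ≤
      C * ‖α‖ * (‖α‖ + ‖q.2.2‖) / R

lemma cnv_kto : Tendsto (fun R : ℝ => (R * Real.sqrt R)⁻¹) atTop (𝓝 0) := by
  refine Tendsto.inv_tendsto_atTop ?_
  exact tendsto_id.atTop_mul_atTop₀ Real.tendsto_sqrt_atTop

lemma cnv_mem (ψ : Spz r ds dh) (z₀ : Cfg r) (ε : ℝ) (hε : 0 < ε) (q : Cfg r × Cfg ds × Wsp dm)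
    (hq : ‖q.1 - z₀‖ < ε) : ∀ᶠ R : ℝ in atTop, cnvP ψ R q ∈ Nb (cmb ψ z₀ 0) dm R ε := by
  have h1 : Tendsto (fun R : ℝ => (ε - ‖q.1 - z₀‖) * R) atTop atTop :=
    tendsto_id.const_mul_atTop (sub_pos.2 hq)
  have h2 : Tendsto (fun R : ℝ => ε * R * Real.sqrt R) atTop atTop :=
    (tendsto_id.const_mul_atTop hε).atTop_mul_atTop₀ Real.tendsto_sqrt_atTop
  filter_upwards [h1.eventually_gt_atTop ‖q.2.1‖, h2.eventually_gt_atTop ‖q.2.2‖, eventually_gt_atTop (0 : ℝ)]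
    with R h3 h4 h5
  refine ⟨?_, ?_⟩
  · have h6 : cmb ψ (R • q.1) q.2.1 - R • cmb ψ z₀ 0 = cmb ψ (R • (q.1 - z₀)) q.2.1 := by
      rw [← cnv_cmb_smul, cnv_cmb_sub, smul_zero, sub_zero, smul_sub]
    show ‖cmb ψ (R • q.1) q.2.1 - R • cmb ψ z₀ 0‖ < ε * R
    rw [h6]
    refine (cnv_cmb_le _ _ _).trans_lt ?_
    rw [norm_smul, Real.norm_of_nonneg h5.le]
    nlinarith
  · show ‖(Real.sqrt R)⁻¹ • q.2.2‖ < ε * R
    have hs : 0 < Real.sqrt R := Real.sqrt_pos.2 h5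
    rw [norm_smul, norm_inv, Real.norm_of_nonneg hs.le, inv_mul_lt_iff₀ hs]
    linarith

/-- lower bound for `xi` -/
lemma cnv_lb (S : Setup d F) (φ : Spl dh dm d) (ψ : Spz r ds dh) (z₀ : Cfg r) (ε₀ ρ₀ c C : ℝ) (hρ₀ : 0 < ρ₀)
    (hε₀ : 0 < ε₀) (hE : cnvE S φ ψ z₀ ε₀ ρ₀ c C) (q : Cfg r × Cfg ds × Wsp dm) (hq : ‖q.1 - z₀‖ < ε₀)
    (α : EuclideanSpace ℝ (Fin dm)) :
    c * (‖α‖ + ‖q.2.2‖) ≤ ‖xi (Dz S φ ψ q.1) q.2.2 α‖ := by
  set K := C * ‖α‖ * (‖α‖ + ‖q.2.2‖) with hK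
  have h1 : Tendsto (fun R : ℝ => ‖xi (Dz S φ ψ q.1) q.2.2 α‖ + K / R) atTop
      (𝓝 (‖xi (Dz S φ ψ q.1) q.2.2 α‖ + 0)) :=
    tendsto_const_nhds.add (tendsto_const_nhds.div_atTop tendsto_id)
  rw [add_zero] at h1
  refine ge_of_tendsto h1 ?_
  have h2 : ∀ᶠ R : ℝ in atTop, ‖(R * Real.sqrt R)⁻¹ • α‖ < ρ₀ := by
    have : Tendsto (fun R : ℝ => ‖(R * Real.sqrt R)⁻¹ • α‖) atTop (𝓝 ‖(0 : ℝ) • α‖) :=
      (cnv_kto.smul_const α).norm
    rw [zero_smul, norm_zero] at this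
    exact this.eventually_lt_const hρ₀
  have h3 := cnv_mem ψ z₀ ε₀ hε₀ ((q.1, 0, q.2.2) : Cfg r × Cfg ds × Wsp dm) hq
  filter_upwards [h2, h3, eventually_ge_atTop (1 : ℝ)] with R h4 h5 h6
  obtain ⟨e1, -, -, e4⟩ := hE R h6 (q.1, 0, q.2.2) α h4 h5
  simp only [smul_zero] at e1 e4
  have h7 : (fun i => S.Dy φ i (cmb ψ q.1 0)) = Dz S φ ψ q.1 := rfl
  rw [h7] at e4
  refine e1.trans ?_
  have h8 := norm_le_norm_add_norm_sub' (Real.sqrt R • pm φ (cnvX S φ ψ R (q.1, 0, q.2.2) α))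
    (xi (Dz S φ ψ q.1) q.2.2 α)
  linarith

lemma cnv_G1 (S : Setup d F) (φ : Spl dh dm d) (ψ : Spz r ds dh) (z₀ : Cfg r) (ε₀ ρ₀ c C : ℝ) (hc : 0 < c)
    (hC : 0 < C) (hE : cnvE S φ ψ z₀ ε₀ ρ₀ c C) (hEq : ∀ a v, ‖spn S a v‖ = ‖v‖) (ε ρ : ℝ) (hεε₀ : ε ≤ ε₀)
    (hρρ₀ : ρ ≤ ρ₀) (j : EuclideanSpace ℝ (Fin dm) → ℝ) (Jm : ℝ) (hJ0 : 0 ≤ Jm) (hJ : ∀ a, ‖a‖ ≤ ρ → |j a| ≤ Jm)
    (b : Cfg r × Cfg ds × Cfg dm → F) (L Bb : ℝ) (hL0 : 0 ≤ L) (hL : ∀ q, b q ≠ 0 → ‖q‖ ≤ L) (hB0 : 0 ≤ Bb)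
    (hB : ∀ q, ‖b q‖ ≤ Bb) (M Dm : ℝ) (hM : M = L + L / c + C * (L / c) * (L / c)) (hD0 : 0 ≤ Dm)
    (hD : ∀ y : Cfg dh, ‖y‖ ≤ 2 * M → Real.sqrt |(S.Dy φ 8 y).det| ≤ Dm) (R : ℝ) (hR : 1 ≤ R)
    (q : Cfg r × Cfg ds × Wsp dm) (α : EuclideanSpace ℝ (Fin dm))
    (hq : cnvP ψ R q ∈ Nb (cmb ψ z₀ 0) dm R ε) :
    (cnvG1 S φ ψ j ρ b R q α ≠ 0 → ‖α‖ ≤ M ∧ ‖q‖ ≤ M) ∧ ‖cnvG1 S φ ψ j ρ b R q α‖ ≤ Dm * (Jm * Bb) := by
  have hR0 : 0 < R := by linarith
  have hs0 : 0 < Real.sqrt R := Real.sqrt_pos.2 hR0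
  have hk0 : 0 < R * Real.sqrt R := mul_pos hR0 hs0
  have hLc : 0 ≤ L / c := div_nonneg hL0 hc.le
  have hq' : cnvP ψ R q ∈ Nb (cmb ψ z₀ 0) dm R ε₀ :=
    ⟨hq.1.trans_le (mul_le_mul_of_nonneg_right hεε₀ hR0.le), hq.2.trans_le (mul_le_mul_of_nonneg_right hεε₀ hR0.le)⟩
  have key : cnvG1 S φ ψ j ρ b R q α ≠ 0 → ‖(R * Real.sqrt R)⁻¹ • α‖ < ρ ∧ ‖α‖ ≤ M ∧ ‖q‖ ≤ M := by
    intro h
    have h1 : α ∈ Metric.ball (0 : EuclideanSpace ℝ (Fin dm)) (ρ * (R * Real.sqrt R)) := by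
      by_contra hcon
      apply h
      unfold cnvG1
      rw [Set.indicator_of_notMem hcon, smul_zero]
    have h2 : b (cnvA S φ ψ R q α) ≠ 0 := by
      intro hcon
      apply h
      unfold cnvG1
      rw [Set.indicator_of_mem h1]
      unfold cnvT
      rw [hcon, map_zero, smul_zero, smul_zero]
    have h3 : ‖(R * Real.sqrt R)⁻¹ • α‖ < ρ := by
      rw [norm_smul, norm_inv, Real.norm_of_nonneg hk0.le, inv_mul_lt_iff₀ hk0, mul_comm]
      rw [Metric.mem_ball, dist_zero_right] at h1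
      linarith
    obtain ⟨e1, e2, e3, -⟩ := hE R hR q α (h3.trans_le hρρ₀) hq'
    have h4 := hL _ h2
    rw [Prod.norm_def, Prod.norm_def] at h4
    have h5 : ‖R⁻¹ • hz ψ (zy φ (cnvX S φ ψ R q α))‖ ≤ L := (le_max_left _ _).trans h4
    have h6 : ‖hs ψ (zy φ (cnvX S φ ψ R q α))‖ ≤ L :=
      (le_max_left _ _).trans ((le_max_right _ _).trans h4)
    have h7 : ‖Real.sqrt R • pm φ (cnvX S φ ψ R q α)‖ ≤ L :=
      (le_max_right _ _).trans ((le_max_right _ _).trans h4)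
    have h8 : ‖α‖ + ‖q.2.2‖ ≤ L / c := by
      rw [le_div_iff₀ hc]
      linarith
    have hα : ‖α‖ ≤ L / c := by linarith [norm_nonneg q.2.2]
    have hω : ‖q.2.2‖ ≤ L / c := by linarith [norm_nonneg α]
    have h9 : C * ‖α‖ * (‖α‖ + ‖q.2.2‖) / R ≤ C * (L / c) * (L / c) := by
      rw [div_le_iff₀ hR0]
      have i1 : C * ‖α‖ * (‖α‖ + ‖q.2.2‖) ≤ C * (L / c) * (L / c) := by gcongr
      have i2 : 0 ≤ C * (L / c) * (L / c) := by positivity
      nlinarith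
    have h10 : 0 ≤ C * (L / c) * (L / c) := by positivity
    refine ⟨h3, by rw [hM]; linarith, ?_⟩
    rw [Prod.norm_def, Prod.norm_def]
    refine max_le ?_ (max_le ?_ ?_)
    · have := norm_le_norm_add_norm_sub' q.1 (R⁻¹ • hz ψ (zy φ (cnvX S φ ψ R q α)))
      rw [norm_sub_rev] at this
      rw [hM]; linarith
    · have := norm_le_norm_add_norm_sub' q.2.1 (hs ψ (zy φ (cnvX S φ ψ R q α)))
      rw [norm_sub_rev] at this
      rw [hM]; linarith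
    · rw [hM]; linarith
  refine ⟨fun h => (key h).2, ?_⟩
  by_cases h : cnvG1 S φ ψ j ρ b R q α = 0
  · rw [h, norm_zero]; positivity
  · obtain ⟨k1, k2, k3⟩ := key h
    unfold cnvG1
    have hn : ‖(Metric.ball (0 : EuclideanSpace ℝ (Fin dm)) (ρ * (R * Real.sqrt R))).indicator
        (fun α => cnvT S φ j R α (b (cnvA S φ ψ R q α))) α‖ ≤ Jm * Bb := by
      refine (norm_indicator_le_norm_self _ _).trans ?_
      unfold cnvT
      rw [norm_smul, hEq, Complex.norm_real, Real.norm_eq_abs]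
      exact mul_le_mul (hJ _ k1.le) (hB _) (norm_nonneg _) hJ0
    rw [norm_smul, Complex.norm_real, Real.norm_of_nonneg (Real.sqrt_nonneg _)]
    refine mul_le_mul (hD _ ?_) hn (norm_nonneg _) hD0
    rw [Prod.norm_def, Prod.norm_def] at k3
    have m1 : ‖q.1‖ ≤ M := (le_max_left _ _).trans k3
    have m2 : ‖q.2.1‖ ≤ M := (le_max_left _ _).trans ((le_max_right _ _).trans k3)
    refine (cnv_cmb_le _ _ _).trans ?_
    have m3 : ‖R⁻¹ • q.2.1‖ ≤ ‖q.2.1‖ := by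
      rw [norm_smul, norm_inv, Real.norm_of_nonneg hR0.le]
      exact mul_le_of_le_one_left (norm_nonneg _) (inv_le_one_of_one_le₀ hR)
    linarith

lemma cnv_G2 (S : Setup d F) (φ : Spl dh dm d) (ψ : Spz r ds dh) (z₀ : Cfg r) (ε₀ ρ₀ c C : ℝ) (hc : 0 < c)
    (hC : 0 < C) (hρ₀ : 0 < ρ₀) (hE : cnvE S φ ψ z₀ ε₀ ρ₀ c C) (ε : ℝ) (hε : 0 < ε) (hεε₀ : ε ≤ ε₀)
    (b : Cfg r × Cfg ds × Cfg dm → F) (L Bb : ℝ) (hL0 : 0 ≤ L) (hL : ∀ q, b q ≠ 0 → ‖q‖ ≤ L) (hB0 : 0 ≤ Bb)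
    (hB : ∀ q, ‖b q‖ ≤ Bb) (hbz : ∀ q, b q ≠ 0 → ‖q.1 - z₀‖ ≤ ε / 2)
    (M Dm : ℝ) (hM : M = L + L / c + C * (L / c) * (L / c)) (hD0 : 0 ≤ Dm)
    (hD : ∀ y : Cfg dh, ‖y‖ ≤ 2 * M → Real.sqrt |(S.Dy φ 8 y).det| ≤ Dm)
    (q : Cfg r × Cfg ds × Wsp dm) (α : EuclideanSpace ℝ (Fin dm)) :
    (cnvG2 S φ ψ b q α ≠ 0 → ‖α‖ ≤ M ∧ ‖q‖ ≤ M) ∧ ‖cnvG2 S φ ψ b q α‖ ≤ Dm * Bb := by
  have hLc : 0 ≤ L / c := div_nonneg hL0 hc.le
  have h10 : 0 ≤ C * (L / c) * (L / c) := by positivity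
  have key : cnvG2 S φ ψ b q α ≠ 0 → ‖α‖ ≤ M ∧ ‖q‖ ≤ M := by
    intro h
    have h2 : b (q.1, q.2.1, xi (Dz S φ ψ q.1) q.2.2 α) ≠ 0 := by
      intro hcon
      apply h
      unfold cnvG2
      rw [hcon, smul_zero]
    have h3 := hbz _ h2
    have h3' : ‖q.1 - z₀‖ < ε₀ := by
      have : ‖q.1 - z₀‖ ≤ ε / 2 := h3
      linarith
    have h1 := cnv_lb S φ ψ z₀ ε₀ ρ₀ c C hρ₀ (hε.trans_le hεε₀) hE q h3' α
    have h4 := hL _ h2
    rw [Prod.norm_def, Prod.norm_def] at h4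
    have h5 : ‖q.1‖ ≤ L := (le_max_left _ _).trans h4
    have h6 : ‖q.2.1‖ ≤ L := (le_max_left _ _).trans ((le_max_right _ _).trans h4)
    have h7 : ‖xi (Dz S φ ψ q.1) q.2.2 α‖ ≤ L := (le_max_right _ _).trans ((le_max_right _ _).trans h4)
    have h8 : ‖α‖ + ‖q.2.2‖ ≤ L / c := by
      rw [le_div_iff₀ hc]
      linarith
    have hα : ‖α‖ ≤ L / c := by linarith [norm_nonneg q.2.2]
    have hω : ‖q.2.2‖ ≤ L / c := by linarith [norm_nonneg α]
    refine ⟨by rw [hM]; linarith, ?_⟩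
    rw [Prod.norm_def, Prod.norm_def]
    refine max_le ?_ (max_le ?_ ?_) <;> rw [hM] <;> linarith
  refine ⟨key, ?_⟩
  by_cases h : cnvG2 S φ ψ b q α = 0
  · rw [h, norm_zero]; positivity
  · obtain ⟨k2, k3⟩ := key h
    unfold cnvG2
    rw [norm_smul, Complex.norm_real, Real.norm_of_nonneg (Real.sqrt_nonneg _)]
    refine mul_le_mul (hD _ ?_) (hB _) (norm_nonneg _) hD0
    rw [Prod.norm_def, Prod.norm_def] at k3
    have m1 : ‖q.1‖ ≤ M := (le_max_left _ _).trans k3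
    refine (cnv_cmb_le _ _ _).trans ?_
    rw [norm_zero]
    linarith [norm_nonneg q.1]

/-- pointwise limit of the integrand -/
lemma cnv_lim (S : Setup d F) (φ : Spl dh dm d) (ψ : Spz r ds dh) (z₀ : Cfg r) (ε₀ ρ₀ c C : ℝ)
    (hC : 0 < C) (hρ₀ : 0 < ρ₀) (hE : cnvE S φ ψ z₀ ε₀ ρ₀ c C) (hcs : Continuous fun a => spn S a)
    (hs1 : spn S 0 = 1) (ε ρ : ℝ) (hεε₀ : ε ≤ ε₀) (hρ : 0 < ρ)
    (j : EuclideanSpace ℝ (Fin dm) → ℝ) (hj : Continuous j) (hj1 : j 0 = 1)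
    (b : Cfg r × Cfg ds × Cfg dm → F) (hb : Continuous b)
    (q : Cfg r × Cfg ds × Wsp dm) (α : EuclideanSpace ℝ (Fin dm)) :
    Tendsto (fun R : ℝ => (({q | cnvP ψ R q ∈ Nb (cmb ψ z₀ 0) dm R ε} : Set _).indicator
      (fun q => cnvG1 S φ ψ j ρ b R q α - cnvG2 S φ ψ b q α) q)) atTop (𝓝 0) := by
  classical
  set A0 : Cfg r × Cfg ds × Cfg dm := (q.1, q.2.1, xi (Dz S φ ψ q.1) q.2.2 α) with hA0
  -- argument
  set A : ℝ → Cfg r × Cfg ds × Cfg dm := fun R =>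
    if cnvP ψ R q ∈ Nb (cmb ψ z₀ 0) dm R ε then cnvA S φ ψ R q α else A0 with hA
  have hk : Tendsto (fun R : ℝ => (R * Real.sqrt R)⁻¹ • α) atTop (𝓝 0) := by
    have := cnv_kto.smul_const α
    rwa [zero_smul] at this
  have hsm : ∀ᶠ R : ℝ in atTop, ‖(R * Real.sqrt R)⁻¹ • α‖ < ρ₀ := by
    have := hk.norm
    rw [norm_zero] at this
    exact this.eventually_lt_const hρ₀
  set K := C * ‖α‖ * (‖α‖ + ‖q.2.2‖) with hK
  have hK0 : 0 ≤ K := by positivity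
  have hinv : Tendsto (fun R : ℝ => cmb ψ q.1 (R⁻¹ • q.2.1)) atTop (𝓝 (cmb ψ q.1 0)) := by
    have h1 : Tendsto (fun R : ℝ => (q.1, R⁻¹ • q.2.1)) atTop (𝓝 (q.1, (0 : Cfg ds))) := by
      refine tendsto_const_nhds.prodMk_nhds ?_
      have := (tendsto_inv_atTop_zero (𝕜 := ℝ)).smul_const q.2.1
      rwa [zero_smul] at this
    exact ((cnv_cont_cmb ψ).tendsto _).comp h1
  have hxi : Tendsto (fun R : ℝ => ‖xi (fun i => S.Dy φ i (cmb ψ q.1 (R⁻¹ • q.2.1))) q.2.2 α -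
      xi (Dz S φ ψ q.1) q.2.2 α‖) atTop (𝓝 0) := by
    have h1 : Tendsto (fun R : ℝ => (cmb ψ q.1 (R⁻¹ • q.2.1), q.2.2, α)) atTop (𝓝 (cmb ψ q.1 0, q.2.2, α)) :=
      hinv.prodMk_nhds tendsto_const_nhds
    have h2 := ((cnv_cont_xi S φ).tendsto _).comp h1
    have h3 := (h2.sub_const (xi (Dz S φ ψ q.1) q.2.2 α)).norm
    have h4 : xi (fun i => S.Dy φ i (cmb ψ q.1 0, q.2.2, α).1) (cmb ψ q.1 0, q.2.2, α).2.1
        (cmb ψ q.1 0, q.2.2, α).2.2 - xi (Dz S φ ψ q.1) q.2.2 α = 0 := sub_self _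
    rw [h4, norm_zero] at h3
    exact h3
  have herr : Tendsto (fun R : ℝ => K / R + ‖xi (fun i => S.Dy φ i (cmb ψ q.1 (R⁻¹ • q.2.1))) q.2.2 α -
      xi (Dz S φ ψ q.1) q.2.2 α‖) atTop (𝓝 0) := by
    have := (tendsto_const_nhds (x := K)).div_atTop (tendsto_id (α := ℝ) (x := atTop))
    simpa using this.add hxi
  have hAt : Tendsto A atTop (𝓝 A0) := by
    rw [tendsto_iff_dist_tendsto_zero]
    refine squeeze_zero' (Eventually.of_forall fun R => dist_nonneg) ?_ herr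
    filter_upwards [hsm, eventually_ge_atTop (1 : ℝ)] with R h1 h2
    have hR0 : 0 < R := by linarith
    have hKR : 0 ≤ K / R := div_nonneg hK0 hR0.le
    rw [hA]
    simp only
    split_ifs with hmem
    · have hmem' : cnvP ψ R q ∈ Nb (cmb ψ z₀ 0) dm R ε₀ :=
        ⟨hmem.1.trans_le (mul_le_mul_of_nonneg_right hεε₀ hR0.le),
          hmem.2.trans_le (mul_le_mul_of_nonneg_right hεε₀ hR0.le)⟩
      obtain ⟨-, e2, e3, e4⟩ := hE R h2 q α h1 hmem'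
      rw [Prod.dist_eq, Prod.dist_eq]
      refine max_le ?_ (max_le ?_ ?_)
      · rw [dist_eq_norm]
        exact e2.trans (le_add_of_nonneg_right (norm_nonneg _))
      · rw [dist_eq_norm]
        exact e3.trans (le_add_of_nonneg_right (norm_nonneg _))
      · rw [dist_eq_norm]
        refine (norm_sub_le_norm_sub_add_norm_sub _
          (xi (fun i => S.Dy φ i (cmb ψ q.1 (R⁻¹ • q.2.1))) q.2.2 α) _).trans ?_
        gcongr
        exact e4
    · rw [dist_self]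
      positivity
  -- the limit of the modified integrand
  set T : ℝ → F := fun R => ((Real.sqrt |(S.Dy φ 8 (cmb ψ q.1 (R⁻¹ • q.2.1))).det| : ℝ) : ℂ) •
    cnvT S φ j R α (b (A R)) with hT
  have hTt : Tendsto T atTop (𝓝 (cnvG2 S φ ψ b q α)) := by
    have h1 : Tendsto (fun R : ℝ => ((Real.sqrt |(S.Dy φ 8 (cmb ψ q.1 (R⁻¹ • q.2.1))).det| : ℝ) : ℂ)) atTop
        (𝓝 ((Real.sqrt |(S.Dy φ 8 (cmb ψ q.1 0)).det| : ℝ) : ℂ)) := by
      have h0 : Continuous fun y : Cfg dh => ((Real.sqrt |(S.Dy φ 8 y).det| : ℝ) : ℂ) :=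
        Complex.continuous_ofReal.comp (Real.continuous_sqrt.comp (nrm_continuous_det S φ).abs)
      exact (h0.tendsto _).comp hinv
    have h2 : Tendsto (fun R : ℝ => ((j ((R * Real.sqrt R)⁻¹ • α) : ℝ) : ℂ)) atTop (𝓝 (1 : ℂ)) := by
      have h0 : Continuous fun a => ((j a : ℝ) : ℂ) := Complex.continuous_ofReal.comp hj
      have := (h0.tendsto 0).comp hk
      rw [hj1, Complex.ofReal_one] at this
      exact this
    have h3 : Tendsto (fun R : ℝ => spn S (-(exm φ ((R * Real.sqrt R)⁻¹ • α)))) atTop (𝓝 (1 : F →L[ℂ] F)) := by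
      have h0 : Continuous fun a => spn S (-(exm φ a)) := hcs.comp (cnv_cont_exm φ).neg
      have := (h0.tendsto 0).comp hk
      have h00 : exm φ (0 : EuclideanSpace ℝ (Fin dm)) = 0 := by
        funext A
        unfold exm
        rcases φ.symm A with a | a <;> simp
      rw [h00, neg_zero, hs1] at this
      exact this
    have h4 : Tendsto (fun R => b (A R)) atTop (𝓝 (b A0)) := (hb.tendsto _).comp hAt
    have h5 : Tendsto (fun R => (spn S (-(exm φ ((R * Real.sqrt R)⁻¹ • α)))) (b (A R))) atTop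
        (𝓝 ((1 : F →L[ℂ] F) (b A0))) := by
      have hbb : Continuous fun p : (F →L[ℂ] F) × F => p.1 p.2 := isBoundedBilinearMap_apply.continuous
      exact (hbb.tendsto (1, b A0)).comp (h3.prodMk_nhds h4)
    have h6 := h1.smul (h2.smul h5)
    rw [one_smul] at h6
    exact h6
  have hfin : Tendsto (fun R => ‖T R - cnvG2 S φ ψ b q α‖) atTop (𝓝 0) := by
    have := (hTt.sub_const (cnvG2 S φ ψ b q α)).norm
    rwa [sub_self, norm_zero] at this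
  have hball : ∀ᶠ R : ℝ in atTop, α ∈ Metric.ball (0 : EuclideanSpace ℝ (Fin dm)) (ρ * (R * Real.sqrt R)) := by
    have : Tendsto (fun R : ℝ => ρ * (R * Real.sqrt R)) atTop atTop :=
      (tendsto_id.atTop_mul_atTop₀ Real.tendsto_sqrt_atTop).const_mul_atTop hρ
    filter_upwards [this.eventually_gt_atTop ‖α‖] with R hR
    rw [Metric.mem_ball, dist_zero_right]
    exact hR
  rw [tendsto_zero_iff_norm_tendsto_zero]
  refine squeeze_zero' (Eventually.of_forall fun R => norm_nonneg _) ?_ hfin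
  filter_upwards [hball] with R hR
  by_cases hmem : cnvP ψ R q ∈ Nb (cmb ψ z₀ 0) dm R ε
  · rw [Set.indicator_of_mem (show q ∈ {q | cnvP ψ R q ∈ Nb (cmb ψ z₀ 0) dm R ε} from hmem)]
    have h1 : cnvG1 S φ ψ j ρ b R q α = T R := by
      rw [hT]
      simp only
      unfold cnvG1
      rw [Set.indicator_of_mem hR, hA]
      simp only
      rw [if_pos hmem]
    rw [h1]
  · rw [Set.indicator_of_notMem (show q ∉ {q | cnvP ψ R q ∈ Nb (cmb ψ z₀ 0) dm R ε} from hmem), norm_zero]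
    exact norm_nonneg _

lemma cnv_contP (ψ : Spz r ds dh) (R : ℝ) : Continuous fun q : Cfg r × Cfg ds × Wsp dm => cnvP ψ R q := by
  unfold cnvP
  refine Continuous.prodMk ?_ (by fun_prop)
  exact (cnv_cont_cmb ψ).comp (show Continuous fun q : Cfg r × Cfg ds × Wsp dm => (R • q.1, q.2.1) by fun_prop)

lemma cnv_openNb (y₀ : Cfg dh) (R ε : ℝ) : IsOpen (Nb y₀ dm R ε) := by
  have h1 : Continuous fun p : Cfg dh × Wsp dm => ‖p.1 - R • y₀‖ := by fun_prop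
  have h2 : Continuous fun p : Cfg dh × Wsp dm => ‖p.2‖ := by fun_prop
  exact (isOpen_lt h1 continuous_const).inter (isOpen_lt h2 continuous_const)

/-- continuity of the first integrand without cutoff -/
lemma cnv_contT (S : Setup d F) (φ : Spl dh dm d) (ψ : Spz r ds dh) (hcs : Continuous fun a => spn S a)
    (j : EuclideanSpace ℝ (Fin dm) → ℝ) (hj : Continuous j)
    (b : Cfg r × Cfg ds × Cfg dm → F) (hb : Continuous b) (R : ℝ) (q : Cfg r × Cfg ds × Wsp dm) :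
    Continuous fun α => cnvT S φ j R α (b (cnvA S φ ψ R q α)) := by
  have h1 : Continuous fun α : EuclideanSpace ℝ (Fin dm) => (R * Real.sqrt R)⁻¹ • α := by fun_prop
  have h0 : Continuous fun α : EuclideanSpace ℝ (Fin dm) =>
      (((R * Real.sqrt R)⁻¹ • α, cnvP ψ R q) : EuclideanSpace ℝ (Fin dm) × (Cfg dh × Wsp dm)) :=
    h1.prodMk continuous_const
  have hX : Continuous fun α => cnvX S φ ψ R q α := by
    have h2 := (cnv_cont_tub S φ).comp h0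
    exact h2
  have hAc : Continuous fun α => cnvA S φ ψ R q α := by
    have k0 : Continuous fun α => zy φ (cnvX S φ ψ R q α) := (cnv_cont_zy φ).comp hX
    have k1 : Continuous fun α => hz ψ (zy φ (cnvX S φ ψ R q α)) := (cnv_cont_hz ψ).comp k0
    have k2 : Continuous fun α => hs ψ (zy φ (cnvX S φ ψ R q α)) := (cnv_cont_hs ψ).comp k0
    have k3 : Continuous fun α => pm φ (cnvX S φ ψ R q α) := (cnv_cont_pm φ).comp hX
    have k4 : Continuous fun α => R⁻¹ • hz ψ (zy φ (cnvX S φ ψ R q α)) := k1.const_smul R⁻¹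
    have k5 : Continuous fun α => Real.sqrt R • pm φ (cnvX S φ ψ R q α) := k3.const_smul (Real.sqrt R)
    exact k4.prodMk (k2.prodMk k5)
  unfold cnvT
  refine Continuous.smul (Complex.continuous_ofReal.comp (hj.comp h1)) ?_
  have hs2 : Continuous fun α : EuclideanSpace ℝ (Fin dm) => -(exm φ ((R * Real.sqrt R)⁻¹ • α)) :=
    ((cnv_cont_exm φ).comp h1).neg
  have hs3 := hcs.comp hs2
  have hs4 := hb.comp hAc
  exact hs3.clm_apply hs4

lemma cnv_contG2 (S : Setup d F) (φ : Spl dh dm d) (ψ : Spz r ds dh)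
    (b : Cfg r × Cfg ds × Cfg dm → F) (hb : Continuous b) (q : Cfg r × Cfg ds × Wsp dm) :
    Continuous fun α => cnvG2 S φ ψ b q α := by
  have hx : Continuous fun α : EuclideanSpace ℝ (Fin dm) => xi (Dz S φ ψ q.1) q.2.2 α := by
    have h0 : Continuous fun α : EuclideanSpace ℝ (Fin dm) =>
        ((cmb ψ q.1 0, q.2.2, α) : Cfg dh × Wsp dm × EuclideanSpace ℝ (Fin dm)) :=
      continuous_const.prodMk (continuous_const.prodMk continuous_id)
    exact (cnv_cont_xi S φ).comp h0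
  have hp : Continuous fun α : EuclideanSpace ℝ (Fin dm) =>
      ((q.1, q.2.1, xi (Dz S φ ψ q.1) q.2.2 α) : Cfg r × Cfg ds × Cfg dm) :=
    continuous_const.prodMk (continuous_const.prodMk hx)
  have h2 := hb.comp hp
  exact h2.const_smul _

/-- the scaled difference -/
noncomputable def cnvV (S : Setup d F) (φ : Spl dh dm d) (ψ : Spz r ds dh) (z₀ : Cfg r)
    (j : EuclideanSpace ℝ (Fin dm) → ℝ) (ε ρ : ℝ) (b : Cfg r × Cfg ds × Cfg dm → F) (R : ℝ)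
    (q : Cfg r × Cfg ds × Wsp dm) : F :=
  ({q | cnvP ψ R q ∈ Nb (cmb ψ z₀ 0) dm R ε} : Set _).indicator
    (fun q => (((R ^ (2 * (dm : ℝ) - 9 * (r : ℝ) / 2) : ℝ) : ℂ)⁻¹ • Zt S φ j ρ (Zb φ ψ b R) (cnvP ψ R q)) -
      Vb S φ ψ b q.1 q.2.1 q.2.2) q

/-- **GL6** -/
theorem cnv_stmt (S : Setup d F) : TayTStmt S → EqvStmt S → MeaStmt S → DetStmt S → CnvStmt S := by
  intro hT hEqv hM _ hF dh dm r ds φ ψ z₀ hStd
  obtain ⟨ε₀, ρ₀, c, C, hε₀, hρ₀, hc, hC, hTay⟩ := hT dh dm φ (cmb ψ z₀ 0) hStd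
  refine ⟨ε₀, ρ₀, hε₀, hρ₀, ?_⟩
  intro ε ρ hε hεε₀ hρ hρρ₀ j hj hj0 hj1 b hb hbs hbz
  obtain ⟨hsn, -, hcs, hs1, -⟩ := hEqv hF
  obtain ⟨hM1, hM2, hM3⟩ := hM hF dh dm r ds φ ψ hStd.sub
  have hE : cnvE S φ ψ z₀ ε₀ ρ₀ c C := by
    intro R hR q α ha hp
    exact cnvB_est S φ ψ z₀ ε₀ ρ₀ c C hC hTay R hR q.1 q.2.1 q.2.2 α _ rfl ha hp
  -- constants
  obtain ⟨L₀, hL₀⟩ := hbs.isCompact.isBounded.exists_norm_le
  obtain ⟨L, hL0, hL⟩ : ∃ L : ℝ, 0 ≤ L ∧ ∀ q, b q ≠ 0 → ‖q‖ ≤ L := by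
    refine ⟨max L₀ 0, le_max_right _ _, fun q hq => (hL₀ q ?_).trans (le_max_left _ _)⟩
    exact subset_tsupport b hq
  obtain ⟨B₀, hB₀⟩ := hbs.exists_bound_of_continuous hb
  obtain ⟨Bb, hB0, hB⟩ : ∃ B : ℝ, 0 ≤ B ∧ ∀ q, ‖b q‖ ≤ B :=
    ⟨max B₀ 0, le_max_right _ _, fun q => (hB₀ q).trans (le_max_left _ _)⟩
  obtain ⟨J₀, hJ₀⟩ := (isCompact_closedBall (0 : EuclideanSpace ℝ (Fin dm)) ρ).exists_bound_of_continuousOn hj.continuousOn
  obtain ⟨Jm, hJ0, hJ⟩ : ∃ J : ℝ, 0 ≤ J ∧ ∀ a, ‖a‖ ≤ ρ → |j a| ≤ J := by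
    refine ⟨max J₀ 0, le_max_right _ _, fun a ha => le_trans ?_ (le_max_left _ _)⟩
    have := hJ₀ a (by rw [Metric.mem_closedBall, dist_zero_right]; exact ha)
    rwa [Real.norm_eq_abs] at this
  set M := L + L / c + C * (L / c) * (L / c) with hMdef
  have hM0 : 0 ≤ M := by
    have : 0 ≤ L / c := div_nonneg hL0 hc.le
    positivity
  have hcd : Continuous fun y : Cfg dh => Real.sqrt |(S.Dy φ 8 y).det| :=
    Real.continuous_sqrt.comp (nrm_continuous_det S φ).abs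
  obtain ⟨D₀, hD₀⟩ := (isCompact_closedBall (0 : Cfg dh) (2 * M)).exists_bound_of_continuousOn hcd.continuousOn
  obtain ⟨Dm, hD0, hD⟩ : ∃ D : ℝ, 0 ≤ D ∧ ∀ y : Cfg dh, ‖y‖ ≤ 2 * M → Real.sqrt |(S.Dy φ 8 y).det| ≤ D := by
    refine ⟨max D₀ 0, le_max_right _ _, fun y hy => le_trans ?_ (le_max_left _ _)⟩
    have := hD₀ y (by rw [Metric.mem_closedBall, dist_zero_right]; exact hy)
    rwa [Real.norm_of_nonneg (Real.sqrt_nonneg _)] at this
  have g1 := fun R hR q α hq => cnv_G1 S φ ψ z₀ ε₀ ρ₀ c C hc hC hE hsn ε ρ hεε₀ hρρ₀ j Jm hJ0 hJ b L Bb hL0 hL hB0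
    hB M Dm hMdef hD0 hD R hR q α hq
  have g2 := cnv_G2 S φ ψ z₀ ε₀ ρ₀ c C hc hC hρ₀ hE ε hε hεε₀ b L Bb hL0 hL hB0 hB hbz M Dm hMdef hD0 hD
  set Mt := Dm * (Jm * Bb) + Dm * Bb with hMt
  have hMt0 : 0 ≤ Mt := by positivity
  -- the integrand
  set H : ℝ → (Cfg r × Cfg ds × Wsp dm) → EuclideanSpace ℝ (Fin dm) → F := fun R q α =>
    ({q | cnvP ψ R q ∈ Nb (cmb ψ z₀ 0) dm R ε} : Set _).indicator
      (fun q => cnvG1 S φ ψ j ρ b R q α - cnvG2 S φ ψ b q α) q with hH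
  have hG1int : ∀ R q, Integrable (fun α => cnvG1 S φ ψ j ρ b R q α) := by
    intro R q
    unfold cnvG1
    refine Integrable.smul _ ?_
    rw [integrable_indicator_iff Metric.isOpen_ball.measurableSet]
    exact ((cnv_contT S φ ψ hcs j hj b hb R q).continuousOn.integrableOn_compact
      (isCompact_closedBall _ _)).mono_set Metric.ball_subset_closedBall
  have hG2int : ∀ q, Integrable (fun α => cnvG2 S φ ψ b q α) := by
    intro q
    refine (cnv_contG2 S φ ψ b hb q).integrable_of_hasCompactSupport ?_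
    refine HasCompactSupport.of_support_subset_isCompact
      (isCompact_closedBall (0 : EuclideanSpace ℝ (Fin dm)) M) fun α hα => ?_
    rw [Metric.mem_closedBall, dist_zero_right]
    exact ((g2 q α).1 hα).1
  have hVH : ∀ R : ℝ, 0 < R → ∀ q, cnvV S φ ψ z₀ j ε ρ b R q = ∫ α, H R q α := by
    intro R hR q
    by_cases hmem : cnvP ψ R q ∈ Nb (cmb ψ z₀ 0) dm R ε
    · have hq : q ∈ {q | cnvP ψ R q ∈ Nb (cmb ψ z₀ 0) dm R ε} := hmem
      unfold cnvV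
      rw [Set.indicator_of_mem hq]
      have h1 : ∀ α, H R q α = cnvG1 S φ ψ j ρ b R q α - cnvG2 S φ ψ b q α := by
        intro α
        rw [hH]
        simp only
        rw [Set.indicator_of_mem hq]
      simp only [h1]
      rw [integral_sub (hG1int R q) (hG2int q)]
      congr 1
      · have h2 := cnvA_Zt S φ ψ hR j ρ b q.1 q.2.1 q.2.2
        have h3 : ((R ^ (2 * (dm : ℝ) - 9 * (r : ℝ) / 2) : ℝ) : ℂ) ≠ 0 := by
          rw [Complex.ofReal_ne_zero]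
          exact (Real.rpow_pos_of_pos hR _).ne'
        show _ • Zt S φ j ρ (Zb φ ψ b R) (cmb ψ (R • q.1) q.2.1, (Real.sqrt R)⁻¹ • q.2.2) = _
        rw [h2, smul_smul, inv_mul_cancel₀ h3, one_smul]
        unfold cnvG1
        rw [integral_smul]
        rfl
      · unfold Vb cnvG2
        rw [integral_smul]
    · have hq : q ∉ {q | cnvP ψ R q ∈ Nb (cmb ψ z₀ 0) dm R ε} := hmem
      unfold cnvV
      rw [Set.indicator_of_notMem hq]
      have h1 : ∀ α, H R q α = 0 := by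
        intro α
        rw [hH]
        simp only
        rw [Set.indicator_of_notMem hq]
      simp only [h1, integral_zero]
  have hHb : ∀ R : ℝ, 1 ≤ R → ∀ q α, ‖H R q α‖ ≤
      (Metric.closedBall (0 : EuclideanSpace ℝ (Fin dm)) M).indicator (fun _ => Mt) α ∧
      (H R q α ≠ 0 → ‖q‖ ≤ M) := by
    intro R hR q α
    by_cases hmem : cnvP ψ R q ∈ Nb (cmb ψ z₀ 0) dm R ε
    · have hq : q ∈ {q | cnvP ψ R q ∈ Nb (cmb ψ z₀ 0) dm R ε} := hmem
      have h1 : H R q α = cnvG1 S φ ψ j ρ b R q α - cnvG2 S φ ψ b q α := by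
        rw [hH]
        simp only
        rw [Set.indicator_of_mem hq]
      obtain ⟨a1, a2⟩ := g1 R hR q α hmem
      obtain ⟨b1, b2⟩ := g2 q α
      rw [h1]
      constructor
      · by_cases hα : ‖α‖ ≤ M
        · rw [Set.indicator_of_mem (by rw [Metric.mem_closedBall, dist_zero_right]; exact hα)]
          exact (norm_sub_le _ _).trans (add_le_add a2 b2)
        · have c1 : cnvG1 S φ ψ j ρ b R q α = 0 := by
            by_contra hcon
            exact hα (a1 hcon).1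
          have c2 : cnvG2 S φ ψ b q α = 0 := by
            by_contra hcon
            exact hα (b1 hcon).1
          rw [c1, c2, sub_zero, norm_zero]
          exact Set.indicator_nonneg (fun _ _ => hMt0) _
      · intro hne
        by_cases hq1 : cnvG1 S φ ψ j ρ b R q α = 0
        · rw [hq1, zero_sub, neg_ne_zero] at hne
          exact (b1 hne).2
        · exact (a1 hq1).2
    · have hq : q ∉ {q | cnvP ψ R q ∈ Nb (cmb ψ z₀ 0) dm R ε} := hmem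
      have h1 : H R q α = 0 := by
        rw [hH]
        simp only
        rw [Set.indicator_of_notMem hq]
      rw [h1, norm_zero]
      exact ⟨Set.indicator_nonneg (fun _ _ => hMt0) _, fun h => absurd rfl h⟩
  have hbint : Integrable ((Metric.closedBall (0 : EuclideanSpace ℝ (Fin dm)) M).indicator (fun _ => Mt)) := by
    rw [integrable_indicator_iff Metric.isClosed_closedBall.measurableSet]
    exact integrableOn_const (isCompact_closedBall _ _).measure_lt_top.ne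
  set M2 := ∫ α, (Metric.closedBall (0 : EuclideanSpace ℝ (Fin dm)) M).indicator (fun _ => Mt) α with hM2d
  have hVb : ∀ R : ℝ, 1 ≤ R → ∀ q, ‖cnvV S φ ψ z₀ j ε ρ b R q‖ ≤ M2 ∧
      (cnvV S φ ψ z₀ j ε ρ b R q ≠ 0 → ‖q‖ ≤ M) := by
    intro R hR q
    rw [hVH R (by linarith) q]
    refine ⟨norm_integral_le_of_norm_le hbint (Eventually.of_forall fun α => (hHb R hR q α).1), fun hne => ?_⟩
    by_contra hcon
    apply hne
    have : ∀ α, H R q α = 0 := by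
      intro α
      by_contra hc2
      exact hcon ((hHb R hR q α).2 hc2)
    simp only [this, integral_zero]
  have hlimV : ∀ q, Tendsto (fun R : ℝ => cnvV S φ ψ z₀ j ε ρ b R q) atTop (𝓝 0) := by
    intro q
    have h1 : Tendsto (fun R : ℝ => ∫ α, H R q α) atTop (𝓝 (∫ _ : EuclideanSpace ℝ (Fin dm), (0 : F))) := by
      refine tendsto_integral_filter_of_dominated_convergence
        ((Metric.closedBall (0 : EuclideanSpace ℝ (Fin dm)) M).indicator (fun _ => Mt)) ?_ ?_ hbint ?_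
      · refine Eventually.of_forall fun R => ?_
        by_cases hmem : cnvP ψ R q ∈ Nb (cmb ψ z₀ 0) dm R ε
        · have hq : q ∈ {q | cnvP ψ R q ∈ Nb (cmb ψ z₀ 0) dm R ε} := hmem
          have h2 : H R q = fun α => cnvG1 S φ ψ j ρ b R q α - cnvG2 S φ ψ b q α := by
            funext α
            rw [hH]
            simp only
            rw [Set.indicator_of_mem hq]
          rw [h2]
          exact ((hG1int R q).sub (hG2int q)).aestronglyMeasurable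
        · have hq : q ∉ {q | cnvP ψ R q ∈ Nb (cmb ψ z₀ 0) dm R ε} := hmem
          have h2 : H R q = fun _ => 0 := by
            funext α
            rw [hH]
            simp only
            rw [Set.indicator_of_notMem hq]
          rw [h2]
          exact aestronglyMeasurable_const
      · filter_upwards [eventually_ge_atTop (1 : ℝ)] with R hR
        exact Eventually.of_forall fun α => (hHb R hR q α).1
      · exact Eventually.of_forall fun α =>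
          cnv_lim S φ ψ z₀ ε₀ ρ₀ c C hC hρ₀ hE hcs hs1 ε ρ hεε₀ hρ j hj hj1 b hb q α
    rw [integral_zero] at h1
    refine h1.congr' ?_
    filter_upwards [eventually_gt_atTop (0 : ℝ)] with R hR
    exact (hVH R hR q).symm
  -- measurability
  have hVmeas : ∀ R : ℝ, StronglyMeasurable (cnvV S φ ψ z₀ j ε ρ b R) := by
    intro R
    obtain ⟨m1, m2⟩ := hM2 R b hb.stronglyMeasurable
    have m3 := hM1 j ρ (Zb φ ψ b R) hj m1
    have hset : MeasurableSet {q : Cfg r × Cfg ds × Wsp dm | cnvP ψ R q ∈ Nb (cmb ψ z₀ 0) dm R ε} :=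
      ((cnv_openNb (cmb ψ z₀ 0) R ε).preimage (cnv_contP ψ R)).measurableSet
    unfold cnvV
    refine StronglyMeasurable.indicator ?_ hset
    exact ((m3.comp_measurable (cnv_contP ψ R).measurable).const_smul _).sub m2
  -- conclusion
  have hmain : Tendsto (fun R : ℝ => ∫⁻ q, ‖cnvV S φ ψ z₀ j ε ρ b R q‖ₑ ^ 2
      ∂((volume : Measure (Cfg r)).prod ((volume : Measure (Cfg ds)).prod (volume : Measure (Wsp dm))))) atTop
      (𝓝 (∫⁻ _ : Cfg r × Cfg ds × Wsp dm, 0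
        ∂((volume : Measure (Cfg r)).prod ((volume : Measure (Cfg ds)).prod (volume : Measure (Wsp dm)))))) := by
    refine tendsto_lintegral_filter_of_dominated_convergence
      ((Metric.closedBall (0 : Cfg r × Cfg ds × Wsp dm) M).indicator fun _ => ENNReal.ofReal M2 ^ 2) ?_ ?_ ?_ ?_
    · exact Eventually.of_forall fun R => (hVmeas R).enorm.pow_const 2
    · filter_upwards [eventually_ge_atTop (1 : ℝ)] with R hR
      refine Eventually.of_forall fun q => ?_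
      obtain ⟨a1, a2⟩ := hVb R hR q
      by_cases hq : cnvV S φ ψ z₀ j ε ρ b R q = 0
      · rw [hq, enorm_zero]
        simp
      · rw [Set.indicator_of_mem (by rw [Metric.mem_closedBall, dist_zero_right]; exact a2 hq)]
        gcongr
        rw [← ofReal_norm]
        exact ENNReal.ofReal_le_ofReal a1
    · rw [lintegral_indicator Metric.isClosed_closedBall.measurableSet, lintegral_const]
      refine (ENNReal.mul_lt_top (by simp) ?_).ne
      rw [Measure.restrict_apply_univ]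
      exact (isCompact_closedBall _ _).measure_lt_top
    · refine Eventually.of_forall fun q => ?_
      have h1 := (hlimV q).enorm
      rw [enorm_zero] at h1
      have h2 := ((ENNReal.continuous_pow 2).tendsto (0 : ENNReal)).comp h1
      rw [zero_pow two_ne_zero] at h2
      exact h2
  rw [lintegral_zero] at hmain
  refine hmain.congr' ?_
  filter_upwards [eventually_gt_atTop (0 : ℝ)] with R hR
  have h1 := (hM3 R (fun η s w => cnvV S φ ψ z₀ j ε ρ b R (η, s, w)) hR (hVmeas R)).2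
  refine h1.symm.trans ?_
  rw [← lintegral_indicator (cnv_openNb (cmb ψ z₀ 0) R ε).measurableSet]
  refine lintegral_congr fun p => ?_
  have hs0 : 0 < Real.sqrt R := Real.sqrt_pos.2 hR
  have hPq : cnvP ψ R (R⁻¹ • hz ψ p.1, hs ψ p.1, Real.sqrt R • p.2) = p := by
    unfold cnvP
    simp only
    rw [smul_smul, mul_inv_cancel₀ hR.ne', one_smul, cnv_cmb, smul_smul, inv_mul_cancel₀ hs0.ne', one_smul]
  have h3 : ((R ^ (2 * (dm : ℝ) - 9 * (r : ℝ) / 2) : ℝ) : ℂ) ≠ 0 := by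
    rw [Complex.ofReal_ne_zero]
    exact (Real.rpow_pos_of_pos hR _).ne'
  by_cases hp : p ∈ Nb (cmb ψ z₀ 0) dm R ε
  · have hq : (R⁻¹ • hz ψ p.1, hs ψ p.1, Real.sqrt R • p.2) ∈
        {q : Cfg r × Cfg ds × Wsp dm | cnvP ψ R q ∈ Nb (cmb ψ z₀ 0) dm R ε} := by
      show cnvP ψ R (R⁻¹ • hz ψ p.1, hs ψ p.1, Real.sqrt R • p.2) ∈ Nb (cmb ψ z₀ 0) dm R ε
      rw [hPq]
      exact hp
    rw [Set.indicator_of_mem hp]
    congr 2
    unfold Ts0 cnvV
    beta_reduce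
    rw [Set.indicator_of_mem hq]
    beta_reduce
    rw [hPq, smul_sub, smul_smul, mul_inv_cancel₀ h3, one_smul]
  · have hq : (R⁻¹ • hz ψ p.1, hs ψ p.1, Real.sqrt R • p.2) ∉
        {q : Cfg r × Cfg ds × Wsp dm | cnvP ψ R q ∈ Nb (cmb ψ z₀ 0) dm R ε} := by
      show ¬ (cnvP ψ R (R⁻¹ • hz ψ p.1, hs ψ p.1, Real.sqrt R • p.2) ∈ Nb (cmb ψ z₀ 0) dm R ε)
      rw [hPq]
      exact hp
    rw [Set.indicator_of_notMem hp]
    unfold Ts0 cnvV
    beta_reduce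
    rw [Set.indicator_of_notMem hq, smul_zero, enorm_zero]
    simp

end Vale.Agent.P353.Z.AN
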