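import Vale.Agent.P353.AN.GL.Stmt
import Vale.Agent.P353.Z.U.GrpExp

/-! # P353, all `N`, block GL: equivariance of gauge invariant functions (GL1) -/

open MeasureTheory Filter Topology
open scoped ContDiff

namespace Vale.Agent.P353.Z.AN

variable {d : ℕ} {F : Type*} [NormedAddCommGroup F] [InnerProductSpace ℂ F]

/-- generator of the spin transport -/
noncomputable def eqvK (S : Setup d F) (a : Fin d → ℝ) : F →L[ℂ] F :=
  (-Complex.I) • ∑ C, (a C : ℂ) • S.cS C

lemma eqvK_symm (S : Setup d F) (a : Fin d → ℝ) (v w : F) :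
    inner ℂ (eqvK S a v) w = inner ℂ v (eqvK S (-a) w) := by
  simp only [eqvK, smul_apply, sum_apply, inner_smul_left, inner_smul_right, sum_inner,
    inner_sum, S.cS_symm, Complex.conj_ofReal, map_neg, Complex.conj_I, neg_neg, Pi.neg_apply,
    Complex.ofReal_neg, neg_mul, Finset.sum_neg_distrib, mul_neg]

lemma eqvK_neg (S : Setup d F) (a : Fin d → ℝ) : eqvK S (-a) = -eqvK S a := by
  simp only [eqvK, Pi.neg_apply, Complex.ofReal_neg, neg_smul, Finset.sum_neg_distrib, smul_neg]

lemma eqv_deriv (S : Setup d F) {u : Cfg d → F} (hu : ContDiff ℝ ∞ u)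
    (hG : ∀ C x, S.G C u x = 0) (a : Fin d → ℝ) (x : Cfg d) (t : ℝ) :
    HasDerivAt (fun t : ℝ => u (ro (NormedSpace.exp (t • S.adm a)) x))
      (eqvK S a (u (ro (NormedSpace.exp (t • S.adm a)) x))) t := by
  have h1 : HasDerivAt (fun t : ℝ => u (ro (NormedSpace.exp (t • S.adm a)) x))
      (fderiv ℝ u (ro (NormedSpace.exp (t • S.adm a)) x)
        (ro (S.adm a) (ro (NormedSpace.exp (t • S.adm a)) x))) t :=
    ((hu.differentiable (by simp)) _).hasFDerivAt.comp_hasDerivAt t
      (U.gx983_hasDerivAt_ro (S.adm a) t x)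
  refine h1.congr_deriv ?_
  rw [U.gx983_fderiv_ad]
  simp only [eqvK, smul_apply, sum_apply, Finset.smul_sum (r := -Complex.I)]
  refine Finset.sum_congr rfl fun C _ => ?_
  have h2 := hG C (ro (NormedSpace.exp (t • S.adm a)) x)
  unfold Setup.G at h2
  have h3 := congrArg (fun v => Complex.I • v) h2
  simp only [smul_add, smul_smul, smul_zero] at h3
  rw [show Complex.I * -Complex.I = 1 by rw [mul_neg, Complex.I_mul_I, neg_neg], one_smul] at h3
  rw [smul_comm, neg_smul]
  congr 1
  exact eq_neg_of_add_eq_zero_left h3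

/-- **GL1** -/
theorem eqv_stmt (S : Setup d F) : EqvStmt S := by
  intro hF
  have : CompleteSpace F := FiniteDimensional.complete ℂ F
  let _ : NormedAlgebra ℚ (F →L[ℂ] F) := NormedAlgebra.restrictScalars ℚ ℂ (F →L[ℂ] F)
  have hK : ∀ a, spn S a = NormedSpace.exp (eqvK S a) := fun a => rfl
  have hadj : ∀ a, star (eqvK S a) = eqvK S (-a) := by
    intro a
    rw [ContinuousLinearMap.star_eq_adjoint]
    refine ContinuousLinearMap.ext fun w => ?_
    refine ext_inner_left ℂ fun v => ?_
    rw [ContinuousLinearMap.adjoint_inner_right, eqvK_symm]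
  have h2 : ∀ a v w, inner ℂ (spn S a v) w = inner ℂ v (spn S (-a) w) := by
    intro a v w
    rw [hK, hK, ← hadj, ← NormedSpace.star_exp, ContinuousLinearMap.star_eq_adjoint,
      ContinuousLinearMap.adjoint_inner_right]
  have hinv : ∀ a, spn S (-a) * spn S a = 1 := by
    intro a
    rw [hK, hK, eqvK_neg]
    have hc : Commute (-eqvK S a) (eqvK S a) := (Commute.refl _).neg_left
    rw [← NormedSpace.exp_add_of_commute hc, neg_add_cancel, NormedSpace.exp_zero]
  have h1 : ∀ a v, ‖spn S a v‖ = ‖v‖ := by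
    intro a v
    have h : inner ℂ (spn S a v) (spn S a v) = inner ℂ v v := by
      rw [h2]
      congr 1
      have := congrArg (fun T : F →L[ℂ] F => T v) (hinv a)
      simpa using this
    simp only [inner_self_eq_norm_sq_to_K] at h
    have h4 : ‖spn S a v‖ ^ 2 = ‖v‖ ^ 2 := by exact_mod_cast h
    exact (sq_eq_sq₀ (norm_nonneg _) (norm_nonneg _)).1 h4
  refine ⟨h1, h2, ?_, ?_, ?_⟩
  · have hc0 : Continuous fun a : Fin d → ℝ => ∑ C, (a C : ℂ) • S.cS C :=
      continuous_finsetSum _ fun C _ =>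
        (Complex.continuous_ofReal.comp (continuous_apply C)).smul continuous_const
    have hc : Continuous fun a => eqvK S a :=
      (continuous_const_smul (-Complex.I : ℂ)).comp hc0
    exact NormedSpace.exp_continuous.comp hc
  · rw [hK]
    have : eqvK S 0 = 0 := by simp [eqvK]
    rw [this, NormedSpace.exp_zero]
  · intro u hu hG a x
    have hE : ∀ t : ℝ, HasDerivAt (fun t : ℝ => NormedSpace.exp (t • (-eqvK S a)))
        (NormedSpace.exp (t • (-eqvK S a)) * (-eqvK S a)) t :=
      fun t => hasDerivAt_exp_smul_const (𝕂 := ℝ) (-eqvK S a) t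
    have hE' : ∀ t : ℝ, HasDerivAt
        (fun t : ℝ => (NormedSpace.exp (t • (-eqvK S a))).restrictScalars ℝ)
        ((NormedSpace.exp (t • (-eqvK S a)) * (-eqvK S a)).restrictScalars ℝ) t := fun t =>
      (ContinuousLinearMap.restrictScalarsL ℂ F F ℝ ℝ).hasFDerivAt.comp_hasDerivAt t (hE t)
    have hg : ∀ t : ℝ, HasDerivAt (fun t : ℝ =>
        (NormedSpace.exp (t • (-eqvK S a))) (u (ro (NormedSpace.exp (t • S.adm a)) x))) 0 t := by
      intro t
      have h := (hE' t).clm_apply (eqv_deriv S hu hG a x t)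
      refine h.congr_deriv ?_
      simp
    have hc := is_const_of_deriv_eq_zero (f := fun t : ℝ =>
        (NormedSpace.exp (t • (-eqvK S a))) (u (ro (NormedSpace.exp (t • S.adm a)) x)))
      (fun t => (hg t).differentiableAt) (fun t => (hg t).deriv) 1 0
    simp only [one_smul, zero_smul, NormedSpace.exp_zero, U.gx983_ro_one,
      one_apply_eq_self] at hc
    rw [← eqvK_neg, ← hK] at hc
    have h5 := hinv (-a)
    rw [neg_neg] at h5
    have h6 := congrArg (fun T : F →L[ℂ] F => T (u (ro (NormedSpace.exp (S.adm a)) x))) h5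
    simp only [mul_apply_eq_comp, one_apply_eq_self] at h6
    rw [hc] at h6
    exact h6.symm

end Vale.Agent.P353.Z.AN
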