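import Vale.Agent.P353.AN.GL.GluA
import Vale.Agent.P353.AN.GL.Glob
import Vale.Agent.P353.AN.E.RotG
import Vale.Agent.P353.AN.E.Dir

/-! # P353, all `N`, block GL15: uniform bound of the global functional over compact sets of regular points -/

open MeasureTheory Filter Topology
open scoped ContDiff ENNReal

namespace Vale.Agent.P353.Z.AN

variable {d dh dm r ds : ℕ} {F : Type*} [NormedAddCommGroup F] [InnerProductSpace ℂ F]

/-- the uniform bound for functions supported over `A` -/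
def glk_P (S : Setup d F) (φ : Spl dh dm d) (ψ : Spz r ds dh) (A : Set (Cfg r)) : Prop :=
  ∃ δ C R₁ : ℝ, 0 < δ ∧ 0 < C ∧ 0 < R₁ ∧ ∀ R : ℝ, R₁ ≤ R →
  ∀ b : Cfg r × Cfg ds × Cfg dm → F, StronglyMeasurable b →
  (∀ q, b q ≠ 0 → q.1 ∈ A ∧ ‖q.2.1‖ ≤ δ * R ∧ ‖q.2.2‖ ≤ δ * (R * Real.sqrt R)) → MemLp b 2 (wM r ds dm) →
  ∀ u : Cfg d → F, Setup.Tst u → (∀ C x, S.G C u x = 0) →
    ‖∫ x, inner ℂ (Zb φ ψ b R x) (u x)‖ₑ ≤ ENNReal.ofReal C * eLpNorm b 2 (wM r ds dm) * eLpNorm u 2 volume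

theorem glk_anti (S : Setup d F) (φ : Spl dh dm d) (ψ : Spz r ds dh) (η : Cfg r) (i : Fin 9) :
    (Dz S φ ψ η i).transpose = -Dz S φ ψ η i := by
  have h : Dz S φ ψ η i = DM (AX.Mz S φ (spsw ψ)) η i := (congrFun (AX.DM_Dz S φ ψ η) i).symm
  rw [h]
  simp only [DM, Matrix.transpose_sum, Matrix.transpose_smul, AX.Mz_anti, smul_neg, Finset.sum_neg_distrib]

theorem glk_comm (S : Setup d F) (φ : Spl dh dm d) (ψ : Spz r ds dh) (hs : S.IsSub φ) (hc : IsZ S φ ψ) (η : Cfg r)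
    (i j : Fin 9) : Dz S φ ψ η i * Dz S φ ψ η j = Dz S φ ψ η j * Dz S φ ψ η i := by
  have h : ∀ i, Dz S φ ψ η i = DM (AX.Mz S φ (spsw ψ)) η i := fun i => (congrFun (AX.DM_Dz S φ ψ η) i).symm
  rw [h, h]
  simp only [DM, Finset.sum_mul_sum, smul_mul_smul_comm]
  rw [Finset.sum_comm]
  refine Finset.sum_congr rfl fun a _ => Finset.sum_congr rfl fun b _ => ?_
  rw [AX.Mz_comm S φ (spsw ψ) hs (fun A B C => hc A B C), mul_comm]

/-- at a regular point the sum of squares is invertible -/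
theorem glk_sq {n : ℕ} (D : Fin 9 → Matrix (Fin n) (Fin n) ℝ) (ha : ∀ i, (D i).transpose = -D i)
    (hr : ∀ x : Fin n → ℝ, (∀ i, (D i).mulVec x = 0) → x = 0) : (∑ i, D i * D i).det ≠ 0 := by
  intro h0
  obtain ⟨z, hz0, hz⟩ := Matrix.exists_mulVec_eq_zero_iff.2 h0
  apply hz0
  apply hr
  have h1 : ∀ i, dotProduct z ((D i * D i).mulVec z) = - dotProduct ((D i).mulVec z) ((D i).mulVec z) := by
    intro i
    rw [← Matrix.mulVec_mulVec, Matrix.dotProduct_mulVec, ← Matrix.mulVec_transpose, ha, Matrix.neg_mulVec,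
      neg_dotProduct]
  have h2 : ∑ i, dotProduct ((D i).mulVec z) ((D i).mulVec z) = 0 := by
    have h3 : dotProduct z ((∑ i, D i * D i).mulVec z) = 0 := by rw [hz, dotProduct_zero]
    rw [Matrix.sum_mulVec, dotProduct_sum] at h3
    simp only [h1, Finset.sum_neg_distrib] at h3
    linarith
  have h4 : ∀ i, 0 ≤ dotProduct ((D i).mulVec z) ((D i).mulVec z) := fun i =>
    Finset.sum_nonneg fun j _ => mul_self_nonneg _
  intro i
  have h5 := (Finset.sum_eq_zero_iff_of_nonneg fun i _ => h4 i).1 h2 i (Finset.mem_univ i)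
  exact dotProduct_self_eq_zero.1 h5

/-- a good frame at a regular point -/
theorem glk_frame (S : Setup d F) (φ : Spl dh dm d) (ψ : Spz r ds dh) (hs : S.IsSub φ) (hc : IsZ S φ ψ) (η : Cfg r)
    (hη : η ∈ Reg S φ ψ) : ∃ (R₀ : Matrix (Fin 9) (Fin 9) ℝ) (hR : R₀ * R₀.transpose = 1),
      Std (S.rot R₀ hR 1 (gb969_one d)) φ (cmb ψ (rox R₀ 1 η) 0) := by
  obtain ⟨R₀, hR, hdet⟩ := AE.dirS dm (Dz S φ ψ η) (glk_anti S φ ψ η) (glk_comm S φ ψ hs hc η)
    (glk_sq _ (glk_anti S φ ψ η) hη)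
  refine ⟨R₀, hR, ?_⟩
  obtain ⟨-, -, h3, -⟩ := AE.rotG S φ ψ hs hc R₀ hR (gb969_one d)
  refine h3 (rox R₀ 1 η) ?_
  have h4 : S.Dz φ ψ (rox R₀ 1 η) 8 = ∑ j, R₀ 8 j • Dz S φ ψ η j := by
    rw [← AX.DM_Dz, AX.rox_one, AX.DM_rz]
    refine Finset.sum_congr rfl fun j _ => ?_
    rw [AX.DM_Dz]
    rfl
  rw [h4]
  exact hdet

/-- weighted norm of a rotated function -/
theorem glk_nrm {R₀ : Matrix (Fin 9) (Fin 9) ℝ} (hR : R₀ * R₀.transpose = 1) {b : Cfg r × Cfg ds × Cfg dm → F}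
    (hb : StronglyMeasurable b) :
    StronglyMeasurable (fun q : Cfg r × Cfg ds × Cfg dm =>
      b (rox R₀.transpose 1 q.1, rox R₀.transpose 1 q.2.1, rox R₀.transpose 1 q.2.2)) ∧
    eLpNorm (fun q : Cfg r × Cfg ds × Cfg dm =>
      b (rox R₀.transpose 1 q.1, rox R₀.transpose 1 q.2.1, rox R₀.transpose 1 q.2.2)) 2 (wM r ds dm) ≤
      eLpNorm b 2 (wM r ds dm) := by
  have hR' := gb969_hR' hR
  have hmp : MeasurePreserving (fun q : Cfg r × Cfg ds × Cfg dm =>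
      ((rox R₀.transpose 1 q.1, rox R₀.transpose 1 q.2.1, rox R₀.transpose 1 q.2.2) : Cfg r × Cfg ds × Cfg dm))
      ((volume : Measure (Cfg r)).prod ((volume : Measure (Cfg ds)).prod (volume : Measure (Cfg dm))))
      ((volume : Measure (Cfg r)).prod ((volume : Measure (Cfg ds)).prod (volume : Measure (Cfg dm)))) :=
    (rt_mp hR' (gb969_one r)).prod ((rt_mp hR' (gb969_one ds)).prod (rt_mp hR' (gb969_one dm)))
  have hb' : StronglyMeasurable (fun q : Cfg r × Cfg ds × Cfg dm =>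
      b (rox R₀.transpose 1 q.1, rox R₀.transpose 1 q.2.1, rox R₀.transpose 1 q.2.2)) :=
    hb.comp_measurable hmp.measurable
  refine ⟨hb', glu_le_of_sq (le_of_eq ?_)⟩
  rw [← glu_w_sq hb, glu_w_lint (hb'.enorm.pow_const 2)]
  have hg : Measurable fun q : Cfg r × Cfg ds × Cfg dm =>
      ENNReal.ofReal ((1 + ‖q.2.2‖ ^ 2) ^ (dm + 1)) * ‖b q‖ₑ ^ 2 :=
    (glu_w_meas r ds dm).mul (hb.enorm.pow_const 2)
  rw [← hmp.lintegral_comp hg]
  refine lintegral_congr fun q => ?_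
  rw [rt_norm hR' (gb969_one dm)]

/-- the local bound -/
theorem glk_loc (S : Setup d F) (φ : Spl dh dm d) (ψ : Spz r ds dh) (hF : FiniteDimensional ℂ F) (η : Cfg r)
    (R₀ : Matrix (Fin 9) (Fin 9) ℝ) (hR : R₀ * R₀.transpose = 1) (hB : GluBdStmt (S.rot R₀ hR 1 (gb969_one d)))
    (hstd : Std (S.rot R₀ hR 1 (gb969_one d)) φ (cmb ψ (rox R₀ 1 η) 0)) :
    ∃ δ : ℝ, 0 < δ ∧ glk_P S φ ψ (Metric.closedBall η δ) := by
  obtain ⟨δ, C, R₁, hδ, hC, hR₁, H⟩ := hB hF dh dm r ds φ ψ (rox R₀ 1 η) hstd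
  refine ⟨δ, hδ, δ, C, R₁, hδ, hC, hR₁, ?_⟩
  intro R hRR b hb hsup hbm u hu hG
  obtain ⟨hb', hn⟩ := glk_nrm hR hb
  have hR' := gb969_hR' hR
  have hu' := gb969_GInv S hR (gb969_one d) (u := u) ⟨hu, hG⟩
  have h := H R hRR _ hb' (fun q hq => ?_) ⟨hb'.aestronglyMeasurable, lt_of_le_of_lt hn hbm.2⟩ _ hu'.1 hu'.2
  · have e1 : ∫ x, inner ℂ (Zb φ ψ (fun q : Cfg r × Cfg ds × Cfg dm =>
        b (rox R₀.transpose 1 q.1, rox R₀.transpose 1 q.2.1, rox R₀.transpose 1 q.2.2)) R x)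
        (u (rox R₀.transpose 1 x)) = ∫ x, inner ℂ (Zb φ ψ b R x) (u x) := by
      have hmp := rt_mp hR (gb969_one d)
      have he : MeasurableEmbedding (rox R₀ 1 : Cfg d → Cfg d) :=
        (rtE R₀ hR 1 (gb969_one d)).toHomeomorph.measurableEmbedding
      rw [← hmp.integral_comp he]
      refine integral_congr_ae (Eventually.of_forall fun x => ?_)
      simp only [Zb, gb969_zy, gb969_pm, gb969_hz, gb969_hs, ← gb969_smul, gb969_inv hR]
    have e2 : eLpNorm (fun x => u (rox R₀.transpose 1 x)) 2 volume = eLpNorm u 2 volume :=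
      eLpNorm_comp_measurePreserving hu.1.continuous.aestronglyMeasurable (rt_mp hR' (gb969_one d))
    rw [e1, e2] at h
    exact h.trans (mul_le_mul' (mul_le_mul' le_rfl hn) le_rfl)
  · obtain ⟨h1, h2, h3⟩ := hsup _ hq
    simp only at h1 h2 h3
    rw [rt_norm hR' (gb969_one _)] at h2 h3
    refine ⟨?_, h2, h3⟩
    rw [Metric.mem_closedBall, dist_eq_norm] at h1
    have h6 : rox R₀ 1 (rox R₀.transpose 1 q.1 - η) = q.1 - rox R₀ 1 η := by
      have h7 := (rtE R₀ hR (1 : Matrix (Fin r) (Fin r) ℝ) (gb969_one r)).map_sub (rox R₀.transpose 1 q.1) η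
      have h8 : rox R₀ 1 (rox R₀.transpose 1 q.1 - η) =
        rox R₀ 1 (rox R₀.transpose 1 q.1) - rox R₀ 1 η := h7
      rw [h8, gb969_inv' hR]
    rw [← h6, rt_norm hR (gb969_one r)]
    exact h1

theorem glk_union (S : Setup d F) (φ : Spl dh dm d) (ψ : Spz r ds dh) {A B : Set (Cfg r)} (hA : MeasurableSet A)
    (h1 : glk_P S φ ψ A) (h2 : glk_P S φ ψ B) : glk_P S φ ψ (A ∪ B) := by
  obtain ⟨δ₁, C₁, r₁, hδ₁, hC₁, hr₁, H₁⟩ := h1
  obtain ⟨δ₂, C₂, r₂, hδ₂, hC₂, hr₂, H₂⟩ := h2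
  refine ⟨min δ₁ δ₂, C₁ + C₂, max r₁ r₂, lt_min hδ₁ hδ₂, by positivity, lt_max_of_lt_left hr₁, ?_⟩
  intro R hR b hb hsup hbm u hu hG
  have hR1 : r₁ ≤ R := (le_max_left _ _).trans hR
  have hR2 : r₂ ≤ R := (le_max_right _ _).trans hR
  have hR0 : 0 < R := hr₁.trans_le hR1
  set T : Set (Cfg r × Cfg ds × Cfg dm) := {q | q.1 ∈ A} with hT
  have hTm : MeasurableSet T := measurable_fst hA
  have hb1 : StronglyMeasurable (T.indicator b) := hb.indicator hTm
  have hb2 : StronglyMeasurable (Tᶜ.indicator b) := hb.indicator hTm.compl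
  have hm1 : MemLp (T.indicator b) 2 (wM r ds dm) := hbm.indicator hTm
  have hm2 : MemLp (Tᶜ.indicator b) 2 (wM r ds dm) := hbm.indicator hTm.compl
  have hs : 0 ≤ R * Real.sqrt R := mul_nonneg hR0.le (Real.sqrt_nonneg _)
  have k1 := H₁ R hR1 (T.indicator b) hb1 (fun q hq => ?_) hm1 u hu hG
  · have k2 := H₂ R hR2 (Tᶜ.indicator b) hb2 (fun q hq => ?_) hm2 u hu hG
    · have i1 : Integrable (fun x => inner ℂ (Zb φ ψ (T.indicator b) R x) (u x)) :=
        glu_int (glu_memLp φ ψ R hR0 (hm1.mono_measure (glu_w_le r ds dm))) hu.memLp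
      have i2 : Integrable (fun x => inner ℂ (Zb φ ψ (Tᶜ.indicator b) R x) (u x)) :=
        glu_int (glu_memLp φ ψ R hR0 (hm2.mono_measure (glu_w_le r ds dm))) hu.memLp
      have e1 : ∫ x, inner ℂ (Zb φ ψ b R x) (u x) = (∫ x, inner ℂ (Zb φ ψ (T.indicator b) R x) (u x)) +
          ∫ x, inner ℂ (Zb φ ψ (Tᶜ.indicator b) R x) (u x) := by
        rw [← integral_add i1 i2]
        refine integral_congr_ae (ae_of_all _ fun x => ?_)
        simp only
        rw [← inner_add_left]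
        congr 1
        unfold Zb
        rw [← smul_add]
        congr 1
        have h3 := Set.indicator_self_add_compl T b
        exact (congrFun h3 _).symm
      rw [e1]
      refine (enorm_add_le _ _).trans ((add_le_add k1 k2).trans ?_)
      have n1 : eLpNorm (T.indicator b) 2 (wM r ds dm) ≤ eLpNorm b 2 (wM r ds dm) := eLpNorm_indicator_le _
      have n2 : eLpNorm (Tᶜ.indicator b) 2 (wM r ds dm) ≤ eLpNorm b 2 (wM r ds dm) := eLpNorm_indicator_le _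
      rw [ENNReal.ofReal_add hC₁.le hC₂.le, add_mul, add_mul]
      exact add_le_add (mul_le_mul' (mul_le_mul' le_rfl n1) le_rfl) (mul_le_mul' (mul_le_mul' le_rfl n2) le_rfl)
    · have hqT : q ∈ Tᶜ := by
        by_contra h
        exact hq (Set.indicator_of_notMem h b)
      rw [Set.indicator_of_mem hqT] at hq
      obtain ⟨g1, g2, g3⟩ := hsup q hq
      refine ⟨g1.resolve_left hqT, g2.trans ?_, g3.trans ?_⟩
      · exact mul_le_mul_of_nonneg_right (min_le_right _ _) hR0.le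
      · exact mul_le_mul_of_nonneg_right (min_le_right _ _) hs
  · have hqT : q ∈ T := by
      by_contra h
      exact hq (Set.indicator_of_notMem h b)
    rw [Set.indicator_of_mem hqT] at hq
    obtain ⟨g1, g2, g3⟩ := hsup q hq
    refine ⟨hqT, g2.trans ?_, g3.trans ?_⟩
    · exact mul_le_mul_of_nonneg_right (min_le_left _ _) hR0.le
    · exact mul_le_mul_of_nonneg_right (min_le_left _ _) hs

theorem glk_empty (S : Setup d F) (φ : Spl dh dm d) (ψ : Spz r ds dh) : glk_P S φ ψ ∅ := by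
  refine ⟨1, 1, 1, one_pos, one_pos, one_pos, fun R _ b _ hsup _ u _ _ => ?_⟩
  have h0 : ∀ q, b q = 0 := by
    intro q
    by_contra h
    exact (hsup q h).1
  have h1 : ∫ x, inner ℂ (Zb φ ψ b R x) (u x) = 0 := by
    simp [Zb, h0]
  rw [h1]
  simp

/-- **GL15** uniform bound over compact sets of regular points -/
theorem gluK_stmt (S : Setup d F) : (∀ S' : Setup d F, GluBdStmt S') → RotStmt S → GluKStmt S := by
  intro hB _ hF dh dm r ds φ ψ K hs hc hK hKR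
  have key : ∃ A : Set (Cfg r), MeasurableSet A ∧ K ⊆ A ∧ glk_P S φ ψ A := by
    refine hK.induction_on (p := fun s => ∃ A : Set (Cfg r), MeasurableSet A ∧ s ⊆ A ∧ glk_P S φ ψ A) ?_ ?_ ?_ ?_
    · exact ⟨∅, MeasurableSet.empty, le_rfl, glk_empty S φ ψ⟩
    · rintro s t hst ⟨A, hA, h1, h2⟩
      exact ⟨A, hA, hst.trans h1, h2⟩
    · rintro s t ⟨A, hA, h1, h2⟩ ⟨B, hB, h3, h4⟩
      exact ⟨A ∪ B, hA.union hB, Set.union_subset_union h1 h3, glk_union S φ ψ hA h2 h4⟩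
    · intro η hη
      obtain ⟨R₀, hR, hstd⟩ := glk_frame S φ ψ hs hc η (hKR hη)
      obtain ⟨δ, hδ, h1⟩ := glk_loc S φ ψ hF η R₀ hR (hB _) hstd
      exact ⟨Metric.closedBall η δ, mem_nhdsWithin_of_mem_nhds (Metric.closedBall_mem_nhds η hδ),
        Metric.closedBall η δ, measurableSet_closedBall, le_rfl, h1⟩
  obtain ⟨A, -, hKA, δ, C, R₁, hδ, hC, hR₁, H⟩ := key
  refine ⟨δ, C, R₁, hδ, hC, hR₁, fun R hR b hb hsup hbm u hu hG => ?_⟩
  exact H R hR b hb (fun q hq => ⟨hKA (hsup q hq).1, (hsup q hq).2⟩) hbm u hu hG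

end Vale.Agent.P353.Z.AN
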