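import Vale.Agent.P353.AN.GL.Stmt

/-! # P353, all `N`, block GL3: measurability and scaling -/

open MeasureTheory Filter Topology
open scoped ContDiff

namespace Vale.Agent.P353.Z.AN

variable {d dh dm r ds : ℕ} {F : Type*} [NormedAddCommGroup F] [InnerProductSpace ℂ F]

theorem mea824_hzs (ψ : Spz r ds dh) :
    MeasurePreserving (fun y : Cfg dh => (hz ψ y, hs ψ y)) volume (volume.prod volume) := by
  let e : Fin 9 × Fin dh ≃ (Fin 9 × Fin r) ⊕ (Fin 9 × Fin ds) :=
    (Equiv.prodCongr (Equiv.refl _) ψ.symm).trans (Equiv.prodSumDistrib _ _ _)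
  have m1 := PiLp.volume_preserving_ofLp (Fin 9 × Fin dh)
  have m2 := (volume_measurePreserving_piCongrLeft (fun _ : Fin 9 × Fin dh => ℝ) e.symm).symm
  have m3 := volume_measurePreserving_sumPiEquivProdPi
    (fun _ : (Fin 9 × Fin r) ⊕ (Fin 9 × Fin ds) => ℝ)
  have n2 := PiLp.volume_preserving_toLp (Fin 9 × Fin r)
  have n3 := PiLp.volume_preserving_toLp (Fin 9 × Fin ds)
  exact (n2.prod n3).comp (m3.comp (m2.comp m1))

theorem mea824_chz (ψ : Spz r ds dh) : Continuous (hz ψ) := by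
  unfold hz; fun_prop

theorem mea824_chs (ψ : Spz r ds dh) : Continuous (hs ψ) := by
  unfold hs; fun_prop

theorem mea824_cpm (φ : Spl dh dm d) : Continuous (pm φ) := by
  unfold pm; fun_prop

theorem mea824_czy (φ : Spl dh dm d) : Continuous (zy φ : Cfg d → Cfg dh) := by
  unfold zy; fun_prop

theorem mea824_cDy (S : Setup d F) (φ : Spl dh dm d) (i : Fin 9) : Continuous fun y : Cfg dh => S.Dy φ i y := by
  unfold Setup.Dy Setup.Dm
  refine continuous_matrix fun B C => ?_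
  simp only [Matrix.of_apply]
  fun_prop

theorem mea824_cJd (S : Setup d F) (φ : Spl dh dm d) : Continuous fun y : Cfg dh => S.Jd φ y :=
  ((mea824_cDy S φ 8).matrix_det).abs

theorem mea824_ccmb (ψ : Spz r ds dh) : Continuous fun η : Cfg r => cmb ψ η 0 := by
  unfold cmb
  refine (PiLp.continuous_toLp 2 _).comp (continuous_pi fun p => ?_)
  rcases ψ.symm p.2 with a | b
  · simp only [Sum.elim_inl]; fun_prop
  · simp only [Sum.elim_inr]; fun_prop

theorem mea824_cDz (S : Setup d F) (φ : Spl dh dm d) (ψ : Spz r ds dh) (i : Fin 9) :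
    Continuous fun η : Cfg r => Dz S φ ψ η i := (mea824_cDy S φ i).comp (mea824_ccmb ψ)

theorem mea824_cxi (S : Setup d F) (φ : Spl dh dm d) (ψ : Spz r ds dh) :
    Continuous fun q : (Cfg r × Cfg ds × Wsp dm) × EuclideanSpace ℝ (Fin dm) => xi (Dz S φ ψ q.1.1) q.1.2.2 q.2 := by
  unfold xi
  refine (PiLp.continuous_toLp 2 _).comp (continuous_pi fun p => ?_)
  refine Continuous.sub ?_ ?_
  · unfold wt
    rcases p with ⟨i, B⟩
    refine Fin.lastCases ?_ (fun j => ?_) i
    · simp only [Fin.lastCases_last]; fun_prop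
    · simp only [Fin.lastCases_castSucc]; fun_prop
  · refine continuous_finsetSum _ fun C _ => ?_
    refine Continuous.mul ?_ (by fun_prop)
    exact ((mea824_cDz S φ ψ p.1).comp (continuous_fst.comp continuous_fst)).matrix_elem _ _

theorem mea824_ctub (S : Setup d F) (φ : Spl dh dm d) (h : ContDiff ℝ ∞ (tz S φ)) :
    Continuous fun q : (Cfg dh × Wsp dm) × EuclideanSpace ℝ (Fin dm) => tub S φ q.2 q.1 := by
  let g : (Cfg dh × Wsp dm) × EuclideanSpace ℝ (Fin dm) → Cfg d := fun q =>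
    WithLp.toLp 2 fun p => Sum.elim (fun A => q.1.1 (p.1, A))
      (fun B => Fin.lastCases (motive := fun _ => ℝ) (q.2 B) (fun j => q.1.2 (j, B)) p.1) (φ.symm p.2)
  have hg : Continuous g := by
    refine (PiLp.continuous_toLp 2 _).comp (continuous_pi fun p => ?_)
    rcases φ.symm p.2 with a | b
    · simp only [Sum.elim_inl]; fun_prop
    · simp only [Sum.elim_inr]
      rcases p with ⟨i, B⟩
      refine Fin.lastCases ?_ (fun j => ?_) i
      · simp only [Fin.lastCases_last]; fun_prop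
      · simp only [Fin.lastCases_castSucc]; fun_prop
  have h8 : (8 : Fin 9) = Fin.last 8 := rfl
  have h1 : ∀ q, zm φ (g q) = q.2 := by
    intro q
    ext B
    simp only [zm, g, Equiv.symm_apply_apply, Sum.elim_inr, h8, Fin.lastCases_last]
  have h2 : ∀ q, zy φ (g q) = q.1.1 := by
    intro q
    ext p
    simp [zy, g]
  have h3 : ∀ q, zw φ (g q) = q.1.2 := by
    intro q
    ext p
    simp [zw, g]
  have : (fun q : (Cfg dh × Wsp dm) × EuclideanSpace ℝ (Fin dm) => tub S φ q.2 q.1) = fun q => tz S φ (g q) := by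
    funext q
    simp only [tz, h1, h2, h3]
  rw [this]
  exact h.continuous.comp hg

theorem mea824_cexm (φ : Spl dh dm d) : Continuous (exm φ : EuclideanSpace ℝ (Fin dm) → Fin d → ℝ) := by
  unfold exm
  refine continuous_pi fun A => ?_
  rcases φ.symm A with a | b
  · simp only [Sum.elim_inl]; fun_prop
  · simp only [Sum.elim_inr]; fun_prop

theorem mea824_sc (ψ : Spz r ds dh) (R : ℝ) (v : Cfg r → Cfg ds → Wsp dm → F) (hR : 0 < R)
    (hv : StronglyMeasurable (fun q : Cfg r × Cfg ds × Wsp dm => v q.1 q.2.1 q.2.2)) :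
    StronglyMeasurable (fun p : Cfg dh × Wsp dm => Ts0 ψ v R p.1 p.2) ∧
    ∫⁻ p : Cfg dh × Wsp dm, ‖Ts0 ψ v R p.1 p.2‖ₑ ^ 2 ∂(volume.prod volume) =
      ∫⁻ q : Cfg r × Cfg ds × Wsp dm, ‖v q.1 q.2.1 q.2.2‖ₑ ^ 2 ∂(volume.prod (volume.prod volume)) := by
  have hc : Continuous fun p : Cfg dh × Wsp dm => ((R⁻¹ • hz ψ p.1, hs ψ p.1, Real.sqrt R • p.2) : Cfg r × Cfg ds × Wsp dm) := by
    have a1 := mea824_chz ψ
    have a2 := mea824_chs ψ
    fun_prop
  have hS : StronglyMeasurable (fun p : Cfg dh × Wsp dm => Ts0 ψ v R p.1 p.2) := by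
    unfold Ts0
    exact (hv.comp_measurable hc.measurable).const_smul _
  refine ⟨hS, ?_⟩
  set c : ℝ := R ^ (2 * (dm : ℝ) - 9 * (r : ℝ) / 2) with hcdef
  have hc0 : 0 < c := Real.rpow_pos_of_pos hR _
  have e1 : ∀ p : Cfg dh × Wsp dm, ‖Ts0 ψ v R p.1 p.2‖ₑ ^ 2 =
      ENNReal.ofReal (c ^ 2) * ‖v (R⁻¹ • hz ψ p.1) (hs ψ p.1) (Real.sqrt R • p.2)‖ₑ ^ 2 := by
    intro p
    unfold Ts0
    rw [enorm_smul, mul_pow, ← hcdef]
    congr 1
    rw [ENNReal.ofReal_pow hc0.le]
    congr 1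
    rw [← ofReal_norm, Complex.norm_real, Real.norm_of_nonneg hc0.le]
  simp only [e1]
  have hvm : Measurable fun q : Cfg r × Cfg ds × Wsp dm => ‖v q.1 q.2.1 q.2.2‖ₑ ^ 2 := (hv.enorm).pow_const 2
  have hm2 : Measurable fun p : Cfg dh × Wsp dm =>
      ‖v (R⁻¹ • hz ψ p.1) (hs ψ p.1) (Real.sqrt R • p.2)‖ₑ ^ 2 := hvm.comp hc.measurable
  rw [lintegral_const_mul _ hm2]
  -- rearrangement
  have m1 : MeasurePreserving (fun p : Cfg dh × Wsp dm => (hz ψ p.1, (hs ψ p.1, p.2)))
      (volume.prod volume) (volume.prod (volume.prod volume)) := by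
    have k1 := (mea824_hzs ψ).prod (MeasurePreserving.id (volume : Measure (Wsp dm)))
    exact (measurePreserving_prodAssoc (volume : Measure (Cfg r)) (volume : Measure (Cfg ds))
      (volume : Measure (Wsp dm))).comp k1
  have hsq : 0 < Real.sqrt R := Real.sqrt_pos.2 hR
  have e2 : ∫⁻ p : Cfg dh × Wsp dm, ‖v (R⁻¹ • hz ψ p.1) (hs ψ p.1) (Real.sqrt R • p.2)‖ₑ ^ 2 ∂(volume.prod volume) =
      ∫⁻ q : Cfg r × Cfg ds × Wsp dm, ‖v (R⁻¹ • q.1) q.2.1 (Real.sqrt R • q.2.2)‖ₑ ^ 2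
        ∂(volume.prod (volume.prod volume)) := by
    have hm3 : Measurable fun q : Cfg r × Cfg ds × Wsp dm =>
        ‖v (R⁻¹ • q.1) q.2.1 (Real.sqrt R • q.2.2)‖ₑ ^ 2 := by
      have : Continuous fun q : Cfg r × Cfg ds × Wsp dm =>
          ((R⁻¹ • q.1, q.2.1, Real.sqrt R • q.2.2) : Cfg r × Cfg ds × Wsp dm) := by fun_prop
      exact hvm.comp this.measurable
    exact m1.lintegral_comp hm3
  rw [e2]
  have e3 : Measure.map (fun q : Cfg r × Cfg ds × Wsp dm =>
      ((R⁻¹ • q.1, (q.2.1, Real.sqrt R • q.2.2)) : Cfg r × Cfg ds × Wsp dm)) (volume.prod (volume.prod volume)) =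
      (ENNReal.ofReal |((R⁻¹) ^ Module.finrank ℝ (Cfg r))⁻¹| • (volume : Measure (Cfg r))).prod
        ((volume : Measure (Cfg ds)).prod
          (ENNReal.ofReal |((Real.sqrt R) ^ Module.finrank ℝ (Wsp dm))⁻¹| • (volume : Measure (Wsp dm)))) := by
    rw [← Measure.map_addHaar_smul (volume : Measure (Cfg r)) (inv_pos.2 hR).ne',
      ← Measure.map_addHaar_smul (volume : Measure (Wsp dm)) hsq.ne']
    have k1 : (volume : Measure (Cfg ds)).prod (Measure.map (fun x : Wsp dm => Real.sqrt R • x) volume) =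
        Measure.map (Prod.map id (fun x : Wsp dm => Real.sqrt R • x)) ((volume : Measure (Cfg ds)).prod volume) := by
      conv_lhs => rw [← Measure.map_id (μ := (volume : Measure (Cfg ds)))]
      rw [Measure.map_prod_map _ _ measurable_id (measurable_const_smul _)]
    rw [k1, Measure.map_prod_map _ _ (measurable_const_smul _)
      (measurable_id.prodMap (measurable_const_smul _))]
    rfl
  have e4 : ∫⁻ q : Cfg r × Cfg ds × Wsp dm, ‖v (R⁻¹ • q.1) q.2.1 (Real.sqrt R • q.2.2)‖ₑ ^ 2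
        ∂(volume.prod (volume.prod volume)) =
      ∫⁻ q : Cfg r × Cfg ds × Wsp dm, ‖v q.1 q.2.1 q.2.2‖ₑ ^ 2 ∂(Measure.map (fun q : Cfg r × Cfg ds × Wsp dm =>
      ((R⁻¹ • q.1, (q.2.1, Real.sqrt R • q.2.2)) : Cfg r × Cfg ds × Wsp dm)) (volume.prod (volume.prod volume))) := by
    rw [lintegral_map hvm (by fun_prop)]
  rw [e4, e3, Measure.prod_smul_right, Measure.prod_smul_left, Measure.prod_smul_right]
  rw [lintegral_smul_measure, lintegral_smul_measure, smul_eq_mul, smul_eq_mul, ← mul_assoc, ← mul_assoc]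
  have e5 : ENNReal.ofReal (c ^ 2) * ENNReal.ofReal |((R⁻¹) ^ Module.finrank ℝ (Cfg r))⁻¹| *
      ENNReal.ofReal |((Real.sqrt R) ^ Module.finrank ℝ (Wsp dm))⁻¹| = 1 := by
    rw [← ENNReal.ofReal_mul (by positivity), ← ENNReal.ofReal_mul (by positivity)]
    rw [← ENNReal.ofReal_one]
    congr 1
    have f1 : Module.finrank ℝ (Cfg r) = 9 * r := by simp
    have f2 : Module.finrank ℝ (Wsp dm) = 8 * dm := by simp
    rw [f1, f2, abs_of_pos (by positivity), abs_of_pos (by positivity)]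
    have g1 : Real.sqrt R ^ (8 * dm) = R ^ ((4 * dm : ℕ) : ℝ) := by
      rw [Real.rpow_natCast, show 8 * dm = 2 * (4 * dm) by ring, pow_mul, Real.sq_sqrt hR.le]
    have g2 : (R⁻¹ ^ (9 * r))⁻¹ = R ^ ((9 * r : ℕ) : ℝ) := by
      rw [Real.rpow_natCast, inv_pow, inv_inv]
    rw [g1, g2, hcdef, ← Real.rpow_natCast (R ^ (2 * (dm : ℝ) - 9 * (r : ℝ) / 2)) 2, ← Real.rpow_mul hR.le,
      ← Real.rpow_neg hR.le, ← Real.rpow_add hR, ← Real.rpow_add hR]
    have : (2 * (dm : ℝ) - 9 * (r : ℝ) / 2) * ((2 : ℕ) : ℝ) + ((9 * r : ℕ) : ℝ) + -((4 * dm : ℕ) : ℝ) = 0 := by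
      push_cast; ring
    rw [this, Real.rpow_zero]
  rw [e5, one_mul]

theorem mea_stmt (S : Setup d F) (h : DetStmt S) (h1 : EqvStmt S) : MeaStmt S := by
  intro hF dh dm r ds φ ψ hsub
  obtain ⟨-, -, hspn, -, -⟩ := h1 hF
  obtain ⟨htz, -⟩ := h dh dm φ hsub
  refine ⟨fun j ρ Z hj hZ => ?_, fun R b hb => ⟨?_, ?_⟩, fun R v hR hv => mea824_sc ψ R v hR hv⟩
  · unfold Zt
    refine StronglyMeasurable.smul ?_ ?_
    · have : Continuous fun p : Cfg dh × Wsp dm => ((Real.sqrt (S.Jd φ p.1) : ℝ) : ℂ) :=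
        Complex.continuous_ofReal.comp (Real.continuous_sqrt.comp ((mea824_cJd S φ).comp continuous_fst))
      exact this.stronglyMeasurable
    · refine StronglyMeasurable.integral_prod_right' (f := fun q : (Cfg dh × Wsp dm) × EuclideanSpace ℝ (Fin dm) =>
        ((j q.2 : ℝ) : ℂ) • spn S (-(exm φ q.2)) (Z (tub S φ q.2 q.1))) ?_
      refine StronglyMeasurable.smul ?_ ?_
      · exact (Complex.continuous_ofReal.comp (hj.comp continuous_snd)).stronglyMeasurable
      · have k1 : StronglyMeasurable fun q : (Cfg dh × Wsp dm) × EuclideanSpace ℝ (Fin dm) =>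
            spn S (-(exm φ q.2)) :=
          (hspn.comp ((mea824_cexm φ).comp continuous_snd).neg).stronglyMeasurable
        have k2 : StronglyMeasurable fun q : (Cfg dh × Wsp dm) × EuclideanSpace ℝ (Fin dm) =>
            Z (tub S φ q.2 q.1) := hZ.comp_measurable (mea824_ctub S φ htz).measurable
        exact (isBoundedBilinearMap_apply (𝕜 := ℂ) (E := F) (F := F)).continuous.comp_stronglyMeasurable (k1.prodMk k2)
  · unfold Zb
    refine StronglyMeasurable.const_smul ?_ _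
    have a1 := mea824_chz ψ
    have a2 := mea824_chs ψ
    have a3 := mea824_cpm φ
    have a4 := mea824_czy φ
    have : Continuous fun x : Cfg d => ((R⁻¹ • hz ψ (zy φ x), hs ψ (zy φ x), Real.sqrt R • pm φ x) :
        Cfg r × Cfg ds × Cfg dm) := by fun_prop
    exact hb.comp_measurable this.measurable
  · unfold Vb
    refine StronglyMeasurable.smul ?_ ?_
    · have : Continuous fun q : Cfg r × Cfg ds × Wsp dm => ((Real.sqrt |(Dz S φ ψ q.1 8).det| : ℝ) : ℂ) :=
        Complex.continuous_ofReal.comp (Real.continuous_sqrt.comp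
          ((mea824_cDz S φ ψ 8).matrix_det.abs.comp continuous_fst))
      exact this.stronglyMeasurable
    · refine StronglyMeasurable.integral_prod_right' (f := fun q : (Cfg r × Cfg ds × Wsp dm) × EuclideanSpace ℝ (Fin dm) =>
        b (q.1.1, q.1.2.1, xi (Dz S φ ψ q.1.1) q.1.2.2 q.2)) ?_
      have a1 := mea824_cxi (ds := ds) S φ ψ
      have : Continuous fun q : (Cfg r × Cfg ds × Wsp dm) × EuclideanSpace ℝ (Fin dm) =>
          ((q.1.1, q.1.2.1, xi (Dz S φ ψ q.1.1) q.1.2.2 q.2) : Cfg r × Cfg ds × Cfg dm) := by fun_prop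
      exact hb.comp_measurable this.measurable

end Vale.Agent.P353.Z.AN
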