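import Vale.Agent.P353.AN.L.CrdB

/-! # P353, all `N`, block GL9: `MomStmt` (prover helper655) -/

open MeasureTheory Filter Topology Matrix
open scoped ContDiff ENNReal

namespace Vale.Agent.P353.Z.AN

/-- tails of an integrable function -/
theorem mom655_tail {dm : ℕ} (f : Cfg dm → ℝ) (hf : Integrable f) {e : ℝ} (he : 0 < e) :
    ∃ L : ℝ, 0 < L ∧ ∫⁻ X in {X : Cfg dm | L ≤ ‖X‖}, ENNReal.ofReal (f X) ≤ ENNReal.ofReal e := by
  have hfin : ∫⁻ X, ENNReal.ofReal (f X) ≠ ⊤ :=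
    (lt_of_le_of_lt (lintegral_mono fun X => Real.ofReal_le_enorm (f X)) hf.2).ne
  have hanti : Antitone fun n : ℕ => {X : Cfg dm | (n : ℝ) + 1 ≤ ‖X‖} := by
    intro m n hmn X hX
    have : (m : ℝ) ≤ n := by exact_mod_cast hmn
    simp only [Set.mem_ofPred_eq] at hX ⊢
    linarith
  have hm : ∀ n : ℕ, MeasurableSet {X : Cfg dm | (n : ℝ) + 1 ≤ ‖X‖} := fun n =>
    measurableSet_le measurable_const (by fun_prop)
  have hint : (⋂ n : ℕ, {X : Cfg dm | (n : ℝ) + 1 ≤ ‖X‖}) = ∅ := by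
    ext X
    simp only [Set.mem_iInter, Set.mem_ofPred_eq, Set.mem_empty_iff_false, iff_false, not_forall, not_le]
    obtain ⟨n, hn⟩ := exists_nat_gt ‖X‖
    exact ⟨n, by linarith⟩
  have hfin' : IsFiniteMeasure ((volume : Measure (Cfg dm)).withDensity fun X => ENNReal.ofReal (f X)) :=
    isFiniteMeasure_withDensity hfin
  have ht := tendsto_measure_iInter_atTop (μ := (volume : Measure (Cfg dm)).withDensity fun X => ENNReal.ofReal (f X))
    (fun n => (hm n).nullMeasurableSet) hanti ⟨0, measure_ne_top _ _⟩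
  rw [hint, measure_empty] at ht
  have hev := (ENNReal.tendsto_nhds_zero.1 ht) (ENNReal.ofReal e) (ENNReal.ofReal_pos.2 he)
  obtain ⟨n, hn⟩ := hev.exists
  refine ⟨(n : ℝ) + 1, by positivity, ?_⟩
  rwa [Function.comp_apply, withDensity_apply _ (hm n)] at hn

/-- **GL9** -/
theorem mom_stmt : MomStmt := by
  intro r dm κ z₀ δ D Om hκ hδ hOm hOc
  set A : Set (Cfg r) := {η | ‖η - z₀‖ ≤ δ} with hAdef
  have hA : IsCompact A := by
    have : A = Metric.closedBall z₀ δ := by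
      ext η
      rw [hAdef, Set.mem_ofPred_eq, mem_closedBall_iff_norm]
    rw [this]
    exact isCompact_closedBall _ _
  have hO : ∀ B C, ContinuousOn (fun η => Om η B C) A := fun B C =>
    (continuous_apply_apply B C).comp_continuousOn hOc
  have hI : ∀ η ∈ A, IsOm κ (D η) (Om η) := fun η hη => (hOm η hη).2
  refine ⟨AL.lin_Nf_cont hκ hA hO hI, fun ε hε => ?_⟩
  obtain ⟨c, hc, hcl⟩ := AL.lin_ulow hA (fun η X => qX (Om η) X) (AL.lin_qX_cont hO) (fun η => gau_qX_smul (Om η))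
    (fun η hη => gau_qX_pos (hI η hη))
  obtain ⟨N, hN⟩ := hA.exists_bound_of_continuousOn (AL.lin_Nf_cont hκ hA hO hI)
  obtain ⟨M, hM, hMl⟩ := AL.crd655_poly (dm + 1) hc
  have hgi : Integrable fun X : Cfg dm => Real.exp (-(c / 2 * ‖X‖ ^ 2)) := gau_int_sq (half_pos hc)
  have hfi : Integrable fun X : Cfg dm => N ^ 2 * M * Real.exp (-(c / 2 * ‖X‖ ^ 2)) := hgi.const_mul _
  have hpt : ∀ η ∈ A, ∀ X : Cfg dm, (1 + ‖X‖ ^ 2) ^ (dm + 1) * (Nf κ (Om η) * Real.exp (-(1 / 2) * qX (Om η) X)) ^ 2 ≤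
      N ^ 2 * M * Real.exp (-(c / 2 * ‖X‖ ^ 2)) := by
    intro η hη X
    have h1 : Nf κ (Om η) ^ 2 ≤ N ^ 2 := by
      have h := hN η hη
      rw [Real.norm_eq_abs] at h
      rw [← sq_abs]
      gcongr
    have h2 : Real.exp (-(1 / 2) * qX (Om η) X) ^ 2 ≤ Real.exp (-(c * ‖X‖ ^ 2)) := by
      rw [← Real.exp_nat_mul, Real.exp_le_exp]
      have := hcl η hη X
      push_cast
      linarith
    rw [mul_pow]
    calc (1 + ‖X‖ ^ 2) ^ (dm + 1) * (Nf κ (Om η) ^ 2 * Real.exp (-(1 / 2) * qX (Om η) X) ^ 2)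
        ≤ (1 + ‖X‖ ^ 2) ^ (dm + 1) * (N ^ 2 * Real.exp (-(c * ‖X‖ ^ 2))) := by gcongr
      _ = N ^ 2 * ((1 + ‖X‖ ^ 2) ^ (dm + 1) * Real.exp (-(c * ‖X‖ ^ 2))) := by ring
      _ ≤ N ^ 2 * (M * Real.exp (-(c / 2 * ‖X‖ ^ 2))) :=
          mul_le_mul_of_nonneg_left (hMl _ (by positivity)) (sq_nonneg N)
      _ = _ := by ring
  obtain ⟨L, hL, hLt⟩ := mom655_tail _ hfi hε
  have hI0 : 0 ≤ ∫ X : Cfg dm, N ^ 2 * M * Real.exp (-(c / 2 * ‖X‖ ^ 2)) :=
    integral_nonneg fun X => by positivity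
  refine ⟨(∫ X : Cfg dm, N ^ 2 * M * Real.exp (-(c / 2 * ‖X‖ ^ 2))) + 1, L, by linarith, hL, fun η hη => ⟨?_, ?_⟩⟩
  · refine le_trans ?_ (ENNReal.ofReal_le_ofReal (le_add_of_nonneg_right zero_le_one))
    rw [ofReal_integral_eq_lintegral_ofReal hfi (Eventually.of_forall fun X => by positivity)]
    exact lintegral_mono fun X => ENNReal.ofReal_le_ofReal (hpt η hη X)
  · exact (lintegral_mono fun X => ENNReal.ofReal_le_ofReal (hpt η hη X)).trans hLt

end Vale.Agent.P353.Z.AN
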