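import Vale.Agent.P353.AN.GL.Stmt
import Vale.Agent.P353.AN.A.Dexp
import Vale.Agent.P353.AN.A.TubeF

/-! # P353, all `N`, block GL4: pairing of a functional supported in the tube with a gauge invariant function -/

open MeasureTheory Filter Topology
open scoped ContDiff

namespace Vale.Agent.P353.Z.AN

variable {d dh dm r ds : ℕ} {F : Type*} [NormedAddCommGroup F] [InnerProductSpace ℂ F]

theorem pr489_exm_cont (φ : Spl dh dm d) :
    Continuous (exm φ : EuclideanSpace ℝ (Fin dm) → Fin d → ℝ) := by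
  refine continuous_pi fun A => ?_
  unfold exm
  rcases φ.symm A with x | B
  · simp only [Sum.elim_inl]
    exact continuous_const
  · simp only [Sum.elim_inr]
    fun_prop

theorem pr489_tub_cont (S : Setup d F) (φ : Spl dh dm d) :
    Continuous (fun q : EuclideanSpace ℝ (Fin dm) × (Cfg dh × Wsp dm) => tub S φ q.1 q.2) := by
  have h := (dexp_stmt S).2.1.continuous
  exact h.comp (((pr489_exm_cont φ).comp continuous_fst).prodMk
    ((tbf_continuous_emb φ).comp continuous_snd))

theorem pr489_nb_open (y₀ : Cfg dh) (dm : ℕ) (R ε : ℝ) : IsOpen (Nb y₀ dm R ε) := by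
  unfold Nb
  refine IsOpen.and ?_ ?_
  · exact isOpen_lt (by fun_prop) continuous_const
  · exact isOpen_lt (by fun_prop) continuous_const

/-- the density is integrable on the box -/
theorem pr489_fin (S : Setup d F) (φ : Spl dh dm d) (y₀ : Cfg dh) (R ε ρ : ℝ)
    (j : EuclideanSpace ℝ (Fin dm) → ℝ) (hj : Continuous j) :
    ∫⁻ q in (Metric.ball (0 : EuclideanSpace ℝ (Fin dm)) ρ) ×ˢ (Nb y₀ dm R ε),
      ENNReal.ofReal (S.Jd φ q.2.1 * j q.1) ∂(volume.prod (volume.prod volume)) < ⊤ := by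
  have hK : IsCompact ((Metric.closedBall (0 : EuclideanSpace ℝ (Fin dm)) ρ) ×ˢ
      ((Metric.closedBall (R • y₀) (ε * R)) ×ˢ (Metric.closedBall (0 : Wsp dm) (ε * R)))) :=
    (isCompact_closedBall _ _).prod ((isCompact_closedBall _ _).prod (isCompact_closedBall _ _))
  have hc : Continuous (fun q : EuclideanSpace ℝ (Fin dm) × (Cfg dh × Wsp dm) => S.Jd φ q.2.1 * j q.1) :=
    ((tbf_continuous_Jd S φ).comp (continuous_fst.comp continuous_snd)).mul (hj.comp continuous_fst)
  have hi : IntegrableOn (fun q : EuclideanSpace ℝ (Fin dm) × (Cfg dh × Wsp dm) => S.Jd φ q.2.1 * j q.1)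
      ((Metric.closedBall (0 : EuclideanSpace ℝ (Fin dm)) ρ) ×ˢ
      ((Metric.closedBall (R • y₀) (ε * R)) ×ˢ (Metric.closedBall (0 : Wsp dm) (ε * R))))
      (volume.prod (volume.prod volume)) := hc.continuousOn.integrableOn_compact hK
  refine (hi.mono_set ?_).lintegral_lt_top
  intro q hq
  refine ⟨Metric.ball_subset_closedBall hq.1, ?_, ?_⟩
  · rw [Metric.mem_closedBall, dist_eq_norm]
    exact hq.2.1.le
  · rw [Metric.mem_closedBall, dist_zero_right]
    exact hq.2.2.le

theorem pair_stmt (S : Setup d F) : TubeJStmt S → EqvStmt S → MeaStmt S → PairStmt S := by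
  intro hT hE _ hfd dh dm φ y₀ hS
  have : CompleteSpace F := FiniteDimensional.complete ℂ F
  obtain ⟨ε₀, ρ₀, hε₀, hρ₀, j, hj, hj0, hj1, hform⟩ := hT dh dm φ y₀ hS
  obtain ⟨hn, hadj, hspc, hsp0, heq⟩ := hE hfd
  refine ⟨ε₀, ρ₀, hε₀, hρ₀, j, hj, hj0, hj1, ?_⟩
  intro ε ρ hε hε' hρ hρ' R hR
  obtain ⟨hl, hi⟩ := hform ε ρ hε hε' hρ hρ' R hR
  refine ⟨hl, ?_⟩
  intro Z u hZm hZ2 hsupp hu hG
  set B : Set (EuclideanSpace ℝ (Fin dm)) := Metric.ball 0 ρ with hB
  set N : Set (Cfg dh × Wsp dm) := Nb y₀ dm R ε with hN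
  set T : Set (Cfg d) := Tube S φ y₀ R ε ρ with hTd
  have hNo : IsOpen N := pr489_nb_open y₀ dm R ε
  have hBN : MeasurableSet (B ×ˢ N) := Metric.isOpen_ball.measurableSet.prod hNo.measurableSet
  have htub := pr489_tub_cont S φ (dh := dh)
  -- the tube has finite volume
  have hTfin : volume T < ⊤ := by
    have h1 := hl (fun _ => 1) measurable_const
    rw [setLIntegral_one] at h1
    rw [h1]
    simp only [one_mul]
    exact pr489_fin S φ y₀ R ε ρ j hj
  have : IsFiniteMeasure (volume.restrict T) := ⟨by rwa [Measure.restrict_apply_univ]⟩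
  have hZ1 : Integrable Z (volume.restrict T) :=
    memLp_one_iff_integrable.1 ((hZ2.restrict T).mono_exponent (by norm_num))
  have hZl : ∫⁻ x in T, ‖Z x‖ₑ < ⊤ := hZ1.hasFiniteIntegral
  have hl2 := hl (fun x => ‖Z x‖ₑ) hZm.enorm
  -- the vector valued integrand
  set Ψ : EuclideanSpace ℝ (Fin dm) × (Cfg dh × Wsp dm) → F := fun q =>
    ((S.Jd φ q.2.1 * j q.1 : ℝ) : ℂ) • spn S (-(exm φ q.1)) (Z (tub S φ q.1 q.2)) with hΨ
  have hJ0 : ∀ y : Cfg dh, 0 ≤ S.Jd φ y := fun y => abs_nonneg _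
  have hJc := tbf_continuous_Jd S φ (dh := dh)
  have hΨm : StronglyMeasurable Ψ := by
    have m1 : StronglyMeasurable (fun q : EuclideanSpace ℝ (Fin dm) × (Cfg dh × Wsp dm) =>
        Z (tub S φ q.1 q.2)) := hZm.comp_measurable htub.measurable
    have m2 : StronglyMeasurable (fun q : EuclideanSpace ℝ (Fin dm) × (Cfg dh × Wsp dm) =>
        spn S (-(exm φ q.1))) :=
      (hspc.comp ((pr489_exm_cont φ).comp continuous_fst).neg).stronglyMeasurable
    have m3 : StronglyMeasurable (fun q : EuclideanSpace ℝ (Fin dm) × (Cfg dh × Wsp dm) =>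
        spn S (-(exm φ q.1)) (Z (tub S φ q.1 q.2))) :=
      (isBoundedBilinearMap_apply (𝕜 := ℂ) (E := F) (F := F)).continuous.comp_stronglyMeasurable
        (m2.prodMk m1)
    have m4 : StronglyMeasurable (fun q : EuclideanSpace ℝ (Fin dm) × (Cfg dh × Wsp dm) =>
        ((S.Jd φ q.2.1 * j q.1 : ℝ) : ℂ)) :=
      (Complex.continuous_ofReal.comp ((hJc.comp (continuous_fst.comp continuous_snd)).mul
        (hj.comp continuous_fst))).stronglyMeasurable
    exact m4.smul m3
  have hΨn : ∀ q, ‖Ψ q‖ₑ = ‖Z (tub S φ q.1 q.2)‖ₑ * ENNReal.ofReal (S.Jd φ q.2.1 * j q.1) := by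
    intro q
    rw [hΨ]
    simp only
    rw [enorm_smul, mul_comm, ← ofReal_norm (spn S _ _), hn, ofReal_norm,
      ← ofReal_norm (((S.Jd φ q.2.1 * j q.1 : ℝ) : ℂ)), Complex.norm_real,
      Real.norm_of_nonneg (mul_nonneg (hJ0 _) (hj0 _))]
  have hΨi : Integrable Ψ ((volume.prod (volume.prod volume)).restrict (B ×ˢ N)) := by
    refine ⟨hΨm.aestronglyMeasurable, ?_⟩
    rw [hasFiniteIntegral_iff_enorm]
    simp only [hΨn]
    rw [← hl2]
    exact hZl
  obtain ⟨C, hC⟩ := hu.2.exists_bound_of_continuous hu.1.continuous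
  have hemb := tbf_continuous_emb φ (d := d) (dh := dh) (dm := dm)
  have huc : Continuous fun p : Cfg dh × Wsp dm => u (emb φ p.1 p.2) := hu.1.continuous.comp hemb
  -- the scalar integrand
  have hscal : ∀ q : EuclideanSpace ℝ (Fin dm) × (Cfg dh × Wsp dm),
      ((S.Jd φ q.2.1 * j q.1 : ℝ) : ℂ) * inner ℂ (Z (tub S φ q.1 q.2)) (u (tub S φ q.1 q.2)) =
        inner ℂ (Ψ q) (u (emb φ q.2.1 q.2.2)) := by
    intro q
    have e1 : u (tub S φ q.1 q.2) = spn S (exm φ q.1) (u (emb φ q.2.1 q.2.2)) :=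
      heq u hu.1 hG (exm φ q.1) (emb φ q.2.1 q.2.2)
    have e2 := hadj (-(exm φ q.1)) (Z (tub S φ q.1 q.2)) (u (emb φ q.2.1 q.2.2))
    rw [neg_neg] at e2
    rw [e1, ← e2, hΨ]
    simp only
    rw [inner_smul_left, Complex.conj_ofReal]
  have hsi : Integrable (fun q => inner ℂ (Ψ q) (u (emb φ q.2.1 q.2.2)))
      ((volume.prod (volume.prod volume)).restrict (B ×ˢ N)) := by
    refine (hΨi.norm.mul_const C).mono' ?_ ?_
    · exact hΨi.aestronglyMeasurable.inner (huc.comp continuous_snd).aestronglyMeasurable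
    · refine ae_of_all _ fun q => (norm_inner_le_norm _ _).trans ?_
      exact mul_le_mul_of_nonneg_left (hC _) (norm_nonneg _)
  have hrestr : ((volume : Measure (EuclideanSpace ℝ (Fin dm))).prod
      ((volume : Measure (Cfg dh)).prod (volume : Measure (Wsp dm)))).restrict (B ×ˢ N) =
      ((volume : Measure (EuclideanSpace ℝ (Fin dm))).restrict B).prod
        (((volume : Measure (Cfg dh)).prod (volume : Measure (Wsp dm))).restrict N) :=
    (Measure.prod_restrict B N).symm
  rw [hrestr] at hΨi hsi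
  calc ∫ x, inner ℂ (Z x) (u x) = ∫ x in T, inner ℂ (Z x) (u x) := by
        refine (setIntegral_eq_integral_of_forall_compl_eq_zero fun x hx => ?_).symm
        have : Z x = 0 := by
          by_contra h
          exact hx (hsupp x h)
        rw [this, inner_zero_left]
    _ = ∫ q in B ×ˢ N, inner ℂ (Ψ q) (u (emb φ q.2.1 q.2.2)) ∂(volume.prod (volume.prod volume)) := by
        rw [hi]
        exact integral_congr_ae (ae_of_all _ hscal)
    _ = ∫ p in N, (∫ a in B, inner ℂ (Ψ (a, p)) (u (emb φ p.1 p.2))) ∂(volume.prod volume) := by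
        rw [hrestr]
        exact integral_prod_symm _ hsi
    _ = ∫ p in N, inner ℂ (Zt S φ j ρ Z p) (S.res φ u p.1 p.2) ∂(volume.prod volume) := by
        refine integral_congr_ae ?_
        filter_upwards [hΨi.prod_left_ae] with p hp
        have h1 : ∫ a in B, inner ℂ (Ψ (a, p)) (u (emb φ p.1 p.2)) =
            inner ℂ (∫ a in B, Ψ (a, p)) (u (emb φ p.1 p.2)) := by
          have h2 := integral_inner (𝕜 := ℂ) hp (u (emb φ p.1 p.2))
          have h3 : ∀ a, inner ℂ (Ψ (a, p)) (u (emb φ p.1 p.2)) =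
              (starRingEnd ℂ) (inner ℂ (u (emb φ p.1 p.2)) (Ψ (a, p))) := fun a =>
            (inner_conj_symm _ _).symm
          simp_rw [h3]
          rw [integral_conj, h2, inner_conj_symm]
        have h4 : ∫ a in B, Ψ (a, p) = ((Real.sqrt (S.Jd φ p.1) : ℝ) : ℂ) • Zt S φ j ρ Z p := by
          unfold Zt
          rw [smul_smul, ← Complex.ofReal_mul, Real.mul_self_sqrt (hJ0 _), ← integral_smul]
          refine integral_congr_ae (ae_of_all _ fun a => ?_)
          simp only [hΨ]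
          rw [smul_smul, ← Complex.ofReal_mul]
        rw [h1, h4, Setup.res, inner_smul_left, inner_smul_right, Complex.conj_ofReal]

end Vale.Agent.P353.Z.AN
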