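import Vale.Agent.P353.AN.GL.SfuF
import Vale.Agent.P353.Z.U.InvLemB

/-! # P353, all `N`, block GL: the slice functionals are limits of one global functional (GL12) -/

open MeasureTheory Filter Topology Matrix
open scoped ContDiff ENNReal

namespace Vale.Agent.P353.Z.AN

namespace SfuA

variable {d dh dm ds dz : ℕ} {F : Type*} [NormedAddCommGroup F] [InnerProductSpace ℂ F]

/-! ### the radial cutoff -/

/-- radial cutoff: `1` for `r/2 ≤ |x| ≤ 2r`, `0` off `r/4 < |x| < 4r` (as a function of `|x|²`) -/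
noncomputable def fk (c : ℝ → ℝ) (r t : ℝ) : ℝ := c (t / (16 * r ^ 2)) * (1 - c (4 * t / r ^ 2))

lemma cd_fk {c : ℝ → ℝ} (hc : Ctf c) (r : ℝ) : ContDiff ℝ ∞ (fk c r) := by
  have h1 : ContDiff ℝ ∞ fun t : ℝ => c (t / (16 * r ^ 2)) := hc.sm.comp (contDiff_id.div_const _)
  have h2 : ContDiff ℝ ∞ fun t : ℝ => c (4 * t / r ^ 2) :=
    hc.sm.comp ((contDiff_const.mul contDiff_id).div_const _)
  exact h1.mul (contDiff_const.sub h2)

lemma fk_bd {c : ℝ → ℝ} (hc : Ctf c) (r t : ℝ) : 0 ≤ fk c r t ∧ fk c r t ≤ 1 := by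
  obtain ⟨a1, a2⟩ := hc.bd (t / (16 * r ^ 2))
  obtain ⟨b1, b2⟩ := hc.bd (4 * t / r ^ 2)
  exact ⟨mul_nonneg a1 (by linarith), mul_le_one₀ a2 (by linarith) (by linarith)⟩

lemma fk_one {c : ℝ → ℝ} (hc : Ctf c) {r a : ℝ} (hr : 0 < r) (h1 : r / 2 ≤ a) (h2 : a ≤ 2 * r) :
    fk c r (a ^ 2) = 1 := by
  have ha : 0 ≤ a := by linarith
  unfold fk
  rw [hc.one, hc.zero, sub_zero, one_mul]
  · rw [le_div_iff₀ (by positivity)]
    nlinarith
  · rw [div_le_iff₀ (by positivity)]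
    nlinarith

lemma fk_supp {c : ℝ → ℝ} (hc : Ctf c) {r a : ℝ} (hr : 0 < r) (ha : 0 ≤ a) (h : fk c r (a ^ 2) ≠ 0) :
    r / 4 < a ∧ a < 4 * r := by
  refine ⟨?_, ?_⟩
  · by_contra h1
    apply h
    unfold fk
    rw [hc.one (4 * a ^ 2 / r ^ 2), sub_self, mul_zero]
    rw [div_le_iff₀ (by positivity)]
    have := not_lt.1 h1
    nlinarith
  · by_contra h1
    apply h
    unfold fk
    rw [hc.zero (a ^ 2 / (16 * r ^ 2)), zero_mul]
    rw [le_div_iff₀ (by positivity)]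
    have := not_lt.1 h1
    nlinarith

/-- the truncated function -/
noncomputable def ut (c : ℝ → ℝ) (r : ℝ) (u : Cfg d → F) (x : Cfg d) : F :=
  ((rad (fk c r) x : ℝ) : ℂ) • u x

lemma ginv_ut {c : ℝ → ℝ} (hc : Ctf c) (r : ℝ) {S : Setup d F} {u : Cfg d → F} (hu : AD.GInv S u) :
    AD.GInv S (ut c r u) := by
  refine ⟨⟨(Setup.contDiff_ofReal (contDiff_rad (cd_fk hc r))).smul hu.1.1, ?_⟩, fun C x => ?_⟩
  · exact HasCompactSupport.smul_left (f := fun x : Cfg d => ((rad (fk c r) x : ℝ) : ℂ)) hu.1.2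
  · have h := U.InvL.G_rad S (cd_fk hc r) C u x (hu.1.1.differentiable (by simp) x)
    rw [hu.2 C x, smul_zero] at h
    exact h

lemma mass_ut {c : ℝ → ℝ} (hc : Ctf c) {r : ℝ} (hr : 0 < r) {S : Setup d F} {u : Cfg d → F} (hu : AD.GInv S u) :
    ∫ x, ‖ut c r u x‖ ^ 2 ≤ AD.mas u (AD.shl d (r / 4) (4 * r)) := by
  have hms : MeasurableSet (AD.shl d (r / 4) (4 * r)) := by
    have e1 : IsOpen {x : Cfg d | r / 4 < ‖x‖} := isOpen_lt continuous_const continuous_norm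
    have e2 : IsOpen {x : Cfg d | ‖x‖ < 4 * r} := isOpen_lt continuous_norm continuous_const
    exact (e1.inter e2).measurableSet
  have i1 : Integrable (fun x => ‖ut c r u x‖ ^ 2) (volume : Measure (Cfg d)) :=
    ((ginv_ut hc r hu).1.1.continuous.memLp_of_hasCompactSupport (ginv_ut hc r hu).1.2
      (p := 2)).integrable_norm_pow (by norm_num)
  have i2 : Integrable (fun x => ‖u x‖ ^ 2) (volume : Measure (Cfg d)) :=
    (hu.1.1.continuous.memLp_of_hasCompactSupport hu.1.2 (p := 2)).integrable_norm_pow (by norm_num)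
  unfold AD.mas
  rw [← integral_indicator hms]
  refine integral_mono i1 (i2.indicator hms) fun x => ?_
  simp only
  obtain ⟨b1, b2⟩ := fk_bd hc r (‖x‖ ^ 2)
  have e : ‖ut c r u x‖ = fk c r (‖x‖ ^ 2) * ‖u x‖ := by
    unfold ut rad
    rw [norm_smul, Complex.norm_real, Real.norm_of_nonneg b1]
  by_cases hx : x ∈ AD.shl d (r / 4) (4 * r)
  · rw [Set.indicator_of_mem hx, e]
    refine pow_le_pow_left₀ (mul_nonneg b1 (norm_nonneg _)) ?_ 2
    exact mul_le_of_le_one_left (norm_nonneg _) b2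
  · have h0 : fk c r (‖x‖ ^ 2) = 0 := by
      by_contra h0
      exact hx (fk_supp hc hr (norm_nonneg x) h0)
    rw [Set.indicator_of_notMem hx, e, h0, zero_mul]
    norm_num

lemma ut_one {c : ℝ → ℝ} (hc : Ctf c) {r : ℝ} (hr : 0 < r) (u : Cfg d → F) {x : Cfg d} (h1 : r / 2 ≤ ‖x‖)
    (h2 : ‖x‖ ≤ 2 * r) : ut c r u x = u x := by
  unfold ut rad
  rw [fk_one hc hr h1 h2, Complex.ofReal_one, one_smul]

lemma rng {r R ε a b e N : ℝ} (hr : 0 < r) (hR : 0 < R) (hε : ε ≤ r / 2) (hN : 0 ≤ N) (hb0 : 0 ≤ b) (he0 : 0 ≤ e)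
    (h1 : r * R - ε * R ≤ a) (h2 : a ≤ r * R + ε * R) (hb : b ≤ ε * R) (he : e ≤ ε * R)
    (h : N ^ 2 = a ^ 2 + b ^ 2 + e ^ 2) : r * R / 2 ≤ N ∧ N ≤ 2 * (r * R) := by
  have hrR : 0 < r * R := mul_pos hr hR
  have k1 : ε * R ≤ r * R / 2 := by nlinarith
  have k2 : r * R / 2 ≤ a := by linarith
  have k3 : a ≤ 3 / 2 * (r * R) := by linarith
  have k4 : b ≤ r * R / 2 := by linarith
  have k5 : e ≤ r * R / 2 := by linarith
  have ha0 : 0 ≤ a := by linarith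
  have m1 : (r * R / 2) ^ 2 ≤ a ^ 2 := pow_le_pow_left₀ (by linarith) k2 2
  have m2 : a ^ 2 ≤ (3 / 2 * (r * R)) ^ 2 := pow_le_pow_left₀ ha0 k3 2
  have m3 : b ^ 2 ≤ (r * R / 2) ^ 2 := pow_le_pow_left₀ hb0 k4 2
  have m4 : e ^ 2 ≤ (r * R / 2) ^ 2 := pow_le_pow_left₀ he0 k5 2
  refine ⟨?_, ?_⟩
  · refine le_of_pow_le_pow_left₀ two_ne_zero hN ?_
    rw [h]
    nlinarith [sq_nonneg b, sq_nonneg e]
  · refine le_of_pow_le_pow_left₀ two_ne_zero (by linarith) ?_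
    rw [h]
    nlinarith

lemma near {z₀ z : Cfg dz} {R ε : ℝ} (hR : 0 < R) (h : ‖R⁻¹ • z - z₀‖ < ε) :
    ‖z₀‖ * R - ε * R ≤ ‖z‖ ∧ ‖z‖ ≤ ‖z₀‖ * R + ε * R := by
  have e : z - R • z₀ = R • (R⁻¹ • z - z₀) := by
    rw [smul_sub, smul_smul, mul_inv_cancel₀ hR.ne', one_smul]
  have h1 : ‖z - R • z₀‖ ≤ ε * R := by
    rw [e, norm_smul, Real.norm_of_nonneg hR.le, mul_comm]
    exact mul_le_mul_of_nonneg_right h.le hR.le
  have h2 : ‖R • z₀‖ = ‖z₀‖ * R := by rw [norm_smul, Real.norm_of_nonneg hR.le, mul_comm]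
  have h3 := norm_sub_norm_le z (R • z₀)
  have h4 := norm_sub_norm_le (R • z₀) z
  rw [norm_sub_rev] at h4
  constructor <;> linarith

/-- the truncation does not change the global pairing -/
lemma Zgl_ut [FiniteDimensional ℂ F] (S : Setup d F) (φ : Spl dh dm d) (ψ : Spl ds dz dh) {z₀ : Cfg dz} (hzp : 0 < ‖z₀‖)
    {c : ℝ → ℝ} (hc : Ctf c) {ε R : ℝ} (hε : 0 < ε) (hεz : ε ≤ ‖z₀‖ / 2) (hR : 0 < R) (χ : Cfg dz → ℝ)
    (hχ : ∀ η, χ η ≠ 0 → ‖η - z₀‖ < ε) (o : Cfg ds → F) (u : Cfg d → F) :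
    (∫ x, (inner ℂ (Zgl S φ ψ c ε R χ o x) (ut c (‖z₀‖ * R) u x) : ℂ)) =
      ∫ x, inner ℂ (Zgl S φ ψ c ε R χ o x) (u x) := by
  refine integral_congr_ae (Eventually.of_forall fun x => ?_)
  simp only
  by_cases h0 : Zgl S φ ψ c ε R χ o x = 0
  · rw [h0, inner_zero_left, inner_zero_left]
  · have hq : ((chn c ε R (R⁻¹ • hz (swp ψ) (zy φ x), hs (swp ψ) (zy φ x), Real.sqrt R • pm φ x) : ℝ) : ℂ) •
        bG S.κ (fun η => AD.omc S.κ (AD.Dz S φ ψ η)) (aP S φ ψ χ o)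
          (R⁻¹ • hz (swp ψ) (zy φ x), hs (swp ψ) (zy φ x), Real.sqrt R • pm φ x) ≠ 0 := by
      intro h1
      apply h0
      unfold Zgl Zb
      change _ • (((chn c ε R (R⁻¹ • hz (swp ψ) (zy φ x), hs (swp ψ) (zy φ x), Real.sqrt R • pm φ x) : ℝ) : ℂ) •
        bG S.κ (fun η => AD.omc S.κ (AD.Dz S φ ψ η)) (aP S φ ψ χ o)
          (R⁻¹ • hz (swp ψ) (zy φ x), hs (swp ψ) (zy φ x), Real.sqrt R • pm φ x)) = 0
      rw [h1, smul_zero]
    have h1 : chn c ε R (R⁻¹ • hz (swp ψ) (zy φ x), hs (swp ψ) (zy φ x), Real.sqrt R • pm φ x) ≠ 0 := by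
      intro h
      apply hq
      rw [h, Complex.ofReal_zero, zero_smul]
    have h2 : χ (R⁻¹ • hz (swp ψ) (zy φ x)) ≠ 0 := by
      intro h
      apply hq
      unfold bG aP
      rw [h]
      simp
    obtain ⟨h3, h4⟩ := chn_supp hc hε le_rfl hR _ h1
    simp only at h3 h4
    have hs0 : 0 < Real.sqrt R := Real.sqrt_pos.2 hR
    have h5 : ‖pm φ x‖ ≤ ε * R := by
      rw [norm_smul, Real.norm_of_nonneg hs0.le] at h4
      refine le_of_mul_le_mul_left ?_ hs0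
      calc Real.sqrt R * ‖pm φ x‖ ≤ ε * (R * Real.sqrt R) := h4
        _ = _ := by ring
    obtain ⟨h6, h7⟩ := near hR (hχ _ h2)
    obtain ⟨h8, h9⟩ := rng hzp hR hεz (norm_nonneg x) (norm_nonneg _) (norm_nonneg _) h6 h7 h3 h5
      (sup_norm_sq φ (swp ψ) x)
    rw [ut_one hc (mul_pos hzp hR) u h8 h9]

/-- the truncation does not change the slice functional -/
lemma sfun_ut [FiniteDimensional ℂ F] (S : Setup d F) (φ : Spl dh dm d) (ψ : Spl ds dz dh) (hCmb : AD.CmbStmt) {z₀ : Cfg dz}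
    (hz : 0 < ‖z₀‖) {c : ℝ → ℝ} (hc : Ctf c) {ε R : ℝ} (hεz : ε ≤ ‖z₀‖ / 2) (hR : 0 < R)
    (χ : Cfg dz → ℝ) (hχ : ∀ η, χ η ≠ 0 → ‖η - z₀‖ < ε) (o : Cfg ds → F) (u : Cfg d → F) :
    AD.sfun S φ ψ ε R χ o (ut c (‖z₀‖ * R) u) = AD.sfun S φ ψ ε R χ o u := by
  obtain ⟨-, -, -, hn, -⟩ := hCmb ds dz dh ψ
  unfold AD.sfun
  congr 1
  refine integral_congr_ae (Eventually.of_forall fun yz => ?_)
  simp only
  by_cases h2 : χ (R⁻¹ • yz) = 0
  · rw [h2]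
    simp
  · congr 1
    refine setIntegral_congr_fun measurableSet_ball fun ys hys => ?_
    refine setIntegral_congr_fun measurableSet_ball fun w hw => ?_
    rw [mem_ball_zero_iff] at hys hw
    congr 1
    unfold Setup.res
    congr 1
    obtain ⟨h6, h7⟩ := near hR (hχ _ h2)
    have h8 : ‖emb φ (AD.cmb ψ ys yz) w‖ ^ 2 = ‖yz‖ ^ 2 + ‖ys‖ ^ 2 + ‖w‖ ^ 2 := by
      rw [norm_emb_sq, hn]
      ring
    obtain ⟨h9, h10⟩ := rng hz hR hεz (norm_nonneg _) (norm_nonneg _) (norm_nonneg _) h6 h7 hys.le hw.le h8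
    exact ut_one hc (mul_pos hz hR) u h9 h10

/-! ### change of `o` on a null set -/

lemma sfun_ae [FiniteDimensional ℂ F] (S : Setup d F) (φ : Spl dh dm d) (ψ : Spl ds dz dh) (ε R : ℝ)
    (χ : Cfg dz → ℝ) {o o' : Cfg ds → F} (h : o =ᵐ[volume] o') (u : Cfg d → F) :
    AD.sfun S φ ψ ε R χ o u = AD.sfun S φ ψ ε R χ o' u := by
  unfold AD.sfun
  congr 1
  refine integral_congr_ae (Eventually.of_forall fun yz => ?_)
  simp only
  congr 1
  refine integral_congr_ae (ae_restrict_of_ae ?_)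
  filter_upwards [h] with ys hys
  rw [hys]

lemma qmp_zy (φ : Spl dh dm d) : Measure.QuasiMeasurePreserving (zy φ : Cfg d → Cfg dh) volume volume := by
  obtain ⟨e, he, hmp⟩ := coo_stmt d dh dm φ
  have h1 : (zy φ : Cfg d → Cfg dh) = fun z => (e z).2.1 := by
    funext z
    rw [he]
  rw [h1]
  exact (Measure.quasiMeasurePreserving_fst.comp Measure.quasiMeasurePreserving_snd).comp hmp.quasiMeasurePreserving

lemma qmp_hs (ψ : Spl ds dz dh) : Measure.QuasiMeasurePreserving (hs (swp ψ) : Cfg dh → Cfg ds) volume volume :=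
  Measure.quasiMeasurePreserving_snd.comp (mea824_hzs (swp ψ)).quasiMeasurePreserving

lemma Zgl_ae [FiniteDimensional ℂ F] (S : Setup d F) (φ : Spl dh dm d) (ψ : Spl ds dz dh) (c : ℝ → ℝ) (ε R : ℝ)
    (χ : Cfg dz → ℝ) {o o' : Cfg ds → F} (h : o =ᵐ[volume] o') (u : Cfg d → F) :
    (∫ x, (inner ℂ (Zgl S φ ψ c ε R χ o x) (u x) : ℂ)) = ∫ x, inner ℂ (Zgl S φ ψ c ε R χ o' x) (u x) := by
  refine integral_congr_ae ?_
  have h1 := ((qmp_hs ψ).comp (qmp_zy φ)).ae_eq_comp h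
  filter_upwards [h1] with x hx
  have hx' : o (hs (swp ψ) (zy φ x)) = o' (hs (swp ψ) (zy φ x)) := hx
  congr 1
  unfold Zgl Zb bG aP
  simp only
  rw [hx']

end SfuA

variable {d : ℕ} {F : Type*} [NormedAddCommGroup F] [InnerProductSpace ℂ F]

/-- **GL12** -/
theorem sfu_stmt (S : Setup d F) (hGlu : GluStmt S) (hPc : PcStmt S) (hN : NormStmt S) (hM : MeaStmt S)
    (hGau : GauStmt) (hCmb : AD.CmbStmt) : SfuStmt S := by
  intro hF dh dm ds dz φ ψ z₀ hz0 h2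
  obtain ⟨ε₁, hε₁, H⟩ := SfuA.sfu_bdd S hGlu hPc hN hM hGau hCmb φ ψ z₀ h2
  have hz : 0 < ‖z₀‖ := norm_pos_iff.2 hz0
  refine ⟨min ε₁ (‖z₀‖ / 2), lt_min hε₁ (by linarith), ?_⟩
  intro ε hε hεle c hc χ o hχ hsupp ho R u hlim hu hb
  have hεz : ε ≤ ‖z₀‖ / 2 := hεle.trans (min_le_right _ _)
  have hχε : ∀ η, χ η ≠ 0 → ‖η - z₀‖ < ε := by
    intro η hη
    have := hsupp (subset_tsupport _ hη)
    rwa [Metric.mem_ball, dist_eq_norm] at this
  obtain ⟨C, hC⟩ := hb (‖z₀‖ / 4) (4 * ‖z₀‖) (by linarith) (by linarith)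
  obtain ⟨N, hNp⟩ := Filter.eventually_atTop.1 (hlim.eventually_gt_atTop 0)
  rw [← tendsto_add_atTop_iff_nat N]
  have hRp : ∀ n, 0 < R (n + N) := fun n => hNp _ (Nat.le_add_left _ _)
  have hlim' : Tendsto (fun n => R (n + N)) atTop atTop := (tendsto_add_atTop_iff_nat N).2 hlim
  have hmk := ho.1.ae_eq_mk
  have key := H ε hε (hεle.trans (min_le_left _ _)) c hc χ (ho.1.mk o) hχ hsupp ho.1.stronglyMeasurable_mk
    (ho.ae_eq hmk) (fun n => R (n + N)) (fun n => SfuA.ut c (‖z₀‖ * R (n + N)) (u (n + N))) C hlim' hRp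
    (fun n => SfuA.ginv_ut hc _ (hu _)) (fun n => by
      refine (SfuA.mass_ut hc (mul_pos hz (hRp n)) (hu (n + N))).trans ?_
      have h3 := hC (n + N)
      have e1 : ‖z₀‖ * R (n + N) / 4 = ‖z₀‖ / 4 * R (n + N) := by ring
      have e2 : 4 * (‖z₀‖ * R (n + N)) = 4 * ‖z₀‖ * R (n + N) := by ring
      rw [e1, e2]
      exact h3)
  refine key.congr fun n => ?_
  rw [SfuA.sfun_ut S φ ψ hCmb hz hc hεz (hRp n) χ hχε, SfuA.Zgl_ut S φ ψ hz hc hε hεz (hRp n) χ hχε,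
    SfuA.sfun_ae S φ ψ ε (R (n + N)) χ hmk.symm, SfuA.Zgl_ae S φ ψ c ε (R (n + N)) χ hmk.symm]

end Vale.Agent.P353.Z.AN
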