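import Vale.Agent.P353.AN.GL.Stmt

/-! # P353, all `N`, block GL7: the support of the global functional lies in the tube -/

open MeasureTheory Filter Topology
open scoped ContDiff

namespace Vale.Agent.P353.Z.AN

variable {d dh dm r ds : ℕ} {F : Type*} [NormedAddCommGroup F] [InnerProductSpace ℂ F]

lemma sup_norm_sq (φ : Spl dh dm d) (ψ : Spz r ds dh) (x : Cfg d) :
    ‖x‖ ^ 2 = ‖hz ψ (zy φ x)‖ ^ 2 + ‖hs ψ (zy φ x)‖ ^ 2 + ‖pm φ x‖ ^ 2 := by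
  rw [EuclideanSpace.norm_sq_eq, EuclideanSpace.norm_sq_eq, EuclideanSpace.norm_sq_eq,
    EuclideanSpace.norm_sq_eq, Fintype.sum_prod_type, Fintype.sum_prod_type, Fintype.sum_prod_type,
    Fintype.sum_prod_type, ← Finset.sum_add_distrib, ← Finset.sum_add_distrib]
  refine Finset.sum_congr rfl fun i _ => ?_
  rw [← φ.sum_comp, Fintype.sum_sum_type]
  congr 1
  rw [← ψ.sum_comp, Fintype.sum_sum_type]
  rfl

lemma sup_hz (φ : Spl dh dm d) (ψ : Spz r ds dh) (z₀ : Cfg r) (R : ℝ) (x : Cfg d) :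
    hz ψ (zy φ (x - R • emb φ (cmb ψ z₀ 0) 0)) = hz ψ (zy φ x) - R • z₀ := by
  ext p
  simp [hz, zy, emb, cmb]

lemma sup_hs (φ : Spl dh dm d) (ψ : Spz r ds dh) (z₀ : Cfg r) (R : ℝ) (x : Cfg d) :
    hs ψ (zy φ (x - R • emb φ (cmb ψ z₀ 0) 0)) = hs ψ (zy φ x) := by
  ext p
  simp [hs, zy, emb, cmb]

lemma sup_last (i : Fin 9) : Fin.lastCases (motive := fun _ => ℝ) 0 (fun _ : Fin 8 => (0 : ℝ)) i = 0 := by
  refine Fin.lastCases ?_ (fun j => ?_) i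
  · rw [Fin.lastCases_last]
  · rw [Fin.lastCases_castSucc]

lemma sup_pm (φ : Spl dh dm d) (y : Cfg dh) (R : ℝ) (x : Cfg d) :
    pm φ (x - R • emb φ y 0) = pm φ x := by
  ext p
  have h : emb φ y 0 (p.1, φ (Sum.inr p.2)) = 0 := by
    have h1 : emb φ y 0 (p.1, φ (Sum.inr p.2)) =
        Fin.lastCases (motive := fun _ => ℝ) 0 (fun _ : Fin 8 => (0 : ℝ)) p.1 := by
      simp [emb]
    rw [h1, sup_last]
  simp only [pm, PiLp.sub_apply, PiLp.smul_apply, h, smul_zero, sub_zero]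

theorem sup_stmt (S : Setup d F) : TubeStmt S → SupStmt S := by
  intro hT dh dm r ds φ ψ z₀ hstd
  obtain ⟨ε₀, ρ₀, hε₀, hρ₀, h⟩ := hT dh dm φ (cmb ψ z₀ 0) hstd
  refine ⟨ε₀, ρ₀, hε₀, hρ₀, ?_⟩
  intro ε ρ hε hε' hρ hρ'
  obtain ⟨c, δ, _, hδ, h2⟩ := h ε ρ hε hε' hρ hρ'
  refine ⟨δ / 2, by positivity, ?_⟩
  intro R hR b hb x hx
  have hball := (h2 R hR).2.1
  apply hball
  have hbq : b (R⁻¹ • hz ψ (zy φ x), hs ψ (zy φ x), Real.sqrt R • pm φ x) ≠ 0 := by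
    intro h0
    apply hx
    unfold Zb
    rw [h0, smul_zero]
  obtain ⟨b1, b2, b3⟩ := hb _ hbq
  simp only at b1 b2 b3
  set e := R • emb φ (cmb ψ z₀ 0) 0 with he
  have n1 : ‖hz ψ (zy φ (x - e))‖ ≤ δ / 2 * R := by
    rw [he, sup_hz]
    have h3 : hz ψ (zy φ x) - R • z₀ = R • (R⁻¹ • hz ψ (zy φ x) - z₀) := by
      rw [smul_sub, smul_smul, mul_inv_cancel₀ hR.ne', one_smul]
    rw [h3, norm_smul, Real.norm_of_nonneg hR.le, mul_comm]
    exact mul_le_mul_of_nonneg_right b1 hR.le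
  have n2 : ‖hs ψ (zy φ (x - e))‖ ≤ δ / 2 * R := by
    rw [he, sup_hs]
    exact b2
  have n3 : ‖pm φ (x - e)‖ ≤ δ / 2 * R := by
    rw [he, sup_pm]
    rw [norm_smul, Real.norm_of_nonneg (Real.sqrt_nonneg R)] at b3
    have hs0 : 0 < Real.sqrt R := Real.sqrt_pos.2 hR
    refine le_of_mul_le_mul_left ?_ hs0
    calc Real.sqrt R * ‖pm φ x‖ ≤ δ / 2 * (R * Real.sqrt R) := b3
      _ = _ := by ring
  rw [Metric.mem_ball, dist_eq_norm]
  have hsq := sup_norm_sq φ ψ (x - e)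
  have hδR : 0 < δ / 2 * R := by positivity
  have m1 := pow_le_pow_left₀ (norm_nonneg _) n1 2
  have m2 := pow_le_pow_left₀ (norm_nonneg _) n2 2
  have m3 := pow_le_pow_left₀ (norm_nonneg _) n3 2
  have h4 : ‖x - e‖ ^ 2 < (δ * R) ^ 2 := by
    rw [hsq]
    nlinarith [pow_pos hδR 2]
  exact lt_of_pow_lt_pow_left₀ 2 (by positivity) h4

end Vale.Agent.P353.Z.AN
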