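import Vale.Agent.P353.AN.GL.Stmt

/-! # P353, all `N`, block GL, GL2: Taylor expansion of the tube coordinates -/

open MeasureTheory Filter Topology
open scoped ContDiff

namespace Vale.Agent.P353.Z.AN

variable {d dh dm : ℕ} {F : Type*} [NormedAddCommGroup F] [InnerProductSpace ℂ F]

private lemma ty_exp0 {𝔸 : Type*} [NormedRing 𝔸] [NormedAlgebra ℝ 𝔸] [CompleteSpace 𝔸] :
    ∃ δ K : ℝ, 0 < δ ∧ 0 < K ∧ ∀ M : 𝔸, ‖M‖ < δ → ‖NormedSpace.exp M - 1 - M‖ ≤ K * ‖M‖ ^ 2 := by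
  have h := (NormedSpace.exp_hasFPowerSeriesAt_zero (𝕂 := ℝ) (𝔸 := 𝔸)).isBigO_sub_partialSum_pow 2
  obtain ⟨K, hK0, hK⟩ := h.exists_pos
  rw [Asymptotics.IsBigOWith] at hK
  obtain ⟨δ, hδ0, hδ⟩ := Metric.eventually_nhds_iff.1 hK
  refine ⟨δ, K, hδ0, hK0, fun M hM => ?_⟩
  have h1 := hδ (y := M) (by simpa using hM)
  have h2 : (NormedSpace.expSeries ℝ 𝔸).partialSum 2 M = 1 + M := by
    simp [FormalMultilinearSeries.partialSum, Finset.sum_range_succ, NormedSpace.expSeries_apply_eq]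
  rw [h2, zero_add] at h1
  rw [sub_sub]
  simpa using h1

section Mat

open scoped Matrix.Norms.Operator

private lemma ty_entry_le (M : Matrix (Fin d) (Fin d) ℝ) (i j : Fin d) : |M i j| ≤ ‖M‖ := by
  rw [Matrix.linfty_opNorm_def]
  have h1 : ‖M i j‖₊ ≤ ∑ j, ‖M i j‖₊ :=
    Finset.single_le_sum (f := fun j => ‖M i j‖₊) (fun _ _ => zero_le) (Finset.mem_univ j)
  have h2 : ∑ j, ‖M i j‖₊ ≤ Finset.univ.sup fun i => ∑ j, ‖M i j‖₊ :=
    Finset.le_sup (f := fun i => ∑ j, ‖M i j‖₊) (Finset.mem_univ i)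
  have h3 := h1.trans h2
  rw [← Real.norm_eq_abs]
  exact_mod_cast h3

private lemma ty_norm_le (M : Matrix (Fin d) (Fin d) ℝ) {t : ℝ} (ht : 0 ≤ t) (h : ∀ i j, |M i j| ≤ t) :
    ‖M‖ ≤ d * t := by
  rw [Matrix.linfty_opNorm_def]
  have h1 : (Finset.univ.sup fun i => ∑ j, ‖M i j‖₊) ≤ (d : NNReal) * t.toNNReal := by
    refine Finset.sup_le fun i _ => ?_
    have : ∀ j ∈ Finset.univ, ‖M i j‖₊ ≤ t.toNNReal := by
      intro j _
      rw [← NNReal.coe_le_coe, Real.coe_toNNReal _ ht, coe_nnnorm, Real.norm_eq_abs]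
      exact h i j
    refine (Finset.sum_le_sum this).trans (le_of_eq ?_)
    rw [Finset.sum_const, Finset.card_univ, Fintype.card_fin, nsmul_eq_mul]
  have h2 := NNReal.coe_le_coe.2 h1
  rw [NNReal.coe_mul, Real.coe_toNNReal _ ht] at h2
  exact_mod_cast h2

private lemma ty_exp2 (d : ℕ) : ∃ δ K : ℝ, 0 < δ ∧ 0 < K ∧ ∀ M : Matrix (Fin d) (Fin d) ℝ, ‖M‖ < δ →
    ‖NormedSpace.exp M - 1 - M‖ ≤ K * ‖M‖ ^ 2 := ty_exp0
private lemma ty_rem (S : Setup d F) (φ : Spl dh dm d) : ∃ ρ K : ℝ, 0 < ρ ∧ 0 < K ∧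
    ∀ a : EuclideanSpace ℝ (Fin dm), ‖a‖ < ρ → (∀ A B, |S.adm (exm φ a) A B| ≤ K * ‖a‖) ∧
      ∀ A B, |(NormedSpace.exp (S.adm (exm φ a)) - 1 - S.adm (exm φ a)) A B| ≤ K * ‖a‖ ^ 2 := by
  obtain ⟨δ, K, hδ, hK, h⟩ := ty_exp2 d
  obtain ⟨L, hL⟩ : ∃ L : ℝ, L = (∑ A, ∑ B, ∑ C, |S.f A C B|) + 1 := ⟨_, rfl⟩
  have hL1 : 1 ≤ L := by
    rw [hL]
    have : 0 ≤ ∑ A, ∑ B, ∑ C, |S.f A C B| := by positivity
    linarith
  have hx : ∀ (a : EuclideanSpace ℝ (Fin dm)) (C : Fin d), |exm φ a C| ≤ ‖a‖ := by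
    intro a C
    unfold exm
    rcases φ.symm C with A | B
    · simp
    · simpa [Real.norm_eq_abs] using PiLp.norm_apply_le a B
  have hA : ∀ (a : EuclideanSpace ℝ (Fin dm)) A B, |S.adm (exm φ a) A B| ≤ L * ‖a‖ := by
    intro a A B
    simp only [Setup.adm, Matrix.of_apply]
    calc |∑ C, S.f A C B * exm φ a C| ≤ ∑ C, |S.f A C B| * ‖a‖ := by
          refine (Finset.abs_sum_le_sum_abs _ _).trans (Finset.sum_le_sum fun C _ => ?_)
          rw [abs_mul]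
          exact mul_le_mul_of_nonneg_left (hx a C) (abs_nonneg _)
      _ = (∑ C, |S.f A C B|) * ‖a‖ := by rw [Finset.sum_mul]
      _ ≤ L * ‖a‖ := by
          refine mul_le_mul_of_nonneg_right ?_ (norm_nonneg _)
          have e1 : ∑ C, |S.f A C B| ≤ ∑ B, ∑ C, |S.f A C B| :=
            Finset.single_le_sum (f := fun B => ∑ C, |S.f A C B|)
              (fun _ _ => Finset.sum_nonneg fun _ _ => abs_nonneg _) (Finset.mem_univ B)
          have e2 : ∑ B, ∑ C, |S.f A C B| ≤ ∑ A, ∑ B, ∑ C, |S.f A C B| :=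
            Finset.single_le_sum (f := fun A => ∑ B, ∑ C, |S.f A C B|)
              (fun _ _ => Finset.sum_nonneg fun _ _ => Finset.sum_nonneg fun _ _ => abs_nonneg _)
              (Finset.mem_univ A)
          rw [hL]
          linarith
  have hN : ∀ a : EuclideanSpace ℝ (Fin dm), ‖S.adm (exm φ a)‖ ≤ d * (L * ‖a‖) := fun a =>
    ty_norm_le _ (by positivity) (hA a)
  refine ⟨δ / (d * L + 1), L + K * (d * L) ^ 2, by positivity, by positivity, fun a ha => ⟨fun A B => ?_, fun A B => ?_⟩⟩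
  · refine (hA a A B).trans (mul_le_mul_of_nonneg_right ?_ (norm_nonneg _))
    have : 0 ≤ K * (d * L) ^ 2 := by positivity
    linarith
  · have hM : ‖S.adm (exm φ a)‖ < δ := by
      refine (hN a).trans_lt ?_
      rw [lt_div_iff₀ (by positivity)] at ha
      have : 0 ≤ ‖a‖ := norm_nonneg _
      nlinarith
    refine (ty_entry_le _ A B).trans ((h _ hM).trans ?_)
    have e1 : ‖S.adm (exm φ a)‖ ^ 2 ≤ (d * (L * ‖a‖)) ^ 2 := pow_le_pow_left₀ (norm_nonneg _) (hN a) 2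
    calc K * ‖S.adm (exm φ a)‖ ^ 2 ≤ K * (d * (L * ‖a‖)) ^ 2 := mul_le_mul_of_nonneg_left e1 hK.le
      _ = K * (d * L) ^ 2 * ‖a‖ ^ 2 := by ring
      _ ≤ (L + K * (d * L) ^ 2) * ‖a‖ ^ 2 := by
          refine mul_le_mul_of_nonneg_right ?_ (sq_nonneg _)
          linarith

end Mat

private lemma ty_norm {ι : Type*} [Fintype ι] (x : EuclideanSpace ℝ ι) {t : ℝ} (ht : 0 ≤ t)
    (h : ∀ i, |x i| ≤ t) : ‖x‖ ≤ Fintype.card ι * t := by
  rw [EuclideanSpace.norm_eq]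
  refine Real.sqrt_le_iff.2 ⟨by positivity, ?_⟩
  have h1 : ∀ i ∈ Finset.univ, ‖x i‖ ^ 2 ≤ t ^ 2 := fun i _ => by
    rw [Real.norm_eq_abs]
    exact pow_le_pow_left₀ (abs_nonneg _) (h i) 2
  refine (Finset.sum_le_sum h1).trans ?_
  rw [Finset.sum_const, Finset.card_univ, nsmul_eq_mul, mul_pow]
  refine mul_le_mul_of_nonneg_right ?_ (sq_nonneg _)
  have h2 : Fintype.card ι ≤ Fintype.card ι ^ 2 := Nat.le_self_pow (by norm_num) _
  exact_mod_cast h2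

private lemma ty_emb_inl (φ : Spl dh dm d) (y : Cfg dh) (w : Wsp dm) (i : Fin 9) (A : Fin dh) :
    emb φ y w (i, φ (Sum.inl A)) = y (i, A) := by
  simp [emb]

private lemma ty_emb_inr (φ : Spl dh dm d) (y : Cfg dh) (w : Wsp dm) (i : Fin 9) (B : Fin dm) :
    emb φ y w (i, φ (Sum.inr B)) = wt w i B := by
  simp [emb, wt]

private lemma ty_wt_le (w : Wsp dm) (i : Fin 9) (B : Fin dm) : |wt w i B| ≤ ‖w‖ := by
  unfold wt
  refine Fin.lastCases (motive := fun i => |Fin.lastCases (motive := fun _ => ℝ) 0 (fun j => w (j, B)) i| ≤ ‖w‖)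
    ?_ (fun j => ?_) i
  · rw [Fin.lastCases_last]
    simp
  · rw [Fin.lastCases_castSucc]
    simpa [Real.norm_eq_abs] using PiLp.norm_apply_le w (j, B)

private lemma ty_tub (S : Setup d F) (φ : Spl dh dm d) (a : EuclideanSpace ℝ (Fin dm)) (p : Cfg dh × Wsp dm)
    (i : Fin 9) (A : Fin d) : tub S φ a p (i, A) = emb φ p.1 p.2 (i, A) +
      (∑ B, S.adm (exm φ a) A B * emb φ p.1 p.2 (i, B)) +
      ∑ B, (NormedSpace.exp (S.adm (exm φ a)) - 1 - S.adm (exm φ a)) A B * emb φ p.1 p.2 (i, B) := by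
  have h1 : tub S φ a p (i, A) = ∑ B, NormedSpace.exp (S.adm (exm φ a)) A B * emb φ p.1 p.2 (i, B) := rfl
  have h2 : emb φ p.1 p.2 (i, A) = ∑ B, (1 : Matrix (Fin d) (Fin d) ℝ) A B * emb φ p.1 p.2 (i, B) := by
    simp [Matrix.one_apply]
  rw [h1]
  conv_rhs => rw [h2]
  rw [← Finset.sum_add_distrib, ← Finset.sum_add_distrib]
  refine Finset.sum_congr rfl fun B _ => ?_
  rw [Matrix.sub_apply, Matrix.sub_apply]
  ring

private lemma ty_adm_ll (S : Setup d F) (φ : Spl dh dm d) (hs : S.IsSub φ) (a : EuclideanSpace ℝ (Fin dm))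
    (A B : Fin dh) : S.adm (exm φ a) (φ (Sum.inl A)) (φ (Sum.inl B)) = 0 := by
  simp only [Setup.adm, Matrix.of_apply]
  rw [← φ.sum_comp, Fintype.sum_sum_type]
  have h1 : ∀ C : Fin dm, S.f (φ (Sum.inl A)) (φ (Sum.inr C)) (φ (Sum.inl B)) = 0 := by
    intro C
    rw [S.f_swap', hs, neg_zero]
  simp [exm, h1]

private lemma ty_adm_rl (S : Setup d F) (φ : Spl dh dm d) (a : EuclideanSpace ℝ (Fin dm)) (y : Cfg dh) (i : Fin 9)
    (A : Fin dm) : ∑ B, S.adm (exm φ a) (φ (Sum.inr A)) (φ (Sum.inl B)) * y (i, B) =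
      -∑ C, S.Dy φ i y A C * a C := by
  simp only [Setup.adm, Matrix.of_apply, Setup.Dy, Setup.Dm]
  have h1 : ∀ B, (∑ C, S.f (φ (Sum.inr A)) C (φ (Sum.inl B)) * exm φ a C) =
      ∑ C : Fin dm, -(S.f (φ (Sum.inr A)) (φ (Sum.inl B)) (φ (Sum.inr C)) * a C) := by
    intro B
    rw [← φ.sum_comp, Fintype.sum_sum_type]
    have h2 : ∀ C : Fin dh, exm φ a (φ (Sum.inl C)) = 0 := by intro C; simp [exm]
    have h3 : ∀ C : Fin dm, exm φ a (φ (Sum.inr C)) = a C := by intro C; simp [exm]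
    simp only [h2, h3, mul_zero, Finset.sum_const_zero, zero_add]
    refine Finset.sum_congr rfl fun C _ => ?_
    rw [S.f_swap', neg_mul]
  simp only [h1, Finset.sum_mul]
  rw [Finset.sum_comm, ← Finset.sum_neg_distrib]
  refine Finset.sum_congr rfl fun C _ => ?_
  rw [← Finset.sum_neg_distrib]
  exact Finset.sum_congr rfl fun B _ => by ring

/-- **GL2** -/
theorem tayT_stmt (S : Setup d F) (hbd : BdStmt S) : TayTStmt S := by
  intro dh dm φ y₀ hstd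
  obtain ⟨ε, C, hε, hC, hb⟩ := hbd dh dm φ y₀ hstd
  obtain ⟨ρ, K, hρ, hK, hrem⟩ := ty_rem S φ
  -- constants
  obtain ⟨M, hM⟩ : ∃ M : ℝ, M = ‖y₀‖ + 2 * ε := ⟨_, rfl⟩
  have hM0 : 0 < M := by rw [hM]; positivity
  obtain ⟨C₂, hC₂⟩ : ∃ C₂ : ℝ, C₂ = d * (K * M) + dm * K + 1 := ⟨_, rfl⟩
  have hC₂0 : 0 < C₂ := by rw [hC₂]; positivity
  obtain ⟨C₄, hC₄⟩ : ∃ C₄ : ℝ, C₄ = (9 * dh + 9 * dm + 1) * C₂ := ⟨_, rfl⟩
  have hC₄0 : 0 < C₄ := by rw [hC₄]; positivity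
  obtain ⟨C₃, hC₃⟩ : ∃ C₃ : ℝ, C₃ = Real.sqrt C + 8 * dm * (1 + C) := ⟨_, rfl⟩
  have hC₃0 : 0 < C₃ := by
    rw [hC₃]
    have := Real.sqrt_pos.2 hC
    positivity
  refine ⟨ε, min ρ (1 / (2 * C₃ * C₄)), 1 / (2 * C₃), C₄, hε, lt_min hρ (by positivity), by positivity, hC₄0,
    fun R hR a p ha hp => ?_⟩
  obtain ⟨hp1, hp2⟩ := hp
  have ha1 : ‖a‖ < ρ := ha.trans_le (min_le_left _ _)
  have ha2 : ‖a‖ < 1 / (2 * C₃ * C₄) := ha.trans_le (min_le_right _ _)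
  obtain ⟨hr1, hr2⟩ := hrem a ha1
  have hy : ‖p.1‖ ≤ M * R := by
    have h1 : ‖p.1‖ ≤ ‖p.1 - R • y₀‖ + ‖R • y₀‖ := by
      have := norm_add_le (p.1 - R • y₀) (R • y₀)
      simpa using this
    rw [norm_smul, Real.norm_of_nonneg hR.le] at h1
    rw [hM]
    nlinarith [mul_pos hε hR]
  have hw : ‖p.2‖ ≤ M * R := by
    rw [hM]
    nlinarith [mul_pos hε hR, mul_nonneg (norm_nonneg y₀) hR.le]
  have he : ∀ i B, |emb φ p.1 p.2 (i, B)| ≤ M * R := by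
    intro i B
    obtain ⟨B', rfl⟩ := φ.surjective B
    rcases B' with B' | B'
    · rw [ty_emb_inl]
      refine le_trans ?_ hy
      simpa [Real.norm_eq_abs] using PiLp.norm_apply_le p.1 (i, B')
    · rw [ty_emb_inr]
      exact (ty_wt_le _ _ _).trans hw
  obtain ⟨T, hT⟩ : ∃ T : ℝ, T = ‖a‖ * (R * ‖a‖ + ‖p.2‖) := ⟨_, rfl⟩
  have hT0 : 0 ≤ T := by rw [hT]; positivity
  -- the remainder term
  have hR1 : ∀ i A, |∑ B, (NormedSpace.exp (S.adm (exm φ a)) - 1 - S.adm (exm φ a)) A B *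
      emb φ p.1 p.2 (i, B)| ≤ d * (K * M) * (‖a‖ * (R * ‖a‖)) := by
    intro i A
    refine (Finset.abs_sum_le_sum_abs _ _).trans ?_
    have : ∀ B ∈ Finset.univ, |(NormedSpace.exp (S.adm (exm φ a)) - 1 - S.adm (exm φ a)) A B *
        emb φ p.1 p.2 (i, B)| ≤ (K * ‖a‖ ^ 2) * (M * R) := by
      intro B _
      rw [abs_mul]
      exact mul_le_mul (hr2 A B) (he i B) (abs_nonneg _) (by positivity)
    refine (Finset.sum_le_sum this).trans (le_of_eq ?_)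
    rw [Finset.sum_const, Finset.card_univ, Fintype.card_fin, nsmul_eq_mul]
    ring
  have hR2 : ∀ i A, |∑ B : Fin dm, S.adm (exm φ a) A (φ (Sum.inr B)) * wt p.2 i B| ≤
      dm * K * (‖a‖ * ‖p.2‖) := by
    intro i A
    refine (Finset.abs_sum_le_sum_abs _ _).trans ?_
    have : ∀ B ∈ Finset.univ, |S.adm (exm φ a) A (φ (Sum.inr B)) * wt p.2 i B| ≤ (K * ‖a‖) * ‖p.2‖ := by
      intro B _
      rw [abs_mul]
      exact mul_le_mul (hr1 A _) (ty_wt_le _ _ _) (abs_nonneg _) (by positivity)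
    refine (Finset.sum_le_sum this).trans (le_of_eq ?_)
    rw [Finset.sum_const, Finset.card_univ, Fintype.card_fin, nsmul_eq_mul]
    ring
  have hsum : ∀ i A, |(∑ B : Fin dm, S.adm (exm φ a) A (φ (Sum.inr B)) * wt p.2 i B) +
      ∑ B, (NormedSpace.exp (S.adm (exm φ a)) - 1 - S.adm (exm φ a)) A B *
      emb φ p.1 p.2 (i, B)| ≤ C₂ * T := by
    intro i A
    refine (abs_add_le _ _).trans ((add_le_add (hR2 i A) (hR1 i A)).trans ?_)
    rw [hC₂, hT]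
    have e1 : 0 ≤ ‖a‖ * (R * ‖a‖) := by positivity
    have e2 : 0 ≤ ‖a‖ * ‖p.2‖ := by positivity
    have e3 : 0 ≤ (d : ℝ) * (K * M) := by positivity
    have e4 : 0 ≤ (dm : ℝ) * K := by positivity
    nlinarith [mul_nonneg e3 e2, mul_nonneg e4 e1]
  have hadm : ∀ i A, ∑ B, S.adm (exm φ a) A B * emb φ p.1 p.2 (i, B) =
      (∑ B : Fin dh, S.adm (exm φ a) A (φ (Sum.inl B)) * p.1 (i, B)) +
        ∑ B : Fin dm, S.adm (exm φ a) A (φ (Sum.inr B)) * wt p.2 i B := by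
    intro i A
    rw [← φ.sum_comp, Fintype.sum_sum_type]
    simp only [ty_emb_inl, ty_emb_inr]
  have c1 : ‖zy φ (tub S φ a p) - p.1‖ ≤ C₄ * T := by
    refine (ty_norm _ (t := C₂ * T) (by positivity) fun q => ?_).trans ?_
    · obtain ⟨i, A⟩ := q
      have h1 : (zy φ (tub S φ a p) - p.1) (i, A) = tub S φ a p (i, φ (Sum.inl A)) - p.1 (i, A) := rfl
      rw [h1, ty_tub, hadm, ty_emb_inl]
      have h2 : ∑ B : Fin dh, S.adm (exm φ a) (φ (Sum.inl A)) (φ (Sum.inl B)) * p.1 (i, B) = 0 :=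
        Finset.sum_eq_zero fun B _ => by rw [ty_adm_ll S φ hstd.sub, zero_mul]
      rw [h2, zero_add, add_assoc, add_sub_cancel_left]
      exact hsum i _
    · rw [hC₄]
      have : (Fintype.card (Fin 9 × Fin dh) : ℝ) = 9 * dh := by simp
      rw [this, ← mul_assoc]
      refine mul_le_mul_of_nonneg_right ?_ hT0
      refine mul_le_mul_of_nonneg_right ?_ hC₂0.le
      have : 0 ≤ (dm : ℝ) := by positivity
      linarith
  have c2 : ‖pm φ (tub S φ a p) - xi (fun i => S.Dy φ i p.1) p.2 a‖ ≤ C₄ * T := by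
    refine (ty_norm _ (t := C₂ * T) (by positivity) fun q => ?_).trans ?_
    · obtain ⟨i, A⟩ := q
      have h1 : (pm φ (tub S φ a p) - xi (fun i => S.Dy φ i p.1) p.2 a) (i, A) =
          tub S φ a p (i, φ (Sum.inr A)) - (wt p.2 i A - ∑ C, S.Dy φ i p.1 A C * a C) := rfl
      rw [h1, ty_tub, hadm, ty_emb_inr, ty_adm_rl]
      have h2 := hsum i (φ (Sum.inr A))
      refine le_of_eq_of_le (congrArg abs ?_) h2
      ring
    · rw [hC₄]
      have : (Fintype.card (Fin 9 × Fin dm) : ℝ) = 9 * dm := by simp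
      rw [this, ← mul_assoc]
      refine mul_le_mul_of_nonneg_right ?_ hT0
      refine mul_le_mul_of_nonneg_right ?_ hC₂0.le
      have : 0 ≤ (dh : ℝ) := by positivity
      linarith
  refine ⟨?_, by rw [mul_assoc, ← hT]; exact c1, by rw [mul_assoc, ← hT]; exact c2⟩
  -- lower bound
  obtain ⟨X, hX⟩ : ∃ X : Cfg dm, X = xi (fun i => S.Dy φ i p.1) p.2 a := ⟨_, rfl⟩
  rw [← hX] at c2
  have hXe : ∀ i B, X (i, B) = wt p.2 i B - ∑ C, S.Dy φ i p.1 B C * a C := by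
    intro i B
    rw [hX]
    rfl
  obtain ⟨-, hb1, hb2, -⟩ := hb R p.1 hR hp1.le
  have ha2sq : ∑ B, a B ^ 2 = ‖a‖ ^ 2 := by
    rw [EuclideanSpace.norm_sq_eq]
    simp
  have d1 : R * ‖a‖ ≤ Real.sqrt C * ‖X‖ := by
    have h1 := hb1 a
    rw [ha2sq] at h1
    have h2 : ∑ B, (∑ E, S.Dy φ 8 p.1 B E * a E) ^ 2 ≤ ‖X‖ ^ 2 := by
      rw [EuclideanSpace.norm_sq_eq, Fintype.sum_prod_type]
      refine le_trans (le_of_eq ?_) (Finset.single_le_sum (f := fun i : Fin 9 => ∑ B, ‖X (i, B)‖ ^ 2)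
        (fun i _ => Finset.sum_nonneg fun B _ => sq_nonneg _) (Finset.mem_univ (8 : Fin 9)))
      refine Finset.sum_congr rfl fun B _ => ?_
      rw [hXe]
      have : wt p.2 8 B = 0 := by
        unfold wt
        exact Fin.lastCases_last
      rw [this, zero_sub, norm_neg, Real.norm_eq_abs, sq_abs]
    refine abs_le_of_sq_le_sq' ?_ (by positivity) |>.2
    rw [mul_pow, mul_pow, Real.sq_sqrt hC.le]
    exact h1.trans (mul_le_mul_of_nonneg_left h2 hC.le)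
  have d2 : ‖p.2‖ ≤ 8 * dm * (1 + C) * ‖X‖ := by
    refine (ty_norm _ (t := (1 + C) * ‖X‖) (by positivity) fun q => ?_).trans (le_of_eq ?_)
    · obtain ⟨j, B⟩ := q
      have h1 : p.2 (j, B) = X (j.castSucc, B) + ∑ E, S.Dy φ j.castSucc p.1 B E * a E := by
        rw [hXe]
        have : wt p.2 j.castSucc B = p.2 (j, B) := by
          unfold wt
          exact Fin.lastCases_castSucc _
        rw [this]
        ring
      have h2 : |X (j.castSucc, B)| ≤ ‖X‖ := by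
        simpa [Real.norm_eq_abs] using PiLp.norm_apply_le X (j.castSucc, B)
      have h3 : |∑ E, S.Dy φ j.castSucc p.1 B E * a E| ≤ C * ‖X‖ := by
        have h4 := hb2 j.castSucc a
        rw [ha2sq] at h4
        have h5 : (∑ E, S.Dy φ j.castSucc p.1 B E * a E) ^ 2 ≤
            ∑ B, (∑ E, S.Dy φ j.castSucc p.1 B E * a E) ^ 2 :=
          Finset.single_le_sum (f := fun B => (∑ E, S.Dy φ j.castSucc p.1 B E * a E) ^ 2)
            (fun _ _ => sq_nonneg _) (Finset.mem_univ B)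
        have h6 : (∑ E, S.Dy φ j.castSucc p.1 B E * a E) ^ 2 ≤ (Real.sqrt C * (R * ‖a‖)) ^ 2 := by
          rw [mul_pow, Real.sq_sqrt hC.le, mul_pow]
          linarith [h5.trans h4]
        have h7 := abs_le_of_sq_le_sq h6 (by positivity)
        refine h7.trans ?_
        calc Real.sqrt C * (R * ‖a‖) ≤ Real.sqrt C * (Real.sqrt C * ‖X‖) :=
              mul_le_mul_of_nonneg_left d1 (Real.sqrt_nonneg C)
          _ = C * ‖X‖ := by rw [← mul_assoc, Real.mul_self_sqrt hC.le]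
      rw [h1]
      refine (abs_add_le _ _).trans ?_
      linarith
    · have : (Fintype.card (Fin 8 × Fin dm) : ℝ) = 8 * dm := by simp
      rw [this]
      ring
  have d3 : R * ‖a‖ + ‖p.2‖ ≤ C₃ * ‖X‖ := by
    rw [hC₃]
    linarith
  have d4 : ‖X‖ - C₄ * T ≤ ‖pm φ (tub S φ a p)‖ := by
    have h1 : ‖X‖ ≤ ‖pm φ (tub S φ a p) - X‖ + ‖pm φ (tub S φ a p)‖ := by
      have := norm_sub_le (pm φ (tub S φ a p)) (pm φ (tub S φ a p) - X)
      rw [sub_sub_cancel] at this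
      linarith
    linarith
  refine le_trans ?_ d4
  have d5 : C₄ * T ≤ 1 / (2 * C₃) * (R * ‖a‖ + ‖p.2‖) := by
    rw [hT, ← mul_assoc]
    refine mul_le_mul_of_nonneg_right ?_ (by positivity)
    calc C₄ * ‖a‖ ≤ C₄ * (1 / (2 * C₃ * C₄)) := mul_le_mul_of_nonneg_left ha2.le hC₄0.le
      _ = 1 / (2 * C₃) := by field_simp
  have d6 : 1 / C₃ * (R * ‖a‖ + ‖p.2‖) ≤ ‖X‖ := by
    rw [one_div, inv_mul_le_iff₀ hC₃0]
    exact d3
  have d7 : 1 / C₃ = 1 / (2 * C₃) + 1 / (2 * C₃) := by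
    field_simp
    norm_num
  rw [d7, add_mul] at d6
  linarith

end Vale.Agent.P353.Z.AN
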