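import Vale.Agent.P353.AN.GL.Stmt
import Vale.Agent.P353.AN.A.TubeF

/-! # P353, all `N`, block GL0: integration over the tube without invariance -/

open MeasureTheory Filter Topology
open scoped ContDiff

namespace Vale.Agent.P353.Z.AN

variable {d dh dm : ℕ} {F : Type*} [NormedAddCommGroup F] [InnerProductSpace ℂ F]

theorem tubeJ_stmt (S : Setup d F) : DetStmt S → CooStmt → InjStmt S → TubeJStmt S := by
  intro hD hC hI dh dm φ y₀ hS
  obtain ⟨hsm, j, hj, hj0, hdet⟩ := hD dh dm φ hS.sub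
  obtain ⟨e, he, hmp⟩ := hC d dh dm φ
  obtain ⟨ε₀, ρ₀, hε₀, hρ₀, hIn⟩ := hI dh dm φ y₀ hS
  refine ⟨ε₀, ρ₀, hε₀, hρ₀, fun a => |j a|, hj.abs, fun a => abs_nonneg _, by simp [hj0],
    fun ε ρ hε hεε hρ hρρ R hR => ?_⟩
  obtain ⟨δ, hδ, hopen, hball, hinj⟩ := hIn ε ρ hε hεε hρ hρρ
  have hinjR : ∀ a a' p p', ‖a‖ < ρ → ‖a'‖ < ρ → p ∈ Nb y₀ dm R ε → p' ∈ Nb y₀ dm R ε →
      tub S φ a p = tub S φ a' p' → a = a' ∧ p = p' := by
    intro a a' p p' ha ha' hp hp' h
    have hp1 : R⁻¹ • p ∈ Nb y₀ dm 1 ε := by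
      rw [← tbf_nb hR, smul_inv_smul₀ hR.ne']
      exact hp
    have hp1' : R⁻¹ • p' ∈ Nb y₀ dm 1 ε := by
      rw [← tbf_nb hR, smul_inv_smul₀ hR.ne']
      exact hp'
    have h1 := hinj a a' (R⁻¹ • p) (R⁻¹ • p') ha ha' hp1 hp1' (by
      rw [tbf_tub_smul, tbf_tub_smul, h])
    exact ⟨h1.1, smul_right_injective _ (inv_ne_zero hR.ne') h1.2⟩
  obtain ⟨B, hBdef⟩ : ∃ B : Set (Cfg d), B = {z | ‖zm φ z‖ < ρ ∧ (zy φ z, zw φ z) ∈ Nb y₀ dm R ε} :=
    ⟨_, rfl⟩
  obtain ⟨T, hTdef⟩ : ∃ T : Set (EuclideanSpace ℝ (Fin dm) × (Cfg dh × Wsp dm)),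
      T = (Metric.ball (0 : EuclideanSpace ℝ (Fin dm)) ρ) ×ˢ Nb y₀ dm R ε := ⟨_, rfl⟩
  have hNb : IsOpen (Nb y₀ dm R ε) := by
    have h2 : IsOpen {p : Cfg dh × Wsp dm | ‖p.1 - R • y₀‖ < ε * R} :=
      isOpen_lt (by fun_prop) (by fun_prop)
    have h3 : IsOpen {p : Cfg dh × Wsp dm | ‖p.2‖ < ε * R} :=
      isOpen_lt (by fun_prop) (by fun_prop)
    exact h2.inter h3
  have hT : IsOpen T := by
    rw [hTdef]
    exact Metric.isOpen_ball.prod hNb
  have hBT : B = e ⁻¹' T := by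
    rw [hBdef, hTdef]
    ext z
    simp only [Set.mem_ofPred_eq, Set.mem_preimage, he, Set.mem_prod, mem_ball_zero_iff]
  have hB : MeasurableSet B := by
    rw [hBT]
    exact (hT.preimage e.continuous).measurableSet
  have htz : ∀ q, tub S φ q.1 q.2 = tz S φ (e.symm q) := by
    intro q
    have h1 : e (e.symm q) = q := e.apply_symm_apply _
    have h2 := he (e.symm q)
    rw [h1] at h2
    have h3 : zm φ (e.symm q) = q.1 := (congrArg Prod.fst h2).symm
    have h4 : (zy φ (e.symm q), zw φ (e.symm q)) = q.2 := (congrArg Prod.snd h2).symm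
    rw [tz, h3, h4]
  have himg : Tube S φ y₀ R ε ρ = tz S φ '' B := by
    ext x
    constructor
    · rintro ⟨a, ha, p, hp, rfl⟩
      refine ⟨e.symm (a, p), ?_, ?_⟩
      · rw [hBT, Set.mem_preimage, e.apply_symm_apply, hTdef]
        exact ⟨mem_ball_zero_iff.2 ha, hp⟩
      · exact (htz (a, p)).symm
    · rintro ⟨z, hz, rfl⟩
      rw [hBdef] at hz
      exact ⟨zm φ z, hz.1, (zy φ z, zw φ z), hz.2, rfl⟩
  have hinjB : Set.InjOn (tz S φ) B := by
    intro z hz z' hz' h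
    rw [hBdef] at hz hz'
    have h1 := hinjR _ _ _ _ hz.1 hz'.1 hz.2 hz'.2 h
    apply e.injective
    rw [he, he, h1.1, h1.2]
  have hJ0 : ∀ y, 0 ≤ S.Jd φ y := fun y => by unfold Setup.Jd; exact abs_nonneg _
  constructor
  · intro f hf
    rw [himg, lintegral_image_eq_lintegral_abs_det_fderiv_mul volume hB
      (fun z _ => ((hsm.differentiable (by simp)) z).hasFDerivAt.hasFDerivWithinAt) hinjB]
    have hcongr : ∫⁻ z in B, ENNReal.ofReal |(fderiv ℝ (tz S φ) z).det| * f (tz S φ z) =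
        ∫⁻ z in e ⁻¹' T, (fun q : EuclideanSpace ℝ (Fin dm) × (Cfg dh × Wsp dm) =>
          f (tub S φ q.1 q.2) * ENNReal.ofReal (S.Jd φ q.2.1 * |j q.1|)) (e z) := by
      rw [← hBT]
      refine setLIntegral_congr_fun hB fun z hz => ?_
      simp only [he]
      rw [hdet z, tz, mul_comm]
    rw [hcongr]
    have hmeas : Measurable fun q : EuclideanSpace ℝ (Fin dm) × (Cfg dh × Wsp dm) =>
          f (tub S φ q.1 q.2) * ENNReal.ofReal (S.Jd φ q.2.1 * |j q.1|) := by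
      refine Measurable.mul ?_ ?_
      · have h1 : (fun q : EuclideanSpace ℝ (Fin dm) × (Cfg dh × Wsp dm) =>
            f (tub S φ q.1 q.2)) = fun q => f (tz S φ (e.symm q)) := by
          funext q
          rw [htz]
        rw [h1]
        exact hf.comp ((hsm.continuous.comp e.symm.continuous).measurable)
      · refine Measurable.ennreal_ofReal ?_
        exact ((((tbf_continuous_Jd S φ).comp (continuous_fst.comp continuous_snd))).mul
          (hj.abs.comp continuous_fst)).measurable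
    rw [hmp.setLIntegral_comp_preimage hT.measurableSet hmeas, hTdef]
  · intro f
    rw [himg, integral_image_eq_integral_abs_det_fderiv_smul volume hB
      (fun z _ => ((hsm.differentiable (by simp)) z).hasFDerivAt.hasFDerivWithinAt) hinjB]
    have hcongr : ∫ z in B, |(fderiv ℝ (tz S φ) z).det| • f (tz S φ z) =
        ∫ z in e ⁻¹' T, (fun q : EuclideanSpace ℝ (Fin dm) × (Cfg dh × Wsp dm) =>
          ((S.Jd φ q.2.1 * |j q.1| : ℝ) : ℂ) * f (tub S φ q.1 q.2)) (e z) := by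
      rw [← hBT]
      refine setIntegral_congr_fun hB fun z hz => ?_
      simp only [he]
      rw [hdet z, tz, Complex.real_smul]
    rw [hcongr, hmp.setIntegral_preimage_emb e.toHomeomorph.measurableEmbedding
      (fun q : EuclideanSpace ℝ (Fin dm) × (Cfg dh × Wsp dm) =>
          ((S.Jd φ q.2.1 * |j q.1| : ℝ) : ℂ) * f (tub S φ q.1 q.2)) T, hTdef]

end Vale.Agent.P353.Z.AN
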