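import Vale.Agent.P353.AN.GL.Glu
import Vale.Agent.P353.AN.GL.GluK
import Vale.Agent.P353.AN.GL.Mom
import Vale.Agent.P353.AN.GL.Cnv
import Vale.Agent.P353.AN.GL.TubeJ
import Vale.Agent.P353.AN.GL.Eqv
import Vale.Agent.P353.AN.GL.TayT
import Vale.Agent.P353.AN.GL.Mea
import Vale.Agent.P353.AN.GL.Pair
import Vale.Agent.P353.AN.GL.Wgt
import Vale.Agent.P353.AN.GL.Sup
import Vale.Agent.P353.AN.GL.Gau
import Vale.Agent.P353.AN.GL.Glob
import Vale.Agent.P353.AN.GL.Sfu
import Vale.Agent.P353.AN.GL.Pc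
import Vale.Agent.P353.AN.D.Cmb
import Vale.Agent.P353.AN.A.TubeF
import Vale.Agent.P353.AN.A.Det
import Vale.Agent.P353.AN.A.Dexp
import Vale.Agent.P353.AN.A.Coo
import Vale.Agent.P353.AN.A.Inj
import Vale.Agent.P353.AN.A.Norm
import Vale.Agent.P353.AN.A.Dec
import Vale.Agent.P353.AN.A.Bd
import Vale.Agent.P353.AN.A.Rot
import Vale.Agent.P353.AN.A.Cov
import Vale.Agent.P353.AN.A.Std
import Vale.Agent.P353.AN.A.Gh
import Vale.Agent.P353.AN.A.Cut
import Vale.Agent.P353.AN.A.Sym

/-! # P353, all `N`, blocks A and GL: unconditional outputs -/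

open MeasureTheory Filter Topology
open scoped ContDiff

namespace Vale.Agent.P353.Z.AN.All

variable {d : ℕ} {F : Type*} [NormedAddCommGroup F] [InnerProductSpace ℂ F] (S : Setup d F)

theorem dexp : DexpStmt S := dexp_stmt S
theorem det : DetStmt S := det_stmt S (dexp S)
theorem inj : InjStmt S := inj_stmt S (det S) coo_stmt
theorem tube : TubeStmt S := tube_stmt S (det S) coo_stmt (inj S)
theorem dec : DecStmt S := dec_stmt S
theorem norm : NormStmt S := norm_stmt S (tube S) (dec S)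
theorem bd : BdStmt S := bd_stmt S
theorem rot : RotStmt S := rot_stmt S
theorem std : StdStmt S := std_stmt S
theorem cov : CovStmt S := cov_stmt S (std S) (rot S)
theorem gh : GhStmt S := gh_stmt S
theorem cut : CutStmt S := cut_stmt S (bd S)
theorem sym : SymStmt S := Vale.Agent.P353.Z.AN.Sy.sym S

theorem tubeJ : TubeJStmt S := tubeJ_stmt S (det S) coo_stmt (inj S)
theorem eqv : EqvStmt S := eqv_stmt S
theorem tayT : TayTStmt S := tayT_stmt S (bd S)
theorem mea : MeaStmt S := mea_stmt S (det S) (eqv S)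
theorem pair : PairStmt S := pair_stmt S (tubeJ S) (eqv S) (mea S)
theorem wgt : WgtStmt S := wgt_stmt S (tayT S) (eqv S) (mea S)
theorem cnv : CnvStmt S := cnv_stmt S (tayT S) (eqv S) (mea S) (det S)
theorem sup : SupStmt S := sup_stmt S (tube S)
theorem gau : GauStmt := gau_stmt
theorem mom : MomStmt := mom_stmt
theorem glu : GluStmt S := glu_stmt S (pair S) (mea S) (wgt S) (cnv S) (sup S) gau mom (norm S)
theorem gluBd : GluBdStmt S := gluBd_stmt S (pair S) (mea S) (wgt S) (sup S) (norm S)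
theorem gluK : GluKStmt S := gluK_stmt S (fun S' => gluBd S') (rot S)
theorem pc : PcStmt S := pc_stmt S

theorem sfu : SfuStmt S := sfu_stmt S (glu S) (pc S) (norm S) (mea S) gau AD.cmbS
theorem glob : GlobStmt S := glob_stmt S fun S1 => sfu S1

end Vale.Agent.P353.Z.AN.All
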