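import Vale.Agent.P353.AN.GL.GluF

/-! # P353, all `N`, block GL: `GluStmt` -/

set_option linter.all false

open MeasureTheory Filter Topology
open scoped ContDiff ENNReal

namespace Vale.Agent.P353.Z.AN

variable {d dh dm r ds : ℕ} {F : Type*} [NormedAddCommGroup F] [InnerProductSpace ℂ F]

/-- cutoff in `η` -/
noncomputable def gth (z₀ : Cfg r) (δ : ℝ) (η : Cfg r) : ℝ := max 0 (min 1 (3 - 2 * ‖η - z₀‖ / δ))

lemma gth_cont (z₀ : Cfg r) (δ : ℝ) : Continuous (gth z₀ δ) :=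
  continuous_const.max (continuous_const.min (continuous_const.sub
    ((continuous_const.mul (continuous_id.sub continuous_const).norm).div_const _)))

lemma gth_nn (z₀ : Cfg r) (δ : ℝ) (η : Cfg r) : 0 ≤ gth z₀ δ η := le_max_left _ _

lemma gth_le (z₀ : Cfg r) (δ : ℝ) (η : Cfg r) : gth z₀ δ η ≤ 1 := max_le zero_le_one (min_le_left _ _)

lemma gth_one {z₀ : Cfg r} {δ : ℝ} (hδ : 0 < δ) {η : Cfg r} (h : ‖η - z₀‖ ≤ δ) : gth z₀ δ η = 1 := by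
  have h1 : 2 * ‖η - z₀‖ / δ ≤ 2 := by
    rw [div_le_iff₀ hδ]
    linarith
  unfold gth
  rw [min_eq_left (by linarith), max_eq_right zero_le_one]

lemma gth_supp {z₀ : Cfg r} {δ : ℝ} (hδ : 0 < δ) {η : Cfg r} (h : gth z₀ δ η ≠ 0) : ‖η - z₀‖ ≤ 3 / 2 * δ := by
  by_contra hX
  refine h (max_eq_left ?_)
  have h1 : 3 ≤ 2 * ‖η - z₀‖ / δ := by
    rw [le_div_iff₀ hδ]
    linarith [not_le.1 hX]
  exact (min_le_right _ _).trans (by linarith)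

/-- approximation of sections by continuous ones -/
lemma glu_dens {z₀ : Cfg r} {δ : ℝ} (hδ : 0 < δ) {a : Cfg r → Cfg ds → F} (ha : GSc z₀ δ a) {e : ℝ≥0∞} (he : e ≠ 0) :
    ∃ a' : Cfg r → Cfg ds → F, GSc z₀ (2 * δ) a' ∧ Continuous (fun q : Cfg r × Cfg ds => a' q.1 q.2) ∧
      HasCompactSupport (fun q : Cfg r × Cfg ds => a' q.1 q.2) ∧
      tsupport (fun q : Cfg r × Cfg ds => a' q.1 q.2) ⊆ {q | ‖q.1 - z₀‖ < 2 * δ} ∧
      eLpNorm (fun q : Cfg r × Cfg ds => a q.1 q.2 - a' q.1 q.2) 2 (volume.prod volume) ≤ e := by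
  haveI : ((volume : Measure (Cfg r)).prod (volume : Measure (Cfg ds))).IsAddHaarMeasure :=
    Measure.prod.instIsAddHaarMeasure _ _
  obtain ⟨g, hgs, hge, hgc, hgm⟩ := ha.mem.exists_hasCompactSupport_eLpNorm_sub_le (by norm_num : (2 : ℝ≥0∞) ≠ ⊤) he
  have hc : Continuous fun q : Cfg r × Cfg ds => ((gth z₀ δ q.1 : ℝ) : ℂ) • g q :=
    (Complex.continuous_ofReal.comp ((gth_cont z₀ δ).comp continuous_fst)).smul hgc
  have hs : HasCompactSupport fun q : Cfg r × Cfg ds => ((gth z₀ δ q.1 : ℝ) : ℂ) • g q := hgs.smul_left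
  have hsup : ∀ q : Cfg r × Cfg ds, ((gth z₀ δ q.1 : ℝ) : ℂ) • g q ≠ 0 → ‖q.1 - z₀‖ ≤ 3 / 2 * δ := by
    intro q hq
    refine gth_supp hδ fun h0 => hq ?_
    rw [h0, Complex.ofReal_zero, zero_smul]
  refine ⟨fun η s => ((gth z₀ δ η : ℝ) : ℂ) • g (η, s), ⟨hc.stronglyMeasurable, ?_, ?_⟩, hc, hs, ?_, ?_⟩
  · exact hc.memLp_of_hasCompactSupport hs
  · intro η s hne
    exact (hsup (η, s) hne).trans (by linarith)
  · have hcl : IsClosed {q : Cfg r × Cfg ds | ‖q.1 - z₀‖ ≤ 3 / 2 * δ} :=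
      isClosed_le (continuous_fst.sub continuous_const).norm continuous_const
    have h1 : tsupport (fun q : Cfg r × Cfg ds => ((gth z₀ δ q.1 : ℝ) : ℂ) • g q) ⊆
        {q : Cfg r × Cfg ds | ‖q.1 - z₀‖ ≤ 3 / 2 * δ} := closure_minimal (fun q hq => hsup q hq) hcl
    intro q hq
    have h2 : ‖q.1 - z₀‖ ≤ 3 / 2 * δ := h1 hq
    show ‖q.1 - z₀‖ < 2 * δ
    linarith
  · refine le_trans (eLpNorm_mono fun q => ?_) hge
    show ‖a q.1 q.2 - ((gth z₀ δ q.1 : ℝ) : ℂ) • g (q.1, q.2)‖ ≤ ‖a q.1 q.2 - g q‖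
    have h1 : a q.1 q.2 = ((gth z₀ δ q.1 : ℝ) : ℂ) • a q.1 q.2 := by
      by_cases h0 : a q.1 q.2 = 0
      · rw [h0, smul_zero]
      · rw [gth_one hδ (ha.sup _ _ h0), Complex.ofReal_one, one_smul]
    have h2 : a q.1 q.2 - ((gth z₀ δ q.1 : ℝ) : ℂ) • g (q.1, q.2) = ((gth z₀ δ q.1 : ℝ) : ℂ) • (a q.1 q.2 - g q) := by
      rw [smul_sub, ← h1]
    rw [h2, glu_norm_smul (gth_nn _ _ _)]
    exact mul_le_of_le_one_left (norm_nonneg _) (gth_le _ _ _)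

theorem glu_stmt (S : Setup d F) (hp : PairStmt S) (hm : MeaStmt S) (hw : WgtStmt S) (hc : CnvStmt S) (hs : SupStmt S)
    (hg : GauStmt) (hmo : MomStmt) (hn : NormStmt S) : GluStmt S := by
  intro fd dh dm r ds φ ψ z₀ hz hst
  haveI : CompleteSpace F := FiniteDimensional.complete ℂ F
  obtain ⟨εc, ρc, hεc, hρc, Hc⟩ := hc fd dh dm r ds φ ψ z₀ hst
  obtain ⟨εd, ρ, j, hεd, hρle, Hd⟩ := gluD_exists S fd hp hw hs hn φ ψ z₀ hst ρc hρc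
  refine ⟨min εc εd, lt_min hεc hεd, fun ε hε hεle => ?_⟩
  obtain ⟨δ₁, c, Cw, D⟩ := Hd ε hε (hεle.trans (min_le_right _ _))
  have hδ₁ := D.δ_pos
  refine ⟨min (δ₁ / 2) (ε / 4), by positivity, ?_⟩
  intro δ hδ hδle Om hOm hOmc a ham ha2 hasup R χ u C hR hχm hχ01 hχ1 hχs hu hG hC
  have hδ1 : 2 * δ ≤ δ₁ := by linarith [hδle.trans (min_le_left _ _)]
  have hδ2 : 2 * δ ≤ ε / 2 := by linarith [hδle.trans (min_le_right _ _)]
  have hδ2p : 0 < 2 * δ := by positivity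
  obtain ⟨hNf, hmo2⟩ := hmo r dm S.κ z₀ (2 * δ) (fun η => Dz S φ ψ η) Om S.κ_pos hδ2p hOm hOmc
  obtain ⟨CM, L, hCM, -, hmo3⟩ := hmo2 1 one_pos
  have hM : GMo S.κ z₀ (2 * δ) CM Om := fun η hη => (hmo3 η hη).1
  have h : GOm S φ ψ z₀ (2 * δ) Om := ⟨hOm, hOmc, hNf⟩
  have ha : GSc z₀ δ a := ⟨ham, ha2, hasup⟩
  have ha' : GSc z₀ (2 * δ) a := ⟨ham, ha2, fun η s hne => (hasup η s hne).trans (by linarith)⟩
  have X : GCt (min (δ₁ / 2) (ε / 4)) R χ := ⟨hχm, fun n q => (hχ01 n q).1, fun n q => (hχ01 n q).2, hχ1, hχs⟩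
  have hC0 : 0 ≤ C := (integral_nonneg fun x => sq_nonneg ‖u 0 x‖).trans (hC 0)
  have Q : GSq S R u (ENNReal.ofReal (Real.sqrt C)) := by
    refine ⟨hR, hu, hG, fun n => ?_, ENNReal.ofReal_ne_top⟩
    refine glu_le_of_sq ?_
    rw [glu_sq, ← glu_real_sq (hu n).memLp, ← ENNReal.ofReal_pow (Real.sqrt_nonneg _), Real.sq_sqrt hC0]
    exact ENNReal.ofReal_le_ofReal (hC n)
  have hδ0 : min (δ₁ / 2) (ε / 4) ≤ δ₁ := (min_le_left _ _).trans (by linarith)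
  have hcv : ∀ b : Cfg r × Cfg ds × Cfg dm → F, Continuous b → HasCompactSupport b → (∀ q, b q ≠ 0 → ‖q.1 - z₀‖ ≤ ε / 2) →
      Tendsto (fun R : ℝ => ∫⁻ p in Nb (cmb ψ z₀ 0) dm R ε,
      ‖Zt S φ j ρ (Zb φ ψ b R) p - Ts0 ψ (Vb S φ ψ b) R p.1 p.2‖ₑ ^ 2 ∂(volume.prod volume)) atTop (𝓝 0) :=
    fun b hb1 hb2 hb3 => Hc ε ρ hε (hεle.trans (min_le_left _ _)) D.ρ_pos hρle j D.j_cont D.j_nn D.j_one b hb1 hb2 hb3
  show Tendsto (fun n => gGl φ ψ (R n) (fun q => ((χ n q : ℝ) : ℂ) • bG S.κ Om a q) (u n) -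
      gSl S φ ψ z₀ ε (R n) (vG S φ ψ Om a) (u n)) atTop (𝓝 0)
  refine glu_apx fun e he => ?_
  set K₁ : ℝ≥0∞ := ENNReal.ofReal (Real.sqrt Cw * (Real.sqrt c)⁻¹) with hK₁
  set K₂ : ℝ≥0∞ := ENNReal.ofReal (Real.sqrt c)⁻¹ with hK₂
  set U : ℝ≥0∞ := ENNReal.ofReal (Real.sqrt C) with hU
  set Kt : ℝ≥0∞ := K₁ * ENNReal.ofReal (Real.sqrt CM) * U + K₂ * U with hKt
  have hKt1 : Kt + 1 ≠ ⊤ := by
    refine ENNReal.add_ne_top.2 ⟨?_, ENNReal.one_ne_top⟩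
    refine ENNReal.add_ne_top.2 ⟨ENNReal.mul_ne_top (ENNReal.mul_ne_top ENNReal.ofReal_ne_top ENNReal.ofReal_ne_top)
      ENNReal.ofReal_ne_top, ENNReal.mul_ne_top ENNReal.ofReal_ne_top ENNReal.ofReal_ne_top⟩
  obtain ⟨a₁, h1, h2, h3, h4, h5⟩ := glu_dens hδ ha (e := e / (Kt + 1)) (ENNReal.div_pos he.ne' hKt1).ne'
  refine ⟨_, glu_C1 fd hg hm hst.sub D hcv Q h hCM hM hδ1 hδ2 h1 h2 h3 h4 hδ0 X, ?_⟩
  filter_upwards [hR.eventually_ge_atTop 1] with n hn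
  have hR0 : 0 < R n := lt_of_lt_of_le one_pos hn
  have hd : GSc z₀ (2 * δ) (fun η s => a η s - a₁ η s) := by
    refine ⟨ha'.meas.sub h1.meas, ha'.mem.sub h1.mem, fun η s hne => ?_⟩
    by_cases h0 : a η s = 0
    · refine h1.sup η s fun h00 => hne ?_
      show a η s - a₁ η s = 0
      rw [h0, h00, sub_zero]
    · exact ha'.sup η s h0
  have m1 := glu_cut_memW h hCM hM ha' (X.meas n) (X.nn n) (X.le n)
  have m2 := glu_cut_memW h hCM hM h1 (X.meas n) (X.nn n) (X.le n)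
  have m3 := glu_cut_memW h hCM hM hd (X.meas n) (X.nn n) (X.le n)
  have e1 : (fun q : Cfg r × Cfg ds × Cfg dm => ((χ n q : ℝ) : ℂ) • bG S.κ Om a q - ((χ n q : ℝ) : ℂ) • bG S.κ Om a₁ q) =
      fun q => ((χ n q : ℝ) : ℂ) • bG S.κ Om (fun η s => a η s - a₁ η s) q := by
    funext q
    rw [← smul_sub, glu_bG, glu_bG, glu_bG, ← smul_sub]
  have e2 : (fun (η : Cfg r) (s : Cfg ds) (w : Wsp dm) => vG S φ ψ Om a η s w - vG S φ ψ Om a₁ η s w) =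
      vG S φ ψ Om (fun η s => a η s - a₁ η s) := by
    funext η s w
    unfold vG
    rw [← smul_sub]
  have e0 : (gGl φ ψ (R n) (fun q => ((χ n q : ℝ) : ℂ) • bG S.κ Om a q) (u n) -
      gSl S φ ψ z₀ ε (R n) (vG S φ ψ Om a) (u n)) - (gGl φ ψ (R n) (fun q => ((χ n q : ℝ) : ℂ) • bG S.κ Om a₁ q) (u n) -
      gSl S φ ψ z₀ ε (R n) (vG S φ ψ Om a₁) (u n)) =
      gGl φ ψ (R n) (fun q => ((χ n q : ℝ) : ℂ) • bG S.κ Om (fun η s => a η s - a₁ η s) q) (u n) -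
      gSl S φ ψ z₀ ε (R n) (vG S φ ψ Om (fun η s => a η s - a₁ η s)) (u n) := by
    rw [← e1, ← e2, ← gGl_sub φ ψ hR0 m1.1 m2.1 (hu n), ← gSl_sub S fd hm hst.sub z₀ ε hR0
      (glu_vG_meas hg fd hm hst.sub h ha'.meas ha'.sup) (glu_vG_mem hg fd hm hst.sub h ha')
      (glu_vG_meas hg fd hm hst.sub h h1.meas h1.sup) (glu_vG_mem hg fd hm hst.sub h h1) (hu n)]
    ring
  rw [e0]
  refine (enorm_sub_le).trans ?_
  have b1 : ‖gGl φ ψ (R n) (fun q => ((χ n q : ℝ) : ℂ) • bG S.κ Om (fun η s => a η s - a₁ η s) q) (u n)‖ₑ ≤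
      K₁ * (ENNReal.ofReal (Real.sqrt CM) * (e / (Kt + 1))) * U := by
    refine le_trans (glu_bd S fd hm hst.sub D (R n) hn _ (glu_cut_meas h hd (X.meas n)) ?_ m3.1 (u n) (hu n) (hG n)) ?_
    · intro q hq
      have hχ0 : χ n q ≠ 0 := by
        intro h0
        refine hq ?_
        rw [h0, Complex.ofReal_zero, zero_smul]
      have ha0 : a q.1 q.2.1 - a₁ q.1 q.2.1 ≠ 0 := by
        intro h0
        refine hq ?_
        rw [glu_bG]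
        show ((χ n q : ℝ) : ℂ) • ((gTh S.κ Om q : ℝ) : ℂ) • (a q.1 q.2.1 - a₁ q.1 q.2.1) = 0
        rw [h0, smul_zero, smul_zero]
      obtain ⟨q1, q2⟩ := X.sup n q hχ0
      exact ⟨(hd.sup _ _ ha0).trans hδ1, q1.trans (mul_le_mul_of_nonneg_right hδ0 hR0.le),
        q2.trans (mul_le_mul_of_nonneg_right hδ0 (mul_nonneg hR0.le (Real.sqrt_nonneg _)))⟩
    · refine mul_le_mul' (mul_le_mul' le_rfl ?_) (Q.bd n)
      refine m3.2.trans ((glu_bG_norm h hCM hM hd.meas hd.sup).trans ?_)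
      exact mul_le_mul' le_rfl h5
  have b2 : ‖gSl S φ ψ z₀ ε (R n) (vG S φ ψ Om (fun η s => a η s - a₁ η s)) (u n)‖ₑ ≤ (e / (Kt + 1)) * (K₂ * U) := by
    refine le_trans (gSl_bd S fd hm hst.sub D hR0 (glu_vG_meas hg fd hm hst.sub h hd.meas hd.sup)
      (glu_vG_mem hg fd hm hst.sub h hd) (hu n) (hG n)) ?_
    refine mul_le_mul' ((glu_vG_norm hg fd hm hst.sub h hd.meas hd.sup).trans h5) (mul_le_mul' le_rfl (Q.bd n))
  calc _ ≤ _ := add_le_add b1 b2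
    _ = Kt * (e / (Kt + 1)) := by rw [hKt]; ring
    _ ≤ (Kt + 1) * (e / (Kt + 1)) := mul_le_mul' le_self_add le_rfl
    _ ≤ e := ENNReal.mul_div_le

end Vale.Agent.P353.Z.AN
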