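import Vale.Agent.P353.AN.GL.GluA

/-! # P353, all `N`, block GL: uniform bound of the global functional (local form) -/

set_option linter.all false

open MeasureTheory Filter Topology
open scoped ContDiff ENNReal

namespace Vale.Agent.P353.Z.AN

variable {d dh dm r ds : ℕ} {F : Type*} [NormedAddCommGroup F] [InnerProductSpace ℂ F]

/-- the data used by `GluBd` and `Glu`: constants at a standard point -/
structure GluD (S : Setup d F) (φ : Spl dh dm d) (ψ : Spz r ds dh) (z₀ : Cfg r)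
    (j : EuclideanSpace ℝ (Fin dm) → ℝ) (ε ρ δ c Cw : ℝ) : Prop where
  ε_pos : 0 < ε
  ρ_pos : 0 < ρ
  δ_pos : 0 < δ
  c_pos : 0 < c
  Cw_pos : 0 < Cw
  pair : ∀ R : ℝ, 0 < R → ∀ Z u : Cfg d → F, StronglyMeasurable Z → MemLp Z 2 →
    (∀ x, Z x ≠ 0 → x ∈ Tube S φ (cmb ψ z₀ 0) R ε ρ) → Setup.Tst u → (∀ C x, S.G C u x = 0) →
    ∫ x, inner ℂ (Z x) (u x) = ∫ p in Nb (cmb ψ z₀ 0) dm R ε, inner ℂ (Zt S φ j ρ Z p) (S.res φ u p.1 p.2)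
      ∂(volume.prod volume)
  wgt : ∀ R : ℝ, 1 ≤ R → ∀ b : Cfg r × Cfg ds × Cfg dm → F, StronglyMeasurable b →
      ∫⁻ p in Nb (cmb ψ z₀ 0) dm R ε, ‖Zt S φ j ρ (Zb φ ψ b R) p‖ₑ ^ 2 ∂(volume.prod volume) ≤
        ENNReal.ofReal Cw * ∫⁻ q, ENNReal.ofReal ((1 + ‖q.2.2‖ ^ 2) ^ (dm + 1)) * ‖b q‖ₑ ^ 2
          ∂((volume : Measure (Cfg r)).prod ((volume : Measure (Cfg ds)).prod (volume : Measure (Cfg dm))))
  sup : ∀ R : ℝ, 0 < R → ∀ b : Cfg r × Cfg ds × Cfg dm → F,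
      (∀ q, b q ≠ 0 → ‖q.1 - z₀‖ ≤ δ ∧ ‖q.2.1‖ ≤ δ * R ∧ ‖q.2.2‖ ≤ δ * (R * Real.sqrt R)) →
      ∀ x, Zb φ ψ b R x ≠ 0 → x ∈ Tube S φ (cmb ψ z₀ 0) R ε ρ
  nrm : ∀ R : ℝ, 0 < R → ∀ u : Cfg d → F, Setup.Tst u → (∀ C x, S.G C u x = 0) →
    ∫ x in Tube S φ (cmb ψ z₀ 0) R ε ρ, ‖u x‖ ^ 2 =
      c * ∫ p in Nb (cmb ψ z₀ 0) dm R ε, ‖S.res φ u p.1 p.2‖ ^ 2 ∂(volume.prod volume)
  j_cont : Continuous j
  j_nn : ∀ a, 0 ≤ j a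
  j_one : j 0 = 1

/-- existence of the constants; `ε₁`, `ρ₁` are additional upper bounds -/
lemma gluD_exists (S : Setup d F) (fd : FiniteDimensional ℂ F) (hp : PairStmt S) (hw : WgtStmt S) (hs : SupStmt S)
    (hn : NormStmt S) (φ : Spl dh dm d) (ψ : Spz r ds dh) (z₀ : Cfg r) (hst : Std S φ (cmb ψ z₀ 0)) (ρ₁ : ℝ) (hρ₁ : 0 < ρ₁) :
    ∃ (ε₀ ρ : ℝ) (j : EuclideanSpace ℝ (Fin dm) → ℝ), 0 < ε₀ ∧ ρ ≤ ρ₁ ∧ ∀ ε : ℝ, 0 < ε → ε ≤ ε₀ →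
      ∃ δ c Cw : ℝ, GluD S φ ψ z₀ j ε ρ δ c Cw := by
  obtain ⟨e1, r1, he1, hr1, j, jc, jn, j1, H1⟩ := hp fd dh dm φ (cmb ψ z₀ 0) hst
  obtain ⟨e2, r2, he2, hr2, H2⟩ := hw fd dh dm r ds φ ψ (cmb ψ z₀ 0) hst
  obtain ⟨e3, r3, he3, hr3, H3⟩ := hs dh dm r ds φ ψ z₀ hst
  obtain ⟨e4, r4, he4, hr4, H4⟩ := hn dh dm φ (cmb ψ z₀ 0) hst
  refine ⟨min (min e1 e2) (min e3 e4), min (min (min r1 r2) (min r3 r4)) ρ₁, j, by positivity, min_le_right _ _, ?_⟩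
  intro ε hε hεle
  have q1 : ε ≤ e1 := hεle.trans ((min_le_left _ _).trans (min_le_left _ _))
  have q2 : ε ≤ e2 := hεle.trans ((min_le_left _ _).trans (min_le_right _ _))
  have q3 : ε ≤ e3 := hεle.trans ((min_le_right _ _).trans (min_le_left _ _))
  have q4 : ε ≤ e4 := hεle.trans ((min_le_right _ _).trans (min_le_right _ _))
  have hρ : 0 < min (min (min r1 r2) (min r3 r4)) ρ₁ := by positivity
  have p1 : min (min (min r1 r2) (min r3 r4)) ρ₁ ≤ r1 :=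
    (min_le_left _ _).trans ((min_le_left _ _).trans (min_le_left _ _))
  have p2 : min (min (min r1 r2) (min r3 r4)) ρ₁ ≤ r2 :=
    (min_le_left _ _).trans ((min_le_left _ _).trans (min_le_right _ _))
  have p3 : min (min (min r1 r2) (min r3 r4)) ρ₁ ≤ r3 :=
    (min_le_left _ _).trans ((min_le_right _ _).trans (min_le_left _ _))
  have p4 : min (min (min r1 r2) (min r3 r4)) ρ₁ ≤ r4 :=
    (min_le_left _ _).trans ((min_le_right _ _).trans (min_le_right _ _))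
  set ρ := min (min (min r1 r2) (min r3 r4)) ρ₁ with hρdef
  obtain ⟨Cw, hCw, G2⟩ := H2 ε ρ hε q2 hρ p2 j jc jn j1 (fun R hR => (H1 ε ρ hε q1 hρ p1 R hR).1)
  obtain ⟨δ, hδ, G3⟩ := H3 ε ρ hε q3 hρ p3
  obtain ⟨c, δ', hc, -, G4⟩ := H4 ε ρ hε q4 hρ p4
  exact ⟨δ, c, Cw, ⟨hε, hρ, hδ, hc, hCw, fun R hR => (H1 ε ρ hε q1 hρ p1 R hR).2, G2, G3,
    fun R hR u hu hG => ((G4 R hR).2 u hu hG).1, jc, jn, j1⟩⟩

lemma glu_bd (S : Setup d F) (fd : FiniteDimensional ℂ F) (hm : MeaStmt S) {φ : Spl dh dm d} {ψ : Spz r ds dh} {z₀ : Cfg r}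
    (hsub : S.IsSub φ) {j : EuclideanSpace ℝ (Fin dm) → ℝ} {ε ρ δ c Cw : ℝ} (D : GluD S φ ψ z₀ j ε ρ δ c Cw)
    (R : ℝ) (hR : 1 ≤ R) (b : Cfg r × Cfg ds × Cfg dm → F) (hb : StronglyMeasurable b)
    (hsup : ∀ q, b q ≠ 0 → ‖q.1 - z₀‖ ≤ δ ∧ ‖q.2.1‖ ≤ δ * R ∧ ‖q.2.2‖ ≤ δ * (R * Real.sqrt R))
    (hbw : MemLp b 2 (wM r ds dm)) (u : Cfg d → F) (hu : Setup.Tst u) (hG : ∀ C x, S.G C u x = 0) :
    ‖∫ x, inner ℂ (Zb φ ψ b R x) (u x)‖ₑ ≤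
      ENNReal.ofReal (Real.sqrt Cw * (Real.sqrt c)⁻¹) * eLpNorm b 2 (wM r ds dm) * eLpNorm u 2 volume := by
  have hR0 : 0 < R := lt_of_lt_of_le one_pos hR
  have hZm := ((hm fd dh dm r ds φ ψ hsub).2.1 R b hb).1
  have hZ2 : MemLp (Zb φ ψ b R) 2 volume := glu_memLp φ ψ R hR0 (hbw.mono_measure (glu_w_le r ds dm))
  rw [D.pair R hR0 (Zb φ ψ b R) u hZm hZ2 (D.sup R hR0 b hsup) hu hG]
  have hZt := (hm fd dh dm r ds φ ψ hsub).1 j ρ (Zb φ ψ b R) D.j_cont hZm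
  refine le_trans (glu_cs hZt.aestronglyMeasurable (glu_res_cont S φ hu.1.continuous).aestronglyMeasurable) ?_
  have h1 := D.wgt R hR b hb
  rw [glu_w_sq hb] at h1
  have h2 : eLpNorm (Zt S φ j ρ (Zb φ ψ b R)) 2 ((volume.prod volume).restrict (Nb (cmb ψ z₀ 0) dm R ε)) ≤
      ENNReal.ofReal (Real.sqrt Cw) * eLpNorm b 2 (wM r ds dm) := by
    refine glu_le_of_sq (le_trans h1 (le_of_eq ?_))
    rw [mul_pow, ← ENNReal.ofReal_pow (Real.sqrt_nonneg _), Real.sq_sqrt D.Cw_pos.le]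
  have h3 := glu_res_le S φ (cmb ψ z₀ 0) R ε ρ c D.c_pos hu (D.nrm R hR0 u hu hG)
  refine le_trans (mul_le_mul' h2 h3) (le_of_eq ?_)
  rw [ENNReal.ofReal_mul (Real.sqrt_nonneg _)]
  ring

theorem gluBd_stmt (S : Setup d F) (hp : PairStmt S) (hm : MeaStmt S) (hw : WgtStmt S) (hs : SupStmt S)
    (hn : NormStmt S) : GluBdStmt S := by
  intro fd dh dm r ds φ ψ z₀ hst
  obtain ⟨ε₀, ρ, j, hε₀, -, H⟩ := gluD_exists S fd hp hw hs hn φ ψ z₀ hst 1 one_pos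
  obtain ⟨δ, c, Cw, D⟩ := H ε₀ hε₀ le_rfl
  refine ⟨δ, Real.sqrt Cw * (Real.sqrt c)⁻¹, 1, D.δ_pos,
    mul_pos (Real.sqrt_pos.2 D.Cw_pos) (inv_pos.2 (Real.sqrt_pos.2 D.c_pos)), one_pos, ?_⟩
  intro R hR b hb hsup hbw u hu hG
  exact glu_bd S fd hm hst.sub D R hR b hb hsup hbw u hu hG

end Vale.Agent.P353.Z.AN
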