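import Vale.Agent.P353.AN.GL.SfuB
import Vale.Agent.P353.AN.GL.Mea
import Vale.Agent.P353.AN.GL.Sup
import Vale.Agent.P353.AN.A.Norm
import Vale.Agent.P353.AN.A.Coo

/-! # P353, all `N`, block GL: GL12, the slice functional as one integral over the slice -/

open MeasureTheory Filter Topology Matrix
open scoped ContDiff ENNReal

namespace Vale.Agent.P353.Z.AN.SfuA

variable {d dh dm ds dz : ℕ} {F : Type*} [NormedAddCommGroup F] [InnerProductSpace ℂ F]

/-! ### the slice box -/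

/-- the slice box -/
def Eb (ψ : Spl ds dz dh) (dm : ℕ) (ε R : ℝ) : Set (Cfg dh × Wsp dm) :=
  {p | ‖AD.sp ψ p.1‖ < ε * R ∧ ‖p.2‖ < ε * R}

lemma cont_sp (ψ : Spl ds dz dh) : Continuous (AD.sp ψ) := mea824_chs (swp ψ)

lemma cont_zp (ψ : Spl ds dz dh) : Continuous (AD.zp ψ) := mea824_chz (swp ψ)

lemma meas_Eb (ψ : Spl ds dz dh) (ε R : ℝ) : MeasurableSet (Eb ψ dm ε R) := by
  have e1 : IsOpen {p : Cfg dh × Wsp dm | ‖AD.sp ψ p.1‖ < ε * R} :=
    isOpen_lt ((cont_sp ψ).comp continuous_fst).norm continuous_const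
  have e2 : IsOpen {p : Cfg dh × Wsp dm | ‖p.2‖ < ε * R} :=
    isOpen_lt continuous_snd.norm continuous_const
  exact (e1.inter e2).measurableSet

lemma meas_Nb (y₀ : Cfg dh) (R ε : ℝ) : MeasurableSet (Nb y₀ dm R ε) := by
  have e1 : IsOpen {p : Cfg dh × Wsp dm | ‖p.1 - R • y₀‖ < ε * R} :=
    isOpen_lt (continuous_fst.sub continuous_const).norm continuous_const
  have e2 : IsOpen {p : Cfg dh × Wsp dm | ‖p.2‖ < ε * R} :=
    isOpen_lt continuous_snd.norm continuous_const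
  exact (e1.inter e2).measurableSet

/-! ### restriction to the slice -/

lemma cont_res (S : Setup d F) (φ : Spl dh dm d) {u : Cfg d → F} (hu : Continuous u) :
    Continuous fun p : Cfg dh × Wsp dm => S.res φ u p.1 p.2 := by
  unfold Setup.res
  refine Continuous.smul ?_ (hu.comp (nrm_continuous_emb φ))
  exact Complex.continuous_ofReal.comp (Real.continuous_sqrt.comp ((mea824_cJd S φ).comp continuous_fst))

lemma norm_emb_sq (φ : Spl dh dm d) (y : Cfg dh) (w : Wsp dm) :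
    ‖emb φ y w‖ ^ 2 = ‖y‖ ^ 2 + ‖w‖ ^ 2 := by
  rw [EuclideanSpace.norm_sq_eq, EuclideanSpace.norm_sq_eq, EuclideanSpace.norm_sq_eq]
  rw [Fintype.sum_prod_type, Fintype.sum_prod_type, Fintype.sum_prod_type]
  have h : ∀ i : Fin 9, ∑ A, ‖emb φ y w (i, A)‖ ^ 2 = (∑ A, ‖y (i, A)‖ ^ 2) + ∑ B, ‖wt w i B‖ ^ 2 := by
    intro i
    rw [← φ.sum_comp, Fintype.sum_sum_type]
    simp [emb, wt]
  simp only [h, Finset.sum_add_distrib]
  congr 1
  rw [Fin.sum_univ_castSucc]
  have h9 : ∑ B, ‖wt w (Fin.last 8) B‖ ^ 2 = 0 := Finset.sum_eq_zero fun B _ => by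
    unfold wt
    rw [Fin.lastCases_last]
    norm_num
  rw [h9, add_zero]
  refine Finset.sum_congr rfl fun j _ => Finset.sum_congr rfl fun B _ => ?_
  unfold wt
  rw [Fin.lastCases_castSucc]

lemma cs_res (S : Setup d F) (φ : Spl dh dm d) {u : Cfg d → F} (hu : HasCompactSupport u) :
    HasCompactSupport fun p : Cfg dh × Wsp dm => S.res φ u p.1 p.2 := by
  obtain ⟨L, hL⟩ := hu.isCompact.isBounded.subset_closedBall (0 : Cfg d)
  refine HasCompactSupport.of_support_subset_isCompact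
    (isCompact_closedBall (0 : Cfg dh × Wsp dm) L) ?_
  intro p hp
  have h1 : u (emb φ p.1 p.2) ≠ 0 := by
    intro h0
    apply hp
    show S.res φ u p.1 p.2 = 0
    unfold Setup.res
    rw [h0, smul_zero]
  have h2 := hL (subset_tsupport _ h1)
  rw [mem_closedBall_zero_iff] at h2 ⊢
  have h3 := norm_emb_sq φ p.1 p.2
  have h0 : 0 ≤ ‖emb φ p.1 p.2‖ := norm_nonneg _
  rw [Prod.norm_def]
  refine max_le ?_ ?_
  · refine le_trans ?_ h2
    refine le_of_pow_le_pow_left₀ two_ne_zero h0 ?_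
    rw [h3]
    nlinarith [sq_nonneg ‖p.2‖]
  · refine le_trans ?_ h2
    refine le_of_pow_le_pow_left₀ two_ne_zero h0 ?_
    rw [h3]
    nlinarith [sq_nonneg ‖p.1‖]

lemma memLp_res (S : Setup d F) (φ : Spl dh dm d) {u : Cfg d → F} (hu : Setup.Tst u) :
    MemLp (fun p : Cfg dh × Wsp dm => S.res φ u p.1 p.2) 2 (volume.prod volume) :=
  (cont_res S φ hu.1.continuous).memLp_of_hasCompactSupport (cs_res S φ hu.2)

/-! ### products of square integrable functions -/

lemma int_inner {X : Type*} [MeasurableSpace X] {μ : Measure X} {f g : X → F} (hf : MemLp f 2 μ) (hg : MemLp g 2 μ) :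
    Integrable (fun x => (inner ℂ (f x) (g x) : ℂ)) μ := by
  have h1 : Integrable (fun x => ‖f x‖ ^ 2) μ := hf.integrable_norm_pow (by norm_num)
  have h2 : Integrable (fun x => ‖g x‖ ^ 2) μ := hg.integrable_norm_pow (by norm_num)
  refine (h1.add h2).mono' (hf.1.inner hg.1) (Eventually.of_forall fun x => ?_)
  refine (norm_inner_le_norm (𝕜 := ℂ) _ _).trans ?_
  show ‖f x‖ * ‖g x‖ ≤ ‖f x‖ ^ 2 + ‖g x‖ ^ 2
  nlinarith [sq_nonneg (‖f x‖ - ‖g x‖), sq_nonneg ‖f x‖, sq_nonneg ‖g x‖]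

/-! ### the slice functional -/

/-- integrals over the slice in the coordinates of `cmb` -/
lemma int_cmb (hCmb : AD.CmbStmt) (ψ : Spl ds dz dh) (g : Cfg dh × Wsp dm → ℂ)
    (hg : Integrable g (volume.prod volume)) :
    ∫ yz : Cfg dz, ∫ ys : Cfg ds, ∫ w : Wsp dm, g (AD.cmb ψ ys yz, w) =
      ∫ p, g p ∂((volume : Measure (Cfg dh)).prod (volume : Measure (Wsp dm))) := by
  obtain ⟨-, -, -, -, -, -, hmp⟩ := hCmb ds dz dh ψ
  rw [integral_prod g hg]
  have hH : Integrable (fun y : Cfg dh => ∫ w : Wsp dm, g (y, w)) volume := hg.integral_prod_left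
  have h1 : ∫ y : Cfg dh, ∫ w : Wsp dm, g (y, w) =
      ∫ q : Cfg ds × Cfg dz, (∫ w : Wsp dm, g (AD.cmb ψ q.1 q.2, w)) ∂(volume.prod volume) := by
    have h2 := integral_map (μ := (volume : Measure (Cfg ds)).prod (volume : Measure (Cfg dz)))
      hmp.measurable.aemeasurable (f := fun y : Cfg dh => ∫ w : Wsp dm, g (y, w))
      (by rw [hmp.map_eq]; exact hH.1)
    rw [hmp.map_eq] at h2
    exact h2
  rw [h1]
  have h3 : Integrable (fun q : Cfg ds × Cfg dz => ∫ w : Wsp dm, g (AD.cmb ψ q.1 q.2, w)) (volume.prod volume) :=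
    hmp.integrable_comp_of_integrable hH
  rw [integral_prod_symm _ h3]

/-- `sfun` as one integral over the slice box -/
lemma sfun_eq [FiniteDimensional ℂ F] (S : Setup d F) (φ : Spl dh dm d) (ψ : Spl ds dz dh) (hCmb : AD.CmbStmt) {z₀ : Cfg dz}
    {δ : ℝ} (hPc : ∀ η, ‖η - z₀‖ ≤ δ → ∀ R : ℝ, 0 < R →
      AD.omc S.κ (AD.Dz S φ ψ (R • η)) = R • AD.omc S.κ (AD.Dz S φ ψ η) ∧
      S.F0 φ (AD.Dz S φ ψ (R • η)) (AD.omc S.κ (AD.Dz S φ ψ (R • η))) =
        S.F0 φ (AD.Dz S φ ψ η) (AD.omc S.κ (AD.Dz S φ ψ η))) (χ : Cfg dz → ℝ)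
    (hχ : ∀ η, χ η ≠ 0 → ‖η - z₀‖ ≤ δ) (o : Cfg ds → F) {R : ℝ} (hR : 0 < R) (ε : ℝ) (u : Cfg d → F) (hu : Setup.Tst u)
    (hv : MemLp (fun p : Cfg dh × Wsp dm => Ts0 (swp ψ) (vv S φ ψ χ o) R p.1 p.2) 2 (volume.prod volume)) :
    AD.sfun S φ ψ ε R χ o u = ∫ p in Eb ψ dm ε R,
      inner ℂ (Ts0 (swp ψ) (vv S φ ψ χ o) R p.1 p.2) (S.res φ u p.1 p.2) ∂(volume.prod volume) := by
  obtain ⟨hsp, hzp, -⟩ := hCmb ds dz dh ψ
  have hg : Integrable (fun p : Cfg dh × Wsp dm => (inner ℂ (Ts0 (swp ψ) (vv S φ ψ χ o) R p.1 p.2)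
      (S.res φ u p.1 p.2) : ℂ)) (volume.prod volume) := int_inner hv (memLp_res S φ hu)
  rw [← integral_indicator (meas_Eb ψ ε R), ← int_cmb hCmb ψ _ (hg.indicator (meas_Eb ψ ε R))]
  unfold AD.sfun
  rw [← integral_const_mul]
  refine integral_congr_ae (Eventually.of_forall fun yz => ?_)
  simp only
  rw [← mul_assoc, ← integral_indicator measurableSet_ball, ← integral_const_mul]
  refine integral_congr_ae (Eventually.of_forall fun ys => ?_)
  simp only
  by_cases hys : ys ∈ Metric.ball (0 : Cfg ds) (ε * R)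
  · rw [Set.indicator_of_mem hys, ← integral_indicator measurableSet_ball, ← integral_const_mul]
    refine integral_congr_ae (Eventually.of_forall fun w => ?_)
    simp only
    by_cases hw : w ∈ Metric.ball (0 : Wsp dm) (ε * R)
    · rw [Set.indicator_of_mem hw, Set.indicator_of_mem, mul_assoc]
      · exact pt_id S φ ψ hCmb hPc χ hχ o hR ys yz w _
      · refine ⟨?_, ?_⟩
        · show ‖AD.sp ψ (AD.cmb ψ ys yz)‖ < ε * R
          rw [hsp]
          exact mem_ball_zero_iff.1 hys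
        · exact mem_ball_zero_iff.1 hw
    · rw [Set.indicator_of_notMem hw, Set.indicator_of_notMem, mul_zero]
      intro h
      exact hw (mem_ball_zero_iff.2 h.2)
  · rw [Set.indicator_of_notMem hys, mul_zero]
    symm
    refine integral_eq_zero_of_ae (Eventually.of_forall fun w => ?_)
    simp only [Pi.zero_apply]
    rw [Set.indicator_of_notMem]
    intro h
    have h1 : ‖AD.sp ψ (AD.cmb ψ ys yz)‖ < ε * R := h.1
    rw [hsp] at h1
    exact hys (mem_ball_zero_iff.2 h1)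

end Vale.Agent.P353.Z.AN.SfuA
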