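import Vale.Agent.P353.AN.GL.SfuD

/-! # P353, all `N`, block GL: GL12 for sequences with bounded norm -/

open MeasureTheory Filter Topology Matrix
open scoped ContDiff ENNReal

namespace Vale.Agent.P353.Z.AN.SfuA

variable {d dh dm ds dz : ℕ} {F : Type*} [NormedAddCommGroup F] [InnerProductSpace ℂ F]

lemma diff_le {X : Type*} [MeasurableSpace X] {μ : Measure X} {f g : X → F} (hf : MemLp f 2 μ) (hg : MemLp g 2 μ)
    {E N : Set X} (hE : MeasurableSet E) (hN : MeasurableSet N) (h : ∀ x ∈ E, f x ≠ 0 → x ∈ N) :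
    ‖(∫ x in E, (inner ℂ (f x) (g x) : ℂ) ∂μ) - ∫ x in N, inner ℂ (f x) (g x) ∂μ‖ₑ ≤
      (∫⁻ x in Eᶜ, ‖f x‖ₑ ^ 2 ∂μ) ^ (1 / 2 : ℝ) * (∫⁻ x in N, ‖g x‖ₑ ^ 2 ∂μ) ^ (1 / 2 : ℝ) := by
  have hi : Integrable (fun x => (inner ℂ (f x) (g x) : ℂ)) μ := int_inner hf hg
  have e1 : (∫ x in E, (inner ℂ (f x) (g x) : ℂ) ∂μ) - ∫ x in N, inner ℂ (f x) (g x) ∂μ =
      -∫ x in N \ E, inner ℂ (f x) (g x) ∂μ := by
    rw [← integral_indicator hE, ← integral_indicator hN, ← integral_indicator (hN.diff hE),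
      ← integral_sub (hi.indicator hE) (hi.indicator hN), ← integral_neg]
    refine integral_congr_ae (Eventually.of_forall fun x => ?_)
    simp only
    by_cases h1 : x ∈ E
    · by_cases h2 : x ∈ N
      · rw [Set.indicator_of_mem h1, Set.indicator_of_mem h2, Set.indicator_of_notMem (fun h3 => h3.2 h1), sub_self,
          neg_zero]
      · have h3 : f x = 0 := by
          by_contra h3
          exact h2 (h x h1 h3)
        rw [Set.indicator_of_mem h1, Set.indicator_of_notMem h2, Set.indicator_of_notMem (fun h3 => h3.2 h1), h3]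
        simp
    · by_cases h2 : x ∈ N
      · rw [Set.indicator_of_notMem h1, Set.indicator_of_mem h2, Set.indicator_of_mem (show x ∈ N \ E from ⟨h2, h1⟩),
          zero_sub]
      · rw [Set.indicator_of_notMem h1, Set.indicator_of_notMem h2, Set.indicator_of_notMem (fun h3 => h2 h3.1),
          sub_self, neg_zero]
  rw [e1, enorm_neg]
  refine (enorm_integral_le_lintegral_enorm _).trans ?_
  have e2 : ∫⁻ x in N \ E, ‖(inner ℂ (f x) (g x) : ℂ)‖ₑ ∂μ ≤ ∫⁻ x in N \ E, ‖f x‖ₑ * ‖g x‖ₑ ∂μ := by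
    refine lintegral_mono fun x => ?_
    rw [← ofReal_norm, ← ofReal_norm, ← ofReal_norm, ← ENNReal.ofReal_mul (norm_nonneg _)]
    exact ENNReal.ofReal_le_ofReal (norm_inner_le_norm (𝕜 := ℂ) _ _)
  refine e2.trans ?_
  have e3 := ENNReal.lintegral_mul_le_Lp_mul_Lq (μ.restrict (N \ E)) Real.HolderConjugate.two_two
    (f := fun x => ‖f x‖ₑ) (g := fun x => ‖g x‖ₑ) hf.1.enorm.restrict hg.1.enorm.restrict
  refine e3.trans ?_
  simp only [ENNReal.rpow_ofNat]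
  refine mul_le_mul' (ENNReal.rpow_le_rpow (lintegral_mono_set fun x hx => hx.2) (by norm_num))
    (ENNReal.rpow_le_rpow (lintegral_mono_set fun x hx => hx.1) (by norm_num))

lemma lint_sq {X : Type*} [MeasurableSpace X] {μ : Measure X} {f : X → F} (hm : MemLp f 2 μ) (N : Set X) :
    ∫⁻ p in N, ‖f p‖ₑ ^ 2 ∂μ = ENNReal.ofReal (∫ p in N, ‖f p‖ ^ 2 ∂μ) := by
  have h1 : Integrable (fun p => ‖f p‖ ^ 2) (μ.restrict N) :=
    (hm.integrable_norm_pow (by norm_num)).restrict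
  rw [ofReal_integral_eq_lintegral_ofReal h1 (Eventually.of_forall fun p => sq_nonneg _)]
  refine lintegral_congr fun p => ?_
  rw [← ofReal_norm, ENNReal.ofReal_pow (norm_nonneg _)]

lemma int_le {u : Cfg d → F} (hu : Setup.Tst u) (T : Set (Cfg d)) :
    ∫ x in T, ‖u x‖ ^ 2 ≤ ∫ x, ‖u x‖ ^ 2 := by
  have h3 : Integrable (fun x => ‖u x‖ ^ 2) (volume : Measure (Cfg d)) :=
    (hu.1.continuous.memLp_of_hasCompactSupport hu.2 (p := 2)).integrable_norm_pow (by norm_num)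
  exact setIntegral_le_integral h3 (Eventually.of_forall fun x => sq_nonneg _)

lemma lint_res {S : Setup d F} {φ : Spl dh dm d} {u : Cfg d → F} (hu : Setup.Tst u) {T : Set (Cfg d)}
    {N : Set (Cfg dh × Wsp dm)} {c C : ℝ} (hc : 0 < c)
    (h : ∫ x in T, ‖u x‖ ^ 2 = c * ∫ p in N, ‖S.res φ u p.1 p.2‖ ^ 2 ∂(volume.prod volume))
    (hC : ∫ x, ‖u x‖ ^ 2 ≤ C) :
    ∫⁻ p in N, ‖S.res φ u p.1 p.2‖ₑ ^ 2 ∂(volume.prod volume) ≤ ENNReal.ofReal (C / c) := by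
  rw [lint_sq (memLp_res (dh := dh) (dm := dm) S φ hu) N]
  refine ENNReal.ofReal_le_ofReal ?_
  rw [le_div_iff₀ hc, mul_comm, ← h]
  exact (int_le hu T).trans hC

/-- the support of the slice section inside the box lies in the slice ball -/
lemma supp_Nb [FiniteDimensional ℂ F] (S : Setup d F) (φ : Spl dh dm d) (ψ : Spl ds dz dh) (hCmb : AD.CmbStmt) {z₀ : Cfg dz}
    {ε εG R : ℝ} (hR : 0 < R) (hε : 0 < ε) (hεG : 2 * ε ≤ εG) (χ : Cfg dz → ℝ) (hχ : ∀ η, χ η ≠ 0 → ‖η - z₀‖ < ε)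
    (o : Cfg ds → F) (p : Cfg dh × Wsp dm) (hp : p ∈ Eb ψ dm ε R)
    (h0 : Ts0 (swp ψ) (vv S φ ψ χ o) R p.1 p.2 ≠ 0) : p ∈ Nb (cmb (swp ψ) z₀ 0) dm R εG := by
  obtain ⟨-, -, h3, h4, h5, h6, -⟩ := hCmb ds dz dh ψ
  have h1 : χ (R⁻¹ • AD.zp ψ p.1) ≠ 0 := by
    intro h
    apply h0
    unfold Ts0
    rw [vv_eq, hz_swp]
    unfold aP
    rw [h]
    simp
  have h2 := hχ _ h1
  have hRe : 0 < ε * R := mul_pos hε hR
  have h2' : ‖AD.zp ψ p.1 - R • z₀‖ < ε * R := by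
    have e : AD.zp ψ p.1 - R • z₀ = R • (R⁻¹ • AD.zp ψ p.1 - z₀) := by
      rw [smul_sub, smul_smul, mul_inv_cancel₀ hR.ne', one_smul]
    rw [e, norm_smul, Real.norm_of_nonneg hR.le, mul_comm]
    exact mul_lt_mul_of_pos_right h2 hR
  have hle : 2 * (ε * R) ≤ εG * R := by nlinarith
  have hp1 : ‖AD.sp ψ p.1‖ < ε * R := hp.1
  refine ⟨?_, ?_⟩
  · show ‖p.1 - R • cmb (swp ψ) z₀ 0‖ < εG * R
    refine lt_of_lt_of_le ?_ hle
    rw [cmb_swp, h6, smul_zero]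
    have e : p.1 = AD.cmb ψ (AD.sp ψ p.1) (AD.zp ψ p.1) := (h3 p.1).symm
    rw [e, h5, sub_zero]
    have n1 := h4 (AD.sp ψ p.1) (AD.zp ψ p.1 - R • z₀)
    have hsp : AD.sp ψ (AD.cmb ψ (AD.sp ψ p.1) (AD.zp ψ p.1)) = AD.sp ψ p.1 := by rw [h3]
    have hzp : AD.zp ψ (AD.cmb ψ (AD.sp ψ p.1) (AD.zp ψ p.1)) = AD.zp ψ p.1 := by rw [h3]
    refine lt_of_pow_lt_pow_left₀ 2 (by positivity) ?_
    rw [n1]
    have m1 := pow_lt_pow_left₀ hp1 (norm_nonneg _) two_ne_zero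
    have m2 := pow_lt_pow_left₀ h2' (norm_nonneg _) two_ne_zero
    nlinarith
  · show ‖p.2‖ < εG * R
    have hp2 : ‖p.2‖ < ε * R := hp.2
    linarith

/-! ### the cutoffs -/

/-- the cutoffs of `Zgl` -/
noncomputable def chn (c : ℝ → ℝ) (ε R : ℝ) (q : Cfg dz × Cfg ds × Cfg dm) : ℝ :=
  c (‖q.2.1‖ ^ 2 / (ε * R) ^ 2) * c (‖q.2.2‖ ^ 2 / ((ε * R) ^ 2 * R))

lemma chn_meas {c : ℝ → ℝ} (hc : Ctf c) (ε R : ℝ) :
    Measurable (chn c ε R : Cfg dz × Cfg ds × Cfg dm → ℝ) := by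
  have h := hc.sm.continuous
  have h1 : Continuous (chn c ε R : Cfg dz × Cfg ds × Cfg dm → ℝ) := by
    unfold chn
    refine Continuous.mul (h.comp ?_) (h.comp ?_)
    · exact (continuous_snd.fst.norm.pow 2).div_const _
    · exact (continuous_snd.snd.norm.pow 2).div_const _
  exact h1.measurable

lemma chn_bd {c : ℝ → ℝ} (hc : Ctf c) (ε R : ℝ) (q : Cfg dz × Cfg ds × Cfg dm) :
    0 ≤ chn c ε R q ∧ chn c ε R q ≤ 1 :=
  ⟨mul_nonneg (hc.bd _).1 (hc.bd _).1, mul_le_one₀ (hc.bd _).2 (hc.bd _).1 (hc.bd _).2⟩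

lemma ctf_lt {c : ℝ → ℝ} (hc : Ctf c) {t : ℝ} (h : c t ≠ 0) : t < 1 := by
  by_contra h1
  exact h (hc.zero t (not_lt.1 h1))

lemma chn_supp {c : ℝ → ℝ} (hc : Ctf c) {ε R δ : ℝ} (hε : 0 < ε) (hεδ : ε ≤ δ) (hR : 0 < R)
    (q : Cfg dz × Cfg ds × Cfg dm) (h : chn c ε R q ≠ 0) :
    ‖q.2.1‖ ≤ δ * R ∧ ‖q.2.2‖ ≤ δ * (R * Real.sqrt R) := by
  have h1 : c (‖q.2.1‖ ^ 2 / (ε * R) ^ 2) ≠ 0 := left_ne_zero_of_mul h
  have h2 : c (‖q.2.2‖ ^ 2 / ((ε * R) ^ 2 * R)) ≠ 0 := right_ne_zero_of_mul h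
  have hs0 : 0 < Real.sqrt R := Real.sqrt_pos.2 hR
  have h3 := ctf_lt hc h1
  have h4 := ctf_lt hc h2
  rw [div_lt_one (by positivity)] at h3 h4
  have h5 : ‖q.2.1‖ < ε * R := lt_of_pow_lt_pow_left₀ 2 (by positivity) h3
  have h6 : ‖q.2.2‖ < ε * R * Real.sqrt R := by
    refine lt_of_pow_lt_pow_left₀ 2 (by positivity) ?_
    rw [mul_pow, Real.sq_sqrt hR.le]
    exact h4
  refine ⟨h5.le.trans (mul_le_mul_of_nonneg_right hεδ hR.le), h6.le.trans ?_⟩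
  rw [mul_assoc]
  exact mul_le_mul_of_nonneg_right hεδ (by positivity)

lemma chn_lim {c : ℝ → ℝ} (hc : Ctf c) {ε : ℝ} (hε : 0 < ε) {R : ℕ → ℝ} (hlim : Tendsto R atTop atTop)
    (q : Cfg dz × Cfg ds × Cfg dm) : Tendsto (fun n => chn c ε (R n) q) atTop (𝓝 1) := by
  refine tendsto_nhds_of_eventually_eq ?_
  have h3 : ∀ᶠ n in atTop, max 1 ((2 * ‖q.2.1‖ + 2 * ‖q.2.2‖ + 1) / ε) ≤ R n := hlim.eventually_ge_atTop _
  filter_upwards [h3] with n hn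
  have hn1 : 1 ≤ R n := (le_max_left _ _).trans hn
  have hn2 : (2 * ‖q.2.1‖ + 2 * ‖q.2.2‖ + 1) / ε ≤ R n := (le_max_right _ _).trans hn
  rw [div_le_iff₀ hε] at hn2
  have p1 := norm_nonneg q.2.1
  have p2 := norm_nonneg q.2.2
  have hR : 0 < R n := lt_of_lt_of_le one_pos hn1
  have p3 : 0 < ε * R n := mul_pos hε hR
  have e1 : 2 * ‖q.2.1‖ ≤ ε * R n := by nlinarith
  have e2 : 2 * ‖q.2.2‖ ≤ ε * R n := by nlinarith
  have e3 : (2 * ‖q.2.1‖) ^ 2 ≤ (ε * R n) ^ 2 := pow_le_pow_left₀ (by positivity) e1 2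
  have e4 : (2 * ‖q.2.2‖) ^ 2 ≤ (ε * R n) ^ 2 := pow_le_pow_left₀ (by positivity) e2 2
  have e5 : (ε * R n) ^ 2 ≤ (ε * R n) ^ 2 * R n := le_mul_of_one_le_right (by positivity) hn1
  unfold chn
  rw [hc.one, hc.one, mul_one]
  · rw [div_le_iff₀ (by positivity)]
    nlinarith
  · rw [div_le_iff₀ (by positivity)]
    nlinarith

end Vale.Agent.P353.Z.AN.SfuA
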