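import Vale.Agent.P353.AN.GL.StmtD
import Vale.Agent.P353.AN.B.Lam
import Vale.Agent.P353.AN.B.FZero
import Vale.Agent.P353.AN.X.Bri
import Vale.Agent.P353.AN.X.VecSp

/-! # P353, all `N`, block GL11: the frozen data near `z₀` are continuous (`PcStmt`)

The square root is continuous by a Hilbert–Schmidt estimate; the projection onto the fermionic vacuum space is a polynomial in the
number operator `∑ ((1 ⊗ Ω⁻¹)Λ)_{pq} θ_p θ_q`, whose spectrum consists of natural numbers. -/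

section

open Filter Topology Matrix

namespace Vale.Agent.P353.Z.AN.Pc518

section fermi

variable {ι : Type*} [Fintype ι] [DecidableEq ι] {F : Type*} [NormedAddCommGroup F] [InnerProductSpace ℂ F]

/-- `∑_q A_{pq} θ_q` -/
noncomputable def aa (θ : ι → F →L[ℂ] F) (A : Matrix ι ι ℂ) (p : ι) : F →L[ℂ] F := ∑ q, A p q • θ q

/-- `∑_{pq} A_{pq} θ_p θ_q` -/
noncomputable def HH (θ : ι → F →L[ℂ] F) (A : Matrix ι ι ℂ) : F →L[ℂ] F := ∑ p, ∑ q, A p q • (θ p * θ q)

/-- common kernel of the `aa` -/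
noncomputable def KK (θ : ι → F →L[ℂ] F) (A : Matrix ι ι ℂ) : Submodule ℂ F := ⨅ p, LinearMap.ker (aa θ A p).toLinearMap

/-- `∏_{k<m} (1 - T/(k+1))` -/
noncomputable def Pk (T : F →L[ℂ] F) : ℕ → F →L[ℂ] F
  | 0 => 1
  | m + 1 => Pk T m * (1 - ((m + 1 : ℕ) : ℂ)⁻¹ • T)

lemma mem_KK (θ : ι → F →L[ℂ] F) (A : Matrix ι ι ℂ) (v : F) : v ∈ KK θ A ↔ ∀ p, aa θ A p v = 0 := by
  simp [KK, Submodule.mem_iInf]

lemma continuous_Pk (m : ℕ) : Continuous fun T : F →L[ℂ] F => Pk T m := by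
  induction m with
  | zero => exact continuous_const
  | succ m ih =>
    simp only [Pk]
    exact ih.mul (continuous_const.sub (continuous_const_smul _))

lemma Pk_eigen (T : F →L[ℂ] F) {v : F} {μ : ℂ} (h : T v = μ • v) (m : ℕ) :
    Pk T m v = (∏ k ∈ Finset.range m, (1 - ((k + 1 : ℕ) : ℂ)⁻¹ * μ)) • v := by
  induction m with
  | zero => simp [Pk]
  | succ m ih =>
    rw [Pk, Finset.prod_range_succ]
    change Pk T m ((1 - ((m + 1 : ℕ) : ℂ)⁻¹ • T) v) = _
    have h1 : (1 - ((m + 1 : ℕ) : ℂ)⁻¹ • T) v = (1 - ((m + 1 : ℕ) : ℂ)⁻¹ * μ) • v := by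
      rw [_root_.sub_apply, _root_.smul_apply, h, one_apply_eq_self, sub_smul, one_smul, smul_smul]
    rw [h1, map_smul, ih, smul_smul, mul_comm]

variable {θ : ι → F →L[ℂ] F} (hθ : ∀ p q, θ p * θ q + θ q * θ p = if p = q then 1 else 0)
  (hs : ∀ p v w, inner ℂ (θ p v) w = inner ℂ v (θ p w))

include hs in
lemma inner_HH {A : Matrix ι ι ℂ} (hA : Aᴴ = A) (hAA : A * A = A) (v w : F) :
    inner ℂ v (HH θ A w) = ∑ r, inner ℂ (aa θ A r v) (aa θ A r w) := by
  have h1 : inner ℂ v (HH θ A w) = ∑ p, ∑ q, A p q * inner ℂ (θ p v) (θ q w) := by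
    rw [HH, _root_.sum_apply, inner_sum]
    refine Finset.sum_congr rfl fun p _ => ?_
    rw [_root_.sum_apply, inner_sum]
    refine Finset.sum_congr rfl fun q _ => ?_
    rw [_root_.smul_apply, inner_smul_right, hs]
    rfl
  have h2 : ∀ r, inner ℂ (aa θ A r v) (aa θ A r w) = ∑ p, ∑ q, (A p r * A r q) * inner ℂ (θ p v) (θ q w) := by
    intro r
    rw [aa, _root_.sum_apply, sum_inner]
    refine Finset.sum_congr rfl fun p _ => ?_
    rw [_root_.sum_apply, inner_sum]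
    refine Finset.sum_congr rfl fun q _ => ?_
    have h5 : (starRingEnd ℂ) (A r p) = A p r := by
      have := congrFun (congrFun hA p) r
      rwa [conjTranspose_apply] at this
    rw [_root_.smul_apply, _root_.smul_apply, inner_smul_left, inner_smul_right, h5]
    ring
  rw [h1]
  simp only [h2]
  symm
  rw [Finset.sum_comm]
  refine Finset.sum_congr rfl fun p _ => ?_
  rw [Finset.sum_comm]
  refine Finset.sum_congr rfl fun q _ => ?_
  have h6 : A p q = ∑ r, A p r * A r q := by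
    rw [← mul_apply, hAA]
  rw [h6, Finset.sum_mul]

lemma inner_sq (v : F) : inner ℂ v v = ((‖v‖ ^ 2 : ℝ) : ℂ) := by
  rw [inner_self_eq_norm_sq_to_K]
  norm_cast

include hs in
lemma HH_symm {A : Matrix ι ι ℂ} (hA : Aᴴ = A) (hAA : A * A = A) (v w : F) :
    inner ℂ (HH θ A v) w = inner ℂ v (HH θ A w) := by
  rw [← inner_conj_symm, inner_HH hs hA hAA, inner_HH hs hA hAA, map_sum]
  exact Finset.sum_congr rfl fun r _ => inner_conj_symm _ _

include hs in
lemma HH_nonneg {A : Matrix ι ι ℂ} (hA : Aᴴ = A) (hAA : A * A = A) (v : F) :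
    inner ℂ v (HH θ A v) = ((∑ r, ‖aa θ A r v‖ ^ 2 : ℝ) : ℂ) := by
  rw [inner_HH hs hA hAA, Complex.ofReal_sum]
  exact Finset.sum_congr rfl fun r _ => inner_sq _

include hs in
lemma HH_eig {A : Matrix ι ι ℂ} (hA : Aᴴ = A) (hAA : A * A = A) {v : F} {μ : ℝ} (h : HH θ A v = (μ : ℂ) • v) :
    μ * ‖v‖ ^ 2 = ∑ r, ‖aa θ A r v‖ ^ 2 := by
  have h1 := HH_nonneg hs hA hAA v
  rw [h, inner_smul_right, inner_sq, ← Complex.ofReal_mul] at h1
  exact Complex.ofReal_injective h1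

include hθ in
lemma HH_add {A : Matrix ι ι ℂ} (hAt : A + Aᵀ = 1) :
    HH θ A + HH θ Aᵀ = ((Fintype.card ι : ℂ) / 2) • (1 : F →L[ℂ] F) := by
  have h1 : HH θ A + HH θ Aᵀ = ∑ p, ∑ q, (A + Aᵀ) p q • (θ p * θ q) := by
    rw [HH, HH, ← Finset.sum_add_distrib]
    refine Finset.sum_congr rfl fun p _ => ?_
    rw [← Finset.sum_add_distrib]
    refine Finset.sum_congr rfl fun q _ => ?_
    rw [← add_smul]
    rfl
  have h2 : ∀ p, θ p * θ p = (1 / 2 : ℂ) • (1 : F →L[ℂ] F) := by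
    intro p
    have := hθ p p
    rw [if_pos rfl, ← two_smul ℂ] at this
    rw [← this, smul_smul]
    norm_num
  rw [h1, hAt]
  simp only [Matrix.one_apply, ite_smul, one_smul, zero_smul, Finset.sum_ite_eq, Finset.mem_univ, if_true, h2,
    Finset.sum_const, Finset.card_univ]
  rw [← Nat.cast_smul_eq_nsmul ℂ, smul_smul]
  congr 1
  ring

include hθ in
lemma HH_comm {A : Matrix ι ι ℂ} (hAA : A * A = A) (hAt : A + Aᵀ = 1) (r : ι) :
    HH θ A * aa θ A r = aa θ A r * HH θ A - aa θ A r := by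
  -- `[H, θ_s] = ∑_q (Aᵀ - A)_{sq} θ_q`
  have h1 : ∀ s, HH θ A * θ s = θ s * HH θ A + ∑ q, (Aᵀ - A) s q • θ q := by
    intro s
    have e1 : ∀ p q, (θ p * θ q) * θ s = θ s * (θ p * θ q) + (if q = s then θ p else 0) -
        (if p = s then θ q else 0) := by
      intro p q
      have a1 : θ q * θ s = (if q = s then 1 else 0) - θ s * θ q := by
        rw [← hθ q s]; abel
      have a2 : θ p * θ s = (if p = s then 1 else 0) - θ s * θ p := by
        rw [← hθ p s]; abel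
      rw [mul_assoc, a1, mul_sub, ← mul_assoc (θ p), a2, sub_mul, mul_assoc]
      split_ifs <;> simp <;> abel
    have e2 : HH θ A * θ s = ∑ p, ∑ q, A p q • ((θ p * θ q) * θ s) := by
      simp only [HH, Finset.sum_mul, smul_mul_assoc]
    have e3 : θ s * HH θ A = ∑ p, ∑ q, A p q • (θ s * (θ p * θ q)) := by
      simp only [HH, Finset.mul_sum, mul_smul_comm]
    rw [e2, e3]
    simp only [e1, smul_sub, smul_add, Finset.sum_sub_distrib, Finset.sum_add_distrib]
    rw [add_sub_assoc]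
    congr 1
    simp only [smul_ite, smul_zero, Matrix.sub_apply, Matrix.transpose_apply, sub_smul, Finset.sum_sub_distrib]
    congr 1
    · simp
    · rw [Finset.sum_comm]
      simp
  have h2 : HH θ A * aa θ A r = ∑ s, A r s • (HH θ A * θ s) := by
    simp only [aa, Finset.mul_sum, mul_smul_comm]
  have h3 : aa θ A r * HH θ A = ∑ s, A r s • (θ s * HH θ A) := by
    simp only [aa, Finset.sum_mul, smul_mul_assoc]
  have h4 : A * (Aᵀ - A) = -A := by
    have : Aᵀ = 1 - A := eq_sub_of_add_eq' hAt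
    rw [this, mul_sub, mul_sub, mul_one, hAA]
    abel
  rw [h2, h3]
  simp only [h1, smul_add, Finset.sum_add_distrib]
  have h5 : ∑ s, A r s • ∑ q, (Aᵀ - A) s q • θ q = ∑ q, (A * (Aᵀ - A)) r q • θ q := by
    simp only [Finset.smul_sum, smul_smul, Matrix.mul_apply, Finset.sum_smul]
    rw [Finset.sum_comm]
  have h6 : ∑ q, (-A) r q • θ q = -aa θ A r := by
    simp [aa]
  rw [h5, h4, h6, ← sub_eq_add_neg]

include hθ hs in
lemma eig_nat {A : Matrix ι ι ℂ} (hA : Aᴴ = A) (hAA : A * A = A) (hAt : A + Aᵀ = 1) :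
    ∀ (n : ℕ) (μ : ℝ) (v : F), v ≠ 0 → HH θ A v = (μ : ℂ) • v → μ < n → ∃ k : ℕ, μ = k := by
  intro n
  induction n with
  | zero =>
    intro μ v hv hH hμ
    exfalso
    have h2 := HH_eig hs hA hAA hH
    have h3 : 0 ≤ ∑ r, ‖aa θ A r v‖ ^ 2 := Finset.sum_nonneg fun r _ => by positivity
    have h4 : 0 < ‖v‖ ^ 2 := by
      have := norm_pos_iff.2 hv
      positivity
    rw [Nat.cast_zero] at hμ
    nlinarith
  | succ n ih =>
    intro μ v hv hH hμ
    by_cases hall : ∀ r, aa θ A r v = 0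
    · refine ⟨0, ?_⟩
      have h2 := HH_eig hs hA hAA hH
      simp only [hall, norm_zero] at h2
      have h4 : ‖v‖ ^ 2 ≠ 0 := pow_ne_zero _ (norm_ne_zero_iff.2 hv)
      rw [Nat.cast_zero]
      have h5 : μ * ‖v‖ ^ 2 = 0 := by rw [h2]; simp
      exact (mul_eq_zero.1 h5).resolve_right h4
    · push Not at hall
      obtain ⟨r, hr⟩ := hall
      have h1 : HH θ A (aa θ A r v) = ((μ - 1 : ℝ) : ℂ) • aa θ A r v := by
        have h2 := DFunLike.congr_fun (HH_comm hθ hAA hAt r) v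
        change HH θ A (aa θ A r v) = (aa θ A r * HH θ A - aa θ A r) v at h2
        rw [h2]
        change aa θ A r (HH θ A v) - aa θ A r v = _
        rw [hH, map_smul]
        push_cast
        rw [sub_smul, one_smul]
      obtain ⟨k, hk⟩ := ih (μ - 1) _ hr h1 (by push_cast at hμ; linarith)
      exact ⟨k + 1, by push_cast; linarith⟩

include hθ hs in
lemma eig_le {A : Matrix ι ι ℂ} (hA : Aᴴ = A) (hAA : A * A = A) (hAt : A + Aᵀ = 1) {μ : ℝ} {v : F} (hv : v ≠ 0)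
    (hH : HH θ A v = (μ : ℂ) • v) : 0 ≤ μ ∧ μ ≤ Fintype.card ι := by
  have h2 := HH_eig hs hA hAA hH
  have h3 : 0 ≤ ∑ r, ‖aa θ A r v‖ ^ 2 := Finset.sum_nonneg fun r _ => by positivity
  have h4 : 0 < ‖v‖ ^ 2 := by
    have := norm_pos_iff.2 hv
    positivity
  have hAt' : Aᵀᴴ = Aᵀ := by
    ext i j
    rw [conjTranspose_apply, transpose_apply, transpose_apply]
    exact congrFun (congrFun hA j) i
  have hAAt : Aᵀ * Aᵀ = Aᵀ := by rw [← transpose_mul, hAA]
  have h6 := DFunLike.congr_fun (HH_add hθ hAt) v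
  rw [_root_.add_apply, hH, _root_.smul_apply, one_apply_eq_self] at h6
  have h7 : HH θ Aᵀ v = (((Fintype.card ι : ℝ) / 2 - μ : ℝ) : ℂ) • v := by
    push_cast
    rw [sub_smul, ← h6]
    abel
  have h8 := HH_eig hs hAt' hAAt h7
  have h9 : 0 ≤ ∑ r, ‖aa θ Aᵀ r v‖ ^ 2 := Finset.sum_nonneg fun r _ => by positivity
  have hc : (0 : ℝ) ≤ Fintype.card ι := Nat.cast_nonneg _
  constructor
  · by_contra hneg
    push Not at hneg
    nlinarith
  · by_contra hneg
    push Not at hneg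
    have : (Fintype.card ι : ℝ) / 2 - μ < 0 := by linarith
    nlinarith

include hθ hs in
/-- the projection onto the vacuum space is a polynomial in the number operator -/
theorem proj_eq [FiniteDimensional ℂ F] {A : Matrix ι ι ℂ} (hA : Aᴴ = A) (hAA : A * A = A) (hAt : A + Aᵀ = 1) :
    (KK θ A).starProjection = Pk (HH θ A) (Fintype.card ι) := by
  set T : F →ₗ[ℂ] F := (HH θ A).toLinearMap with hT
  have hsym : T.IsSymmetric := fun v w => HH_symm hs hA hAA v w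
  set b := hsym.eigenvectorBasis (n := Module.finrank ℂ F) rfl with hb
  apply ContinuousLinearMap.coe_injective
  refine b.toBasis.ext fun i => ?_
  rw [OrthonormalBasis.coe_toBasis]
  change (KK θ A).starProjection (b i) = Pk (HH θ A) (Fintype.card ι) (b i)
  have hne : b i ≠ 0 := b.orthonormal.ne_zero i
  have heig : HH θ A (b i) = ((hsym.eigenvalues rfl i : ℝ) : ℂ) • b i := hsym.apply_eigenvectorBasis rfl i
  set μ : ℝ := hsym.eigenvalues rfl i with hμ
  obtain ⟨h0, h1⟩ := eig_le hθ hs hA hAA hAt hne heig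
  obtain ⟨k, hk⟩ := eig_nat hθ hs hA hAA hAt (Fintype.card ι + 1) μ (b i) hne heig (by push_cast; linarith)
  rw [Pk_eigen _ heig]
  rcases Nat.eq_zero_or_pos k with hk0 | hk0
  · have hμ0 : μ = 0 := by rw [hk, hk0, Nat.cast_zero]
    have hmem : b i ∈ KK θ A := by
      rw [mem_KK]
      have h2 := HH_nonneg hs hA hAA (b i)
      rw [heig, hμ0, Complex.ofReal_zero, zero_smul, inner_zero_right] at h2
      have h3 : ∑ r, ‖aa θ A r (b i)‖ ^ 2 = 0 := by exact_mod_cast h2.symm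
      intro p
      have h4 := (Finset.sum_eq_zero_iff_of_nonneg fun r _ => by positivity).1 h3 p (Finset.mem_univ p)
      exact norm_eq_zero.1 (eq_zero_of_pow_eq_zero h4)
    rw [Submodule.starProjection_eq_self_iff.2 hmem, hμ0]
    simp
  · have hkm : k ≤ Fintype.card ι := by
      rw [hk] at h1
      exact_mod_cast h1
    have hprod : ∏ j ∈ Finset.range (Fintype.card ι), (1 - ((j + 1 : ℕ) : ℂ)⁻¹ * (μ : ℂ)) = 0 := by
      refine Finset.prod_eq_zero (i := k - 1) (Finset.mem_range.2 (by omega)) ?_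
      rw [Nat.sub_add_cancel hk0, hk, Complex.ofReal_natCast, inv_mul_cancel₀, sub_self]
      exact_mod_cast hk0.ne'
    rw [hprod, zero_smul]
    rw [Submodule.starProjection_apply_eq_zero_iff, Submodule.mem_orthogonal]
    intro u hu
    have h2 : HH θ A u = 0 := by
      have h3 : ∀ w, inner ℂ w (HH θ A u) = 0 := by
        intro w
        rw [inner_HH hs hA hAA]
        refine Finset.sum_eq_zero fun r _ => ?_
        rw [(mem_KK θ A u).1 hu r, inner_zero_right]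
      exact inner_self_eq_zero.1 (h3 _)
    have h3 := HH_symm hs hA hAA u (b i)
    rw [h2, inner_zero_left, heig, inner_smul_right] at h3
    refine (mul_eq_zero.1 h3.symm).resolve_left ?_
    rw [hk, Complex.ofReal_natCast]
    exact_mod_cast hk0.ne'

omit [DecidableEq ι] in
lemma continuousOn_HH {X : Type*} [TopologicalSpace X] {s : Set X} (θ : ι → F →L[ℂ] F) {A : X → Matrix ι ι ℂ}
    (hA : ∀ p q, ContinuousOn (fun x => A x p q) s) : ContinuousOn (fun x => HH θ (A x)) s := by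
  unfold HH
  exact continuousOn_finsetSum _ fun p _ => continuousOn_finsetSum _ fun q _ => (hA p q).smul continuousOn_const

end fermi

section root

variable {n : Type*} [Fintype n] [DecidableEq n]

omit [DecidableEq n] in
/-- a positive definite matrix has a lower bound -/
lemma exists_lower {P : Matrix n n ℝ} (hp : ∀ v : n → ℝ, v ≠ 0 → 0 < v ⬝ᵥ (P *ᵥ v)) :
    ∃ c : ℝ, 0 < c ∧ ∀ v : n → ℝ, c * (v ⬝ᵥ v) ≤ v ⬝ᵥ (P *ᵥ v) := by
  set K : Set (n → ℝ) := {v | v ⬝ᵥ v = 1} with hK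
  have hcl : IsClosed K := isClosed_eq (by unfold dotProduct; fun_prop) continuous_const
  have hbd : Bornology.IsBounded K := by
    refine (Metric.isBounded_closedBall (x := (0 : n → ℝ)) (r := 1)).subset ?_
    intro v hv
    rw [mem_closedBall_zero_iff, pi_norm_le_iff_of_nonneg zero_le_one]
    intro i
    have h1 : v i * v i ≤ v ⬝ᵥ v := Finset.single_le_sum (f := fun i => v i * v i)
      (fun i _ => mul_self_nonneg _) (Finset.mem_univ i)
    rw [show v ⬝ᵥ v = 1 from hv] at h1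
    rw [Real.norm_eq_abs, abs_le]
    constructor <;> nlinarith
  have hco : IsCompact K := Metric.isCompact_of_isClosed_isBounded hcl hbd
  have hsc : ∀ v : n → ℝ, v ≠ 0 → 0 < v ⬝ᵥ v ∧ (Real.sqrt (v ⬝ᵥ v))⁻¹ • v ∈ K := by
    intro v hv
    have h1 : 0 < v ⬝ᵥ v := by
      have := dotProduct_self_eq_zero (v := v)
      exact lt_of_le_of_ne (Finset.sum_nonneg fun i _ => mul_self_nonneg _) fun h => hv (this.1 h.symm)
    refine ⟨h1, ?_⟩
    change ((Real.sqrt (v ⬝ᵥ v))⁻¹ • v) ⬝ᵥ ((Real.sqrt (v ⬝ᵥ v))⁻¹ • v) = 1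
    rw [smul_dotProduct, dotProduct_smul, smul_smul, smul_eq_mul, ← mul_inv, Real.mul_self_sqrt h1.le,
      inv_mul_cancel₀ h1.ne']
  by_cases hne : K.Nonempty
  · have hcont : ContinuousOn (fun v : n → ℝ => v ⬝ᵥ (P *ᵥ v)) K := by
      refine Continuous.continuousOn ?_
      unfold mulVec dotProduct
      fun_prop
    obtain ⟨v0, hv0, hmin⟩ := hco.exists_isMinOn hne hcont
    have hv0' : v0 ≠ 0 := by
      rintro rfl
      have h1 : (0 : n → ℝ) ⬝ᵥ 0 = 1 := hv0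
      simp at h1
    refine ⟨v0 ⬝ᵥ (P *ᵥ v0), hp v0 hv0', fun v => ?_⟩
    by_cases hv : v = 0
    · subst hv
      simp
    · obtain ⟨h1, h2⟩ := hsc v hv
      have h3 : v0 ⬝ᵥ (P *ᵥ v0) ≤ _ := hmin h2
      simp only [mulVec_smul, smul_dotProduct, dotProduct_smul, smul_eq_mul] at h3
      rw [← mul_assoc, ← mul_inv, Real.mul_self_sqrt h1.le] at h3
      calc v0 ⬝ᵥ (P *ᵥ v0) * (v ⬝ᵥ v) ≤ ((v ⬝ᵥ v)⁻¹ * (v ⬝ᵥ (P *ᵥ v))) * (v ⬝ᵥ v) :=
            mul_le_mul_of_nonneg_right h3 h1.le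
        _ = v ⬝ᵥ (P *ᵥ v) := by
            rw [mul_comm ((v ⬝ᵥ v)⁻¹), mul_assoc, inv_mul_cancel₀ h1.ne', mul_one]
  · refine ⟨1, one_pos, fun v => ?_⟩
    by_cases hv : v = 0
    · subst hv
      simp
    · exact absurd ⟨_, (hsc v hv).2⟩ hne

omit [DecidableEq n] in
/-- Hilbert–Schmidt estimate for the square root -/
lemma root_est {P Q : Matrix n n ℝ} (hP : Pᵀ = P) (hQ : Qᵀ = Q) (hp : ∀ v : n → ℝ, 0 ≤ v ⬝ᵥ (P *ᵥ v)) {c : ℝ} (hc : 0 < c)
    (hq : ∀ v : n → ℝ, c * (v ⬝ᵥ v) ≤ v ⬝ᵥ (Q *ᵥ v)) :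
    c ^ 2 * ∑ i, ∑ j, (P - Q) i j ^ 2 ≤ ∑ i, ∑ j, (P * P - Q * Q) i j ^ 2 := by
  set X := P - Q with hX
  have hXt : Xᵀ = X := by rw [hX, transpose_sub, hP, hQ]
  have hXs : ∀ i j, X i j = X j i := fun i j => congrFun (congrFun hXt j) i
  set B := P * P - Q * Q with hB
  have hBX : B = P * X + X * Q := by
    rw [hB, hX, mul_sub, sub_mul]
    abel
  have hq1 : ∀ M : Matrix n n ℝ, (X * M * X).trace = ∑ j, (fun i => X i j) ⬝ᵥ (M *ᵥ fun i => X i j) := by
    intro M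
    rw [trace]
    refine Finset.sum_congr rfl fun j _ => ?_
    rw [diag_apply, mul_assoc, mul_apply]
    unfold dotProduct
    refine Finset.sum_congr rfl fun i _ => ?_
    rw [hXs j i]
    rfl
  have hT : (B * X).trace = ∑ i, ∑ j, B i j * X i j := by
    rw [trace]
    refine Finset.sum_congr rfl fun i _ => ?_
    rw [diag_apply, mul_apply]
    exact Finset.sum_congr rfl fun j _ => by rw [hXs j i]
  have hT2 : (B * X).trace = (X * P * X).trace + (X * Q * X).trace := by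
    rw [hBX, add_mul, trace_add]
    congr 1
    rw [mul_assoc, trace_mul_comm, mul_assoc, trace_mul_comm]
  have hN : ∑ j, ((fun i => X i j) ⬝ᵥ fun i => X i j) = ∑ i, ∑ j, X i j ^ 2 := by
    rw [Finset.sum_comm]
    unfold dotProduct
    exact Finset.sum_congr rfl fun j _ => Finset.sum_congr rfl fun i _ => by ring
  set N := ∑ i, ∑ j, X i j ^ 2 with hNd
  have h1 : c * N ≤ ∑ i, ∑ j, B i j * X i j := by
    rw [← hT, hT2, hq1, hq1, ← hN, Finset.mul_sum]
    have e1 : 0 ≤ ∑ j, (fun i => X i j) ⬝ᵥ (P *ᵥ fun i => X i j) := Finset.sum_nonneg fun j _ => hp _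
    have e2 : ∑ j, c * ((fun i => X i j) ⬝ᵥ fun i => X i j) ≤ ∑ j, (fun i => X i j) ⬝ᵥ (Q *ᵥ fun i => X i j) :=
      Finset.sum_le_sum fun j _ => hq _
    linarith
  have hN0 : 0 ≤ N := Finset.sum_nonneg fun i _ => Finset.sum_nonneg fun j _ => sq_nonneg _
  have h2 : (∑ i, ∑ j, B i j * X i j) ^ 2 ≤ (∑ i, ∑ j, B i j ^ 2) * N := by
    have := Finset.sum_mul_sq_le_sq_mul_sq (Finset.univ : Finset (n × n)) (fun p => B p.1 p.2) (fun p => X p.1 p.2)
    rwa [Fintype.sum_prod_type, Fintype.sum_prod_type, Fintype.sum_prod_type] at this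
  set M := ∑ i, ∑ j, B i j ^ 2 with hM
  have hM0 : 0 ≤ M := Finset.sum_nonneg fun i _ => Finset.sum_nonneg fun j _ => sq_nonneg _
  rcases hN0.eq_or_lt with h0 | h0
  · rw [← h0, mul_zero]
    exact hM0
  · have h3 : (c * N) ^ 2 ≤ M * N := le_trans (pow_le_pow_left₀ (by positivity) h1 2) h2
    have h4 : (c ^ 2 * N) * N ≤ M * N := by linarith [h3, show (c * N) ^ 2 = (c ^ 2 * N) * N by ring]
    exact le_of_mul_le_mul_right h4 h0

end root

end Vale.Agent.P353.Z.AN.Pc518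

end

open MeasureTheory Filter Topology Matrix
open scoped ContDiff

namespace Vale.Agent.P353.Z.AN

namespace Pc518

open LamPf

variable {d dh dm : ℕ} {F : Type*} [NormedAddCommGroup F] [InnerProductSpace ℂ F]

/-! ### algebra at a frozen point -/

/-- `(1 ⊗ Ω⁻¹) Λ` -/
noncomputable def AA (S : Setup d F) (D : Fin 9 → Matrix (Fin dm) (Fin dm) ℝ) (Om : Matrix (Fin dm) (Fin dm) ℝ) :
    Matrix (Fin 16 × Fin dm) (Fin 16 × Fin dm) ℂ := l1 Om⁻¹ * S.Lam D Om

/-- the fermions of `m` -/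
noncomputable def th' (S : Setup d F) (φ : Spl dh dm d) (p : Fin 16 × Fin dm) : F →L[ℂ] F := S.th p.1 (φ (Sum.inr p.2))

lemma th'_anti (S : Setup d F) (φ : Spl dh dm d) (p q : Fin 16 × Fin dm) :
    th' S φ p * th' S φ q + th' S φ q * th' S φ p = if p = q then 1 else 0 := by
  unfold th'
  rw [S.th_anti]
  by_cases h : p = q
  · subst h
    simp
  · rw [if_neg, if_neg h]
    rintro ⟨h1, h2⟩
    have h3 := φ.injective h2
    simp only [Sum.inr.injEq] at h3
    exact h (Prod.ext h1 h3)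

lemma th'_sa (S : Setup d F) (φ : Spl dh dm d) (p : Fin 16 × Fin dm) (v w : F) :
    inner ℂ (th' S φ p v) w = inner ℂ v (th' S φ p w) := S.th_sa _ _ _ _

lemma l1_t (M : Matrix (Fin dm) (Fin dm) ℝ) : (l1 M)ᵀ = l1 Mᵀ := by
  ext p q
  by_cases h : p.1 = q.1 <;> simp [l1, lc, kroneckerMap_apply, Matrix.one_apply, h, eq_comm]

lemma PP_t (S : Setup d F) {D : Fin 9 → Matrix (Fin dm) (Fin dm) ℝ} (hD : ∀ i, (D i)ᵀ = -D i) :
    (S.PP D)ᵀ = -S.PP D := by
  ext p q
  simp only [Setup.PP, Matrix.transpose_apply, Matrix.of_apply, Matrix.neg_apply]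
  rw [← mul_neg, ← Finset.sum_neg_distrib]
  congr 1
  refine Finset.sum_congr rfl fun i _ => ?_
  have h1 : S.g i q.1 p.1 = S.g i p.1 q.1 := congrFun (congrFun (S.g_symm i) p.1) q.1
  have h2 : D i q.2 p.2 = -D i p.2 q.2 := congrFun (congrFun (hD i) p.2) q.2
  rw [h1, h2]
  push_cast
  ring

section frozen

variable {S : Setup d F} {D : Fin 9 → Matrix (Fin dm) (Fin dm) ℝ} {Om : Matrix (Fin dm) (Fin dm) ℝ}
  (hD : Frz D) (hO : IsOm S.κ D Om)

lemma det_ne {κ : ℝ} {Om : Matrix (Fin dm) (Fin dm) ℝ} (hO : IsOm κ D Om) : Om.det ≠ 0 := by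
  intro h0
  obtain ⟨v, hv, hv0⟩ := Matrix.exists_mulVec_eq_zero_iff.2 h0
  have p1 := hO.pos v hv
  rw [hv0, dotProduct_zero] at p1
  exact lt_irrefl _ p1

include hD in
lemma comm_D {κ : ℝ} {Om : Matrix (Fin dm) (Fin dm) ℝ} (hO : IsOm κ D Om) (i : Fin 9) : D i * Om = Om * D i := by
  refine hO.comm (D i) ?_
  rw [Finset.mul_sum, Finset.sum_mul]
  refine Finset.sum_congr rfl fun j _ => ?_
  rw [← mul_assoc, hD.comm i j, mul_assoc, hD.comm i j, mul_assoc]

include hD in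
lemma comm_Di {κ : ℝ} {Om : Matrix (Fin dm) (Fin dm) ℝ} (hO : IsOm κ D Om) (i : Fin 9) : D i * Om⁻¹ = Om⁻¹ * D i := by
  have hu : IsUnit Om.det := isUnit_iff_ne_zero.2 (det_ne hO)
  have h1 : Om⁻¹ * (D i * Om) * Om⁻¹ = Om⁻¹ * (Om * D i) * Om⁻¹ := by rw [comm_D hD hO i]
  rw [← mul_assoc Om⁻¹ Om, nonsing_inv_mul _ hu, one_mul, mul_assoc Om⁻¹, mul_assoc (D i),
    mul_nonsing_inv _ hu, mul_one] at h1
  exact h1.symm

include hD hO in
lemma AA_comm : l1 Om⁻¹ * S.Lam D Om = S.Lam D Om * l1 Om⁻¹ := by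
  have hu : IsUnit Om.det := isUnit_iff_ne_zero.2 (det_ne hO)
  have h1 : l1 Om⁻¹ * l1 Om = l1 Om * l1 Om⁻¹ := by
    rw [l1_mul, l1_mul, nonsing_inv_mul _ hu, mul_nonsing_inv _ hu]
  rw [Lam_eq, mul_smul_comm, smul_mul_assoc, mul_sub, sub_mul, mul_smul_comm, smul_mul_assoc,
    l1_PP S D _ (comm_Di hD hO), h1]

include hD hO in
lemma AA_ct : (AA S D Om)ᴴ = AA S D Om := by
  have hs : (Om⁻¹)ᵀ = Om⁻¹ := by rw [transpose_nonsing_inv, hO.symm]
  rw [AA, conjTranspose_mul, Lam_ct S D Om hD.anti hO.symm, l1_ct _ hs, AA_comm hD hO]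

include hD hO in
lemma AA_sq : AA S D Om * AA S D Om = AA S D Om := by
  have hu : IsUnit Om.det := isUnit_iff_ne_zero.2 (det_ne hO)
  have h1 : l1 Om⁻¹ * l1 Om = 1 := by rw [l1_mul, nonsing_inv_mul _ hu, l1_one]
  calc l1 Om⁻¹ * S.Lam D Om * (l1 Om⁻¹ * S.Lam D Om)
      = l1 Om⁻¹ * (S.Lam D Om * l1 Om⁻¹) * S.Lam D Om := by simp only [mul_assoc]
    _ = l1 Om⁻¹ * (l1 Om⁻¹ * S.Lam D Om) * S.Lam D Om := by rw [AA_comm hD hO]
    _ = l1 Om⁻¹ * l1 Om⁻¹ * (S.Lam D Om * S.Lam D Om) := by simp only [mul_assoc]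
    _ = l1 Om⁻¹ * l1 Om⁻¹ * (l1 Om * S.Lam D Om) := by rw [Lam_sq S D Om hD hO (comm_D hD hO)]
    _ = l1 Om⁻¹ * (l1 Om⁻¹ * l1 Om) * S.Lam D Om := by simp only [mul_assoc]
    _ = l1 Om⁻¹ * S.Lam D Om := by rw [h1, mul_one]

include hD hO in
lemma AA_add : AA S D Om + (AA S D Om)ᵀ = 1 := by
  have hu : IsUnit Om.det := isUnit_iff_ne_zero.2 (det_ne hO)
  have h1 : l1 Om⁻¹ * l1 Om = 1 := by rw [l1_mul, nonsing_inv_mul _ hu, l1_one]
  have h1' : l1 Om * l1 Om⁻¹ = 1 := by rw [l1_mul, mul_nonsing_inv _ hu, l1_one]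
  have hs : (Om⁻¹)ᵀ = Om⁻¹ := by rw [transpose_nonsing_inv, hO.symm]
  have h2 : (S.Lam D Om)ᵀ = (1 / 2 : ℂ) • (l1 Om + Complex.I • S.PP D) := by
    rw [Lam_eq, transpose_smul, transpose_sub, transpose_smul, PP_t S hD.anti, l1_t, hO.symm, smul_neg,
      sub_neg_eq_add]
  have h3 := l1_PP S D _ (comm_Di hD hO)
  have h4 : (AA S D Om)ᵀ = (1 / 2 : ℂ) • (1 + Complex.I • (S.PP D * l1 Om⁻¹)) := by
    rw [AA, transpose_mul, h2, l1_t, hs, smul_mul_assoc, add_mul, h1', smul_mul_assoc]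
  have h5 : AA S D Om = (1 / 2 : ℂ) • (1 - Complex.I • (S.PP D * l1 Om⁻¹)) := by
    rw [AA, Lam_eq, mul_smul_comm, mul_sub, h1, mul_smul_comm, h3]
  rw [h4, h5, ← smul_add, sub_add_add_cancel, ← two_smul ℂ (1 : Matrix (Fin 16 × Fin dm) (Fin 16 × Fin dm) ℂ), smul_smul]
  norm_num

lemma aa_mul {ι : Type*} [Fintype ι] (θ : ι → F →L[ℂ] F) (M N : Matrix ι ι ℂ) (r : ι) (v : F) :
    aa θ (M * N) r v = ∑ p, M r p • aa θ N p v := by
  simp only [aa, _root_.sum_apply, _root_.smul_apply, Finset.smul_sum, smul_smul, mul_apply, Finset.sum_smul]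
  rw [Finset.sum_comm]

include hO in
lemma F0_eq (φ : Spl dh dm d) : S.F0 φ D Om = KK (th' S φ) (AA S D Om) := by
  have hu : IsUnit Om.det := isUnit_iff_ne_zero.2 (det_ne hO)
  have h1' : l1 Om * l1 Om⁻¹ = 1 := by rw [l1_mul, mul_nonsing_inv _ hu, l1_one]
  have h3 : ∀ p v, aa (th' S φ) (S.Lam D Om) p v = S.Lth φ D Om p v := fun p v => rfl
  ext v
  rw [mem_KK]
  constructor
  · intro h r
    rw [AA, aa_mul]
    refine Finset.sum_eq_zero fun p _ => ?_
    rw [h3, h p, smul_zero]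
  · intro h p
    have h4 : S.Lam D Om = l1 Om * AA S D Om := by rw [AA, ← mul_assoc, h1', one_mul]
    rw [← h3, h4, aa_mul]
    exact Finset.sum_eq_zero fun q _ => by rw [h q, smul_zero]

include hD hO in
lemma F0_proj [FiniteDimensional ℂ F] (φ : Spl dh dm d) :
    (S.F0 φ D Om).starProjection = Pk (HH (th' S φ) (AA S D Om)) (Fintype.card (Fin 16 × Fin dm)) := by
  have h1 := F0_eq hO φ
  rw [← proj_eq (th'_anti S φ) (th'_sa S φ) (AA_ct hD hO) (AA_sq hD hO) (AA_add hD hO)]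
  congr 1

end frozen

/-! ### continuity -/

section cont

variable {X : Type*} [TopologicalSpace X] {s : Set X}

lemma contOn_inv {M : X → Matrix (Fin dm) (Fin dm) ℝ} (hM : ContinuousOn M s) (h0 : ∀ x ∈ s, (M x).det ≠ 0) :
    ContinuousOn (fun x => (M x)⁻¹) s := by
  have h1 : Continuous fun A : Matrix (Fin dm) (Fin dm) ℝ => A.det := continuous_id.matrix_det
  have h2 : Continuous fun A : Matrix (Fin dm) (Fin dm) ℝ => A.adjugate := continuous_id.matrix_adjugate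
  have h3 : (fun x => (M x)⁻¹) = fun x => ((M x).det)⁻¹ • (M x).adjugate := by
    funext x
    rw [Matrix.inv_def, Ring.inverse_eq_inv']
  rw [h3]
  exact ((h1.comp_continuousOn hM).inv₀ h0).smul (h2.comp_continuousOn hM)

lemma contOn_entry {m n R : Type*} [TopologicalSpace R] {M : X → Matrix m n R} :
    ContinuousOn M s ↔ ∀ i j, ContinuousOn (fun x => M x i j) s := by
  constructor
  · intro h i j
    exact (Continuous.matrix_elem continuous_id i j).comp_continuousOn h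
  · intro h
    exact continuousOn_pi.2 fun i => continuousOn_pi.2 fun j => h i j

lemma contOn_mul {m : Type*} [Fintype m] {M N : X → Matrix m m ℂ} (hM : ContinuousOn M s) (hN : ContinuousOn N s) :
    ContinuousOn (fun x => M x * N x) s := by
  rw [contOn_entry]
  intro i j
  simp only [Matrix.mul_apply]
  exact continuousOn_finsetSum _ fun k _ => (contOn_entry.1 hM i k).mul (contOn_entry.1 hN k j)

lemma contOn_l1 {M : X → Matrix (Fin dm) (Fin dm) ℝ} (hM : ContinuousOn M s) : ContinuousOn (fun x => l1 (M x)) s := by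
  rw [contOn_entry]
  intro p q
  simp only [l1, lc, kroneckerMap_apply, Matrix.map_apply]
  exact continuousOn_const.mul (Complex.continuous_ofReal.comp_continuousOn (contOn_entry.1 hM _ _))

lemma contOn_AA (S : Setup d F) {D : X → Fin 9 → Matrix (Fin dm) (Fin dm) ℝ} {Om : X → Matrix (Fin dm) (Fin dm) ℝ}
    (hD : ∀ i, ContinuousOn (fun x => D x i) s) (hO : ContinuousOn Om s) (h0 : ∀ x ∈ s, (Om x).det ≠ 0) :
    ContinuousOn (fun x => AA S (D x) (Om x)) s := by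
  have h1 : ContinuousOn (fun x => l1 (Om x)⁻¹) s := contOn_l1 (contOn_inv hO h0)
  have h2 : ContinuousOn (fun x => S.PP (D x)) s := by
    rw [contOn_entry]
    intro p q
    simp only [Setup.PP, Matrix.of_apply]
    refine continuousOn_const.mul (continuousOn_finsetSum _ fun i _ => continuousOn_const.mul ?_)
    exact Complex.continuous_ofReal.comp_continuousOn (contOn_entry.1 (hD i) _ _)
  have h3 : ContinuousOn (fun x => S.Lam (D x) (Om x)) s := by
    rw [contOn_entry]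
    intro p q
    simp only [Setup.Lam, Matrix.of_apply]
    refine continuousOn_const.mul (ContinuousOn.sub ?_ (continuousOn_const.mul (contOn_entry.1 h2 p q)))
    by_cases h : p.1 = q.1
    · simp only [h, if_true]
      exact Complex.continuous_ofReal.comp_continuousOn (contOn_entry.1 hO _ _)
    · simp only [h, if_false]
      exact continuousOn_const
  unfold AA
  exact contOn_mul h1 h3

/-- continuity of the square root -/
lemma contOn_om {κ : ℝ} {D : X → Fin 9 → Matrix (Fin dm) (Fin dm) ℝ} {Om : X → Matrix (Fin dm) (Fin dm) ℝ}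
    (hD : ∀ i, ContinuousOn (fun x => D x i) s) (hO : ∀ x ∈ s, IsOm κ (D x) (Om x)) : ContinuousOn Om s := by
  have hm : Continuous fun p : Matrix (Fin dm) (Fin dm) ℝ × Matrix (Fin dm) (Fin dm) ℝ => p.1 * p.2 :=
    continuous_fst.matrix_mul continuous_snd
  have hB : ContinuousOn (fun x => -(κ ^ 2 • ∑ i, D x i * D x i)) s := by
    have h1 : ContinuousOn (fun x => ∑ i, D x i * D x i) s :=
      continuousOn_finsetSum _ fun i _ => hm.comp_continuousOn ((hD i).prodMk (hD i))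
    exact (h1.const_smul (κ ^ 2)).neg
  rw [contOn_entry]
  intro i j x0 hx0
  obtain ⟨c, hc, hlow⟩ := exists_lower (hO x0 hx0).pos
  set g : X → ℝ := fun x => ∑ i, ∑ j, ((-(κ ^ 2 • ∑ i, D x i * D x i)) - (-(κ ^ 2 • ∑ i, D x0 i * D x0 i))) i j ^ 2 with hg
  have hgc : ContinuousWithinAt g s x0 := by
    refine ContinuousOn.continuousWithinAt (f := g) ?_ hx0
    refine continuousOn_finsetSum _ fun i _ => continuousOn_finsetSum _ fun j _ => ContinuousOn.pow ?_ 2
    exact contOn_entry.1 (hB.sub continuousOn_const) i j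
  have hg0 : g x0 = 0 := by simp [hg]
  have hest : ∀ x ∈ s, |Om x i j - Om x0 i j| ≤ Real.sqrt (g x) / c := by
    intro x hx
    have h1 := root_est (hO x hx).symm (hO x0 hx0).symm (fun v => by
      by_cases hv : v = 0
      · subst hv; simp
      · exact ((hO x hx).pos v hv).le) hc hlow
    rw [(hO x hx).sq, (hO x0 hx0).sq] at h1
    have h2 : (Om x i j - Om x0 i j) ^ 2 ≤ ∑ i, ∑ j, (Om x - Om x0) i j ^ 2 := by
      have e1 : (Om x i j - Om x0 i j) ^ 2 ≤ ∑ j, (Om x - Om x0) i j ^ 2 :=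
        Finset.single_le_sum (f := fun j => (Om x - Om x0) i j ^ 2) (fun j _ => sq_nonneg _) (Finset.mem_univ j)
      have e2 : ∑ j, (Om x - Om x0) i j ^ 2 ≤ ∑ i, ∑ j, (Om x - Om x0) i j ^ 2 :=
        Finset.single_le_sum (f := fun i => ∑ j, (Om x - Om x0) i j ^ 2)
          (fun i _ => Finset.sum_nonneg fun j _ => sq_nonneg _) (Finset.mem_univ i)
      exact e1.trans e2
    have h3 : c ^ 2 * (Om x i j - Om x0 i j) ^ 2 ≤ g x := (mul_le_mul_of_nonneg_left h2 (by positivity)).trans h1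
    rw [le_div_iff₀ hc]
    refine Real.le_sqrt_of_sq_le ?_
    rw [mul_pow, sq_abs, mul_comm]
    exact h3
  have hlim : Tendsto (fun x => Real.sqrt (g x) / c) (𝓝[s] x0) (𝓝 0) := by
    have h1 : Tendsto (fun x => Real.sqrt (g x) / c) (𝓝[s] x0) (𝓝 (Real.sqrt (g x0) / c)) :=
      (hgc.tendsto.sqrt).div_const c
    rwa [hg0, Real.sqrt_zero, zero_div] at h1
  have h4 : Tendsto (fun x => Om x i j) (𝓝[s] x0) (𝓝 (Om x0 i j)) := by
    rw [tendsto_iff_dist_tendsto_zero]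
    refine squeeze_zero' (Eventually.of_forall fun x => dist_nonneg) ?_ hlim
    filter_upwards [self_mem_nhdsWithin] with x hx
    rw [Real.dist_eq]
    exact hest x hx
  exact h4

end cont

/-! ### homogeneity -/

lemma isOm_smul {κ R : ℝ} (hR : 0 < R) {D : Fin 9 → Matrix (Fin dm) (Fin dm) ℝ} {Om : Matrix (Fin dm) (Fin dm) ℝ}
    (h : IsOm κ D Om) : IsOm κ (fun i => R • D i) (R • Om) := by
  have h1 : ∑ i, (R • D i) * (R • D i) = R ^ 2 • ∑ i, D i * D i := by
    rw [Finset.smul_sum]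
    refine Finset.sum_congr rfl fun i _ => ?_
    rw [smul_mul_smul_comm, sq]
  refine ⟨?_, ?_, ?_, ?_⟩
  · rw [transpose_smul, h.symm]
  · intro v hv
    rw [smul_mulVec, dotProduct_smul, smul_eq_mul]
    exact mul_pos hR (h.pos v hv)
  · rw [h1, smul_mul_smul_comm, h.sq, smul_neg, smul_smul, smul_smul, ← sq, mul_comm]
  · intro M hM
    rw [h1, mul_smul_comm, smul_mul_assoc] at hM
    have h2 := smul_right_injective _ (pow_ne_zero 2 hR.ne') hM
    rw [mul_smul_comm, smul_mul_assoc, h.comm M h2]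

end Pc518

open Pc518 in
/-- **GL11** -/
theorem pc_stmt {d : ℕ} {F : Type*} [NormedAddCommGroup F] [InnerProductSpace ℂ F] (S : Setup d F) : PcStmt S := by
  intro hfin dh dm ds dz φ ψ z₀ h
  have hDM : ∀ η, AD.Dz S φ ψ η = DM (AX.Mz S φ ψ) η := fun η => (AX.DM_Mz S φ ψ η).symm
  have hDc : ∀ i, Continuous fun η => AD.Dz S φ ψ η i := by
    intro i
    simp only [hDM]
    unfold DM
    fun_prop
  have hDs : ∀ (R : ℝ) (η : Cfg dz), AD.Dz S φ ψ (R • η) = fun i => R • AD.Dz S φ ψ η i := by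
    intro R η
    funext i
    simp only [hDM, DM, PiLp.smul_apply, smul_eq_mul, Finset.smul_sum, smul_smul]
  have hopen : IsOpen {η : Cfg dz | (AD.Dz S φ ψ η 8).det ≠ 0} :=
    isOpen_ne_fun (hDc 8).matrix_det continuous_const
  have hz : z₀ ∈ {η : Cfg dz | (AD.Dz S φ ψ η 8).det ≠ 0} := h.std.inv
  obtain ⟨ε, hε, hball⟩ := Metric.isOpen_iff.1 hopen z₀ hz
  have hdet : ∀ η : Cfg dz, ‖η - z₀‖ ≤ ε / 2 → (AD.Dz S φ ψ η 8).det ≠ 0 := by
    intro η hη
    refine hball ?_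
    rw [Metric.mem_ball, dist_eq_norm]
    linarith
  have hfrz : ∀ η : Cfg dz, ‖η - z₀‖ ≤ ε / 2 → Frz (AD.Dz S φ ψ η) := fun η hη => AX.frz_Dz h η (hdet η hη)
  have hom : ∀ η : Cfg dz, ‖η - z₀‖ ≤ ε / 2 → IsOm S.κ (AD.Dz S φ ψ η) (AD.omc S.κ (AD.Dz S φ ψ η)) := by
    intro η hη
    obtain ⟨Om, hOm⟩ := _root_.Vale.Agent.P353.Z.om dm S.κ _ S.κ_pos (hfrz η hη)
    rw [AX.omc_eq AX.omU S.κ_pos hOm]
    exact hOm
  have hcont : ContinuousOn (fun η => AD.omc S.κ (AD.Dz S φ ψ η)) {η : Cfg dz | ‖η - z₀‖ ≤ ε / 2} :=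
    contOn_om (fun i => (hDc i).continuousOn) fun η hη => hom η hη
  refine ⟨ε / 2, by positivity, fun η hη => ⟨⟨h.std.sub, ?_, hdet η hη⟩, hfrz η hη, hom η hη⟩, hcont, ?_, ?_⟩
  · intro i B C
    rw [← ψ.sum_comp, Fintype.sum_sum_type]
    have e1 : ∀ A : Fin ds, AD.cmb ψ 0 η (i, ψ (Sum.inl A)) = 0 := by
      intro A
      simp [AD.cmb]
    have e2 : ∀ A : Fin dz, S.f (φ (Sum.inl (ψ (Sum.inr A)))) (φ (Sum.inl B)) (φ (Sum.inl C)) = 0 :=
      fun A => h.cen A B C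
    simp [e1, e2]
  · intro v
    have hA : ContinuousOn (fun η => AA S (AD.Dz S φ ψ η) (AD.omc S.κ (AD.Dz S φ ψ η)))
        {η : Cfg dz | ‖η - z₀‖ ≤ ε / 2} :=
      contOn_AA S (fun i => (hDc i).continuousOn) hcont fun η hη => det_ne (hom η hη)
    have hH : ContinuousOn (fun η => HH (th' S φ) (AA S (AD.Dz S φ ψ η) (AD.omc S.κ (AD.Dz S φ ψ η))))
        {η : Cfg dz | ‖η - z₀‖ ≤ ε / 2} := continuousOn_HH (th' S φ) fun p q => contOn_entry.1 hA p q
    have hP := (continuous_Pk (F := F) (Fintype.card (Fin 16 × Fin dm))).comp_continuousOn hH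
    have hE : ContinuousOn (fun η => Pk (HH (th' S φ) (AA S (AD.Dz S φ ψ η) (AD.omc S.κ (AD.Dz S φ ψ η))))
        (Fintype.card (Fin 16 × Fin dm)) v) {η : Cfg dz | ‖η - z₀‖ ≤ ε / 2} :=
      hP.clm_apply continuousOn_const
    refine hE.congr fun η hη => ?_
    change (S.F0 φ (AD.Dz S φ ψ η) (AD.omc S.κ (AD.Dz S φ ψ η))).starProjection v = _
    rw [F0_proj (hfrz η hη) (hom η hη) φ]
  · intro η hη R hR
    have h1 : AD.omc S.κ (AD.Dz S φ ψ (R • η)) = R • AD.omc S.κ (AD.Dz S φ ψ η) := by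
      refine AX.omc_eq AX.omU S.κ_pos ?_
      rw [hDs]
      exact isOm_smul hR (hom η hη)
    refine ⟨h1, ?_⟩
    rw [h1, hDs]
    exact (f0S S φ (AD.Dz S φ ψ η) (AD.omc S.κ (AD.Dz S φ ψ η))).2 R hR

end Vale.Agent.P353.Z.AN
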