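import Vale.Agent.P353.AN.GL.SfuC

/-! # P353, all `N`, block GL: GL12, mass estimates of the slice section -/

open MeasureTheory Filter Topology Matrix
open scoped ContDiff ENNReal

namespace Vale.Agent.P353.Z.AN.SfuA

variable {d dh dm ds dz : ℕ} {F : Type*} [NormedAddCommGroup F] [InnerProductSpace ℂ F]

lemma memLp_two {X : Type*} [MeasurableSpace X] {μ : Measure X} {f : X → F} (hf : AEStronglyMeasurable f μ) :
    MemLp f 2 μ ↔ ∫⁻ x, ‖f x‖ₑ ^ 2 ∂μ < ⊤ := by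
  have h := eLpNorm_lt_top_iff_lintegral_rpow_enorm_lt_top (f := f) (μ := μ) (p := 2) (by norm_num) (by norm_num)
  have e : ∫⁻ x, ‖f x‖ₑ ^ (2 : ℝ≥0∞).toReal ∂μ = ∫⁻ x, ‖f x‖ₑ ^ 2 ∂μ := by
    refine lintegral_congr fun x => ?_
    rw [ENNReal.toReal_ofNat, ENNReal.rpow_ofNat]
  rw [e] at h
  rw [← h]
  exact ⟨fun h => h.2, fun h => ⟨hf, h⟩⟩

lemma meas_gh1 (D : Fin 9 → Matrix (Fin dm) (Fin dm) ℝ) (Om : Matrix (Fin dm) (Fin dm) ℝ) :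
    Measurable fun w : Wsp dm => gh D Om w := by
  have h1 : Measurable fun w : Wsp dm => qf D Om w :=
    meas_qf (X := Wsp dm) (fun _ => D) (fun _ => Om) (fun w => w) (fun i A B => measurable_const)
      (fun A B => measurable_const) (fun p => by fun_prop)
  have h2 : Measurable fun w : Wsp dm => gR D Om 1 w := by
    unfold gR
    exact Real.measurable_exp.comp (h1.const_mul _)
  unfold gh
  exact h2.div_const _

lemma lint_gh (hG : GauStmt) {κ : ℝ} (hκ : 0 < κ) {D : Fin 9 → Matrix (Fin dm) (Fin dm) ℝ}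
    {Om : Matrix (Fin dm) (Fin dm) ℝ} (hD : Frz D) (hO : IsOm κ D Om) :
    ∫⁻ w : Wsp dm, ‖(gh D Om w : ℂ)‖ₑ ^ 2 = 1 := by
  obtain ⟨-, -, -, hI, hint, -⟩ := hG dm κ D Om hκ hD hO
  set I : ℝ := ∫ w : Wsp dm, gR D Om 1 w ^ 2 with hIdef
  have e : ∀ w : Wsp dm, ‖(gh D Om w : ℂ)‖ₑ ^ 2 = ENNReal.ofReal (I⁻¹ * gR D Om 1 w ^ 2) := by
    intro w
    rw [← ofReal_norm_eq_enorm, ← ENNReal.ofReal_pow (norm_nonneg _), Complex.norm_real, Real.norm_eq_abs, sq_abs]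
    congr 1
    unfold gh
    rw [div_pow, Real.sq_sqrt hI.le, div_eq_inv_mul]
  simp only [e]
  rw [← ofReal_integral_eq_lintegral_ofReal (hint.const_mul _)
    (Eventually.of_forall fun w => mul_nonneg (inv_nonneg.2 hI.le) (sq_nonneg _)), integral_const_mul,
    inv_mul_cancel₀ hI.ne', ENNReal.ofReal_one]

lemma lint_triple {X Y Z : Type*} [MeasurableSpace X] [MeasurableSpace Y] [MeasurableSpace Z] {μ : Measure X}
    {ν : Measure Y} {τ : Measure Z} [SFinite μ] [SFinite ν] [SFinite τ] {f : X × Y × Z → ℝ≥0∞} {g : X × Y → ℝ≥0∞}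
    (hf : Measurable f) (hg : Measurable g) (h : ∀ x y, ∫⁻ z, f (x, y, z) ∂τ ≤ g (x, y)) :
    ∫⁻ q, f q ∂(μ.prod (ν.prod τ)) ≤ ∫⁻ q, g q ∂(μ.prod ν) := by
  rw [lintegral_prod _ hf.aemeasurable, lintegral_prod _ hg.aemeasurable]
  refine lintegral_mono fun x => ?_
  have m3 : Measurable fun q : Y × Z => f (x, q) := hf.comp (measurable_const.prodMk measurable_id)
  simp only
  rw [lintegral_prod _ m3.aemeasurable]
  exact lintegral_mono fun y => h x y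

lemma lint_w [FiniteDimensional ℂ F] (S : Setup d F) (φ : Spl dh dm d) (ψ : Spl ds dz dh) (hG : GauStmt) (z₀ : Cfg dz)
    (δ : ℝ) (hF : ∀ η, ‖η - z₀‖ ≤ δ → Frz (AD.Dz S φ ψ η) ∧ IsOm S.κ (AD.Dz S φ ψ η) (AD.omc S.κ (AD.Dz S φ ψ η)))
    (χ : Cfg dz → ℝ) (hχ : ∀ η, χ η ≠ 0 → ‖η - z₀‖ ≤ δ) (o : Cfg ds → F) (η : Cfg dz) (s : Cfg ds) :
    ∫⁻ w : Wsp dm, ‖vv S φ ψ χ o η s w‖ₑ ^ 2 ≤ ‖aP S φ ψ χ o η s‖ₑ ^ 2 := by
  by_cases h0 : χ η = 0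
  · have h1 : aP S φ ψ χ o η s = 0 := by unfold aP; rw [h0]; simp
    have h2 : ∀ w, ‖vv S φ ψ χ o η s w‖ₑ ^ 2 = 0 := by
      intro w
      rw [vv_eq, h1, smul_zero, enorm_zero]
      norm_num
    rw [lintegral_congr h2, lintegral_zero]
    exact zero_le
  · obtain ⟨hD, hO⟩ := hF η (hχ η h0)
    obtain ⟨D, hDe⟩ : ∃ D, D = AD.Dz S φ ψ η := ⟨_, rfl⟩
    obtain ⟨a, hae⟩ : ∃ a, a = aP S φ ψ χ o η s := ⟨_, rfl⟩
    have h1 : ∀ w, ‖vv S φ ψ χ o η s w‖ₑ ^ 2 =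
        ‖(gh D (AD.omc S.κ D) w : ℂ)‖ₑ ^ 2 * ‖a‖ₑ ^ 2 := by
      intro w
      rw [vv_eq, enorm_smul, mul_pow, hDe, hae]
    rw [← hae, lintegral_congr h1]
    rw [← hDe] at hD hO
    have m4 : Measurable fun w : Wsp dm => ‖(gh D (AD.omc S.κ D) w : ℂ)‖ₑ ^ 2 :=
      (Complex.measurable_ofReal.comp (meas_gh1 D (AD.omc S.κ D))).enorm.pow_const 2
    rw [lintegral_mul_const _ m4, lint_gh hG S.κ_pos hD hO, one_mul]

lemma lint_vv [FiniteDimensional ℂ F] (S : Setup d F) (φ : Spl dh dm d) (ψ : Spl ds dz dh) (hG : GauStmt) (z₀ : Cfg dz)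
    (δ : ℝ) (hF : ∀ η, ‖η - z₀‖ ≤ δ → Frz (AD.Dz S φ ψ η) ∧ IsOm S.κ (AD.Dz S φ ψ η) (AD.omc S.κ (AD.Dz S φ ψ η)))
    (χ : Cfg dz → ℝ) (hχ : ∀ η, χ η ≠ 0 → ‖η - z₀‖ ≤ δ) (o : Cfg ds → F)
    (ha : StronglyMeasurable fun q : Cfg dz × Cfg ds => aP S φ ψ χ o q.1 q.2)
    (hv : StronglyMeasurable fun q : Cfg dz × Cfg ds × Wsp dm => vv S φ ψ χ o q.1 q.2.1 q.2.2) :
    ∫⁻ q : Cfg dz × Cfg ds × Wsp dm, ‖vv S φ ψ χ o q.1 q.2.1 q.2.2‖ₑ ^ 2 ∂(volume.prod (volume.prod volume)) ≤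
      ∫⁻ q : Cfg dz × Cfg ds, ‖aP S φ ψ χ o q.1 q.2‖ₑ ^ 2 ∂(volume.prod volume) :=
  lint_triple (hv.enorm.pow_const 2) (ha.enorm.pow_const 2) fun η s => lint_w S φ ψ hG z₀ δ hF χ hχ o η s

lemma lint_aP [FiniteDimensional ℂ F] (S : Setup d F) (φ : Spl dh dm d) (ψ : Spl ds dz dh)
    (χ : Cfg dz → ℝ) (hc : Continuous χ) (hcs : HasCompactSupport χ) (o : Cfg ds → F) (ho : MemLp o 2 volume) :
    ∫⁻ q : Cfg dz × Cfg ds, ‖aP S φ ψ χ o q.1 q.2‖ₑ ^ 2 ∂(volume.prod volume) < ⊤ := by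
  have h1 : ∀ q : Cfg dz × Cfg ds, ‖aP S φ ψ χ o q.1 q.2‖ₑ ^ 2 ≤ ‖(χ q.1 : ℂ)‖ₑ ^ 2 * ‖o q.2‖ₑ ^ 2 := by
    intro q
    rw [← mul_pow]
    refine pow_le_pow_left' ?_ 2
    rw [← ofReal_norm_eq_enorm, ← ofReal_norm_eq_enorm, ← ofReal_norm_eq_enorm, ← ENNReal.ofReal_mul (norm_nonneg _),
      Complex.norm_real, Real.norm_eq_abs]
    exact ENNReal.ofReal_le_ofReal (aP_norm_le S φ ψ χ o q.1 q.2)
  refine (lintegral_mono h1).trans_lt ?_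
  have hcc : Continuous fun η : Cfg dz => ((χ η : ℝ) : ℂ) := Complex.continuous_ofReal.comp hc
  have hm : MemLp (fun η : Cfg dz => ((χ η : ℝ) : ℂ)) 2 volume := by
    refine hcc.memLp_of_hasCompactSupport ?_
    exact hcs.comp_left (g := fun t : ℝ => (t : ℂ)) Complex.ofReal_zero
  rw [lintegral_prod_mul (f := fun η : Cfg dz => ‖(χ η : ℂ)‖ₑ ^ 2) (g := fun s : Cfg ds => ‖o s‖ₑ ^ 2)
    (hm.1.enorm.pow_const 2) (ho.1.enorm.pow_const 2)]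
  exact ENNReal.mul_lt_top ((memLp_two hm.1).1 hm) ((memLp_two ho.1).1 ho)

/-! ### the tail of the slice section -/

/-- the section outside the box -/
noncomputable def vcut (ε R : ℝ) (v : Cfg dz → Cfg ds → Wsp dm → F) (η : Cfg dz) (s : Cfg ds) (w : Wsp dm) : F :=
  {q : Cfg ds × Wsp dm | ‖q.1‖ < ε * R ∧ ‖q.2‖ < ε * R * Real.sqrt R}ᶜ.indicator (fun q => v η q.1 q.2) (s, w)

lemma meas_cutset (ε R : ℝ) :
    MeasurableSet {q : Cfg ds × Wsp dm | ‖q.1‖ < ε * R ∧ ‖q.2‖ < ε * R * Real.sqrt R} := by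
  have e1 : IsOpen {p : Cfg ds × Wsp dm | ‖p.1‖ < ε * R} :=
    isOpen_lt continuous_fst.norm continuous_const
  have e2 : IsOpen {p : Cfg ds × Wsp dm | ‖p.2‖ < ε * R * Real.sqrt R} :=
    isOpen_lt continuous_snd.norm continuous_const
  exact (e1.inter e2).measurableSet

lemma sm_vcut (ε R : ℝ) (v : Cfg dz → Cfg ds → Wsp dm → F)
    (hv : StronglyMeasurable fun q : Cfg dz × Cfg ds × Wsp dm => v q.1 q.2.1 q.2.2) :
    StronglyMeasurable fun q : Cfg dz × Cfg ds × Wsp dm => vcut ε R v q.1 q.2.1 q.2.2 := by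
  have hm : MeasurableSet (Prod.snd ⁻¹'
      {q : Cfg ds × Wsp dm | ‖q.1‖ < ε * R ∧ ‖q.2‖ < ε * R * Real.sqrt R}ᶜ : Set (Cfg dz × Cfg ds × Wsp dm)) :=
    (meas_cutset ε R).compl.preimage measurable_snd
  exact hv.indicator hm

lemma Ts0_vcut (ψ : Spl ds dz dh) {ε R : ℝ} (hR : 0 < R) (v : Cfg dz → Cfg ds → Wsp dm → F) (p : Cfg dh × Wsp dm) :
    Ts0 (swp ψ) (vcut ε R v) R p.1 p.2 = (Eb ψ dm ε R)ᶜ.indicator (fun p => Ts0 (swp ψ) v R p.1 p.2) p := by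
  have hs0 : 0 < Real.sqrt R := Real.sqrt_pos.2 hR
  have hiff : ‖Real.sqrt R • p.2‖ < ε * R * Real.sqrt R ↔ ‖p.2‖ < ε * R := by
    rw [norm_smul, Real.norm_of_nonneg hs0.le, mul_comm (Real.sqrt R)]
    exact mul_lt_mul_iff_left₀ hs0
  by_cases hp : p ∈ Eb ψ dm ε R
  · rw [Set.indicator_of_notMem (by exact fun h => h hp)]
    have h1 : vcut ε R v (R⁻¹ • hz (swp ψ) p.1) (hs (swp ψ) p.1) (Real.sqrt R • p.2) = 0 := by
      unfold vcut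
      rw [Set.indicator_of_notMem]
      exact fun h => h ⟨hp.1, hiff.2 hp.2⟩
    unfold Ts0
    rw [h1, smul_zero]
  · rw [Set.indicator_of_mem (by exact hp)]
    have h1 : vcut ε R v (R⁻¹ • hz (swp ψ) p.1) (hs (swp ψ) p.1) (Real.sqrt R • p.2) =
        v (R⁻¹ • hz (swp ψ) p.1) (hs (swp ψ) p.1) (Real.sqrt R • p.2) := by
      unfold vcut
      rw [Set.indicator_of_mem]
      exact fun h => hp ⟨h.1, hiff.1 h.2⟩
    unfold Ts0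
    rw [h1]

lemma tail_eq {S : Setup d F} [FiniteDimensional ℂ F] (hM : MeaStmt S) {φ : Spl dh dm d} (hsub : S.IsSub φ) (ψ : Spl ds dz dh)
    {ε R : ℝ} (hR : 0 < R) (v : Cfg dz → Cfg ds → Wsp dm → F)
    (hv : StronglyMeasurable fun q : Cfg dz × Cfg ds × Wsp dm => v q.1 q.2.1 q.2.2) :
    ∫⁻ p in (Eb ψ dm ε R)ᶜ, ‖Ts0 (swp ψ) v R p.1 p.2‖ₑ ^ 2 ∂(volume.prod volume) =
      ∫⁻ q : Cfg dz × Cfg ds × Wsp dm, ‖vcut ε R v q.1 q.2.1 q.2.2‖ₑ ^ 2 ∂(volume.prod (volume.prod volume)) := by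
  obtain ⟨-, -, h⟩ := hM inferInstance dh dm dz ds φ (swp ψ) hsub
  obtain ⟨-, h1⟩ := h R (vcut ε R v) hR (sm_vcut ε R v hv)
  rw [← h1, ← lintegral_indicator (meas_Eb ψ ε R).compl]
  refine lintegral_congr fun p => ?_
  rw [Ts0_vcut ψ hR]
  by_cases hp : p ∈ (Eb ψ dm ε R)ᶜ
  · rw [Set.indicator_of_mem hp, Set.indicator_of_mem hp]
  · rw [Set.indicator_of_notMem hp, Set.indicator_of_notMem hp]
    simp

lemma tail_tendsto {S : Setup d F} [FiniteDimensional ℂ F] (hM : MeaStmt S) {φ : Spl dh dm d} (hsub : S.IsSub φ)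
    (ψ : Spl ds dz dh) {ε : ℝ} (hε : 0 < ε) (R : ℕ → ℝ) (hR : ∀ n, 0 < R n) (hlim : Tendsto R atTop atTop)
    (v : Cfg dz → Cfg ds → Wsp dm → F)
    (hv : StronglyMeasurable fun q : Cfg dz × Cfg ds × Wsp dm => v q.1 q.2.1 q.2.2)
    (hfin : ∫⁻ q : Cfg dz × Cfg ds × Wsp dm, ‖v q.1 q.2.1 q.2.2‖ₑ ^ 2 ∂(volume.prod (volume.prod volume)) ≠ ⊤) :
    Tendsto (fun n => ∫⁻ p in (Eb ψ dm ε (R n))ᶜ, ‖Ts0 (swp ψ) v (R n) p.1 p.2‖ₑ ^ 2 ∂(volume.prod volume))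
      atTop (𝓝 0) := by
  have h1 : ∀ n, ∫⁻ p in (Eb ψ dm ε (R n))ᶜ, ‖Ts0 (swp ψ) v (R n) p.1 p.2‖ₑ ^ 2 ∂(volume.prod volume) =
      ∫⁻ q : Cfg dz × Cfg ds × Wsp dm, ‖vcut ε (R n) v q.1 q.2.1 q.2.2‖ₑ ^ 2 ∂(volume.prod (volume.prod volume)) :=
    fun n => tail_eq hM hsub ψ (hR n) v hv
  simp only [h1]
  have h0 : ∫⁻ q : Cfg dz × Cfg ds × Wsp dm, (0 : ℝ≥0∞) ∂(volume.prod (volume.prod volume)) = 0 := lintegral_zero
  rw [← h0]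
  refine tendsto_lintegral_of_dominated_convergence
    (fun q : Cfg dz × Cfg ds × Wsp dm => ‖v q.1 q.2.1 q.2.2‖ₑ ^ 2)
    (fun n => (sm_vcut ε (R n) v hv).enorm.pow_const 2) (fun n => Eventually.of_forall fun q => ?_) hfin
    (Eventually.of_forall fun q => ?_)
  · refine pow_le_pow_left' ?_ 2
    exact enorm_indicator_le_enorm_self (fun q' : Cfg ds × Wsp dm => v q.1 q'.1 q'.2) q.2
  · have h2 : ∀ᶠ n in atTop, vcut ε (R n) v q.1 q.2.1 q.2.2 = 0 := by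
      have h3 : ∀ᶠ n in atTop, max 1 ((‖q.2.1‖ + ‖q.2.2‖ + 1) / ε) ≤ R n := hlim.eventually_ge_atTop _
      filter_upwards [h3] with n hn
      have hn1 : 1 ≤ R n := (le_max_left _ _).trans hn
      have hn2 : (‖q.2.1‖ + ‖q.2.2‖ + 1) / ε ≤ R n := (le_max_right _ _).trans hn
      rw [div_le_iff₀ hε] at hn2
      have hs1 : 1 ≤ Real.sqrt (R n) := Real.one_le_sqrt.2 hn1
      unfold vcut
      rw [Set.indicator_of_notMem]
      intro h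
      apply h
      have p1 := norm_nonneg q.2.1
      have p2 := norm_nonneg q.2.2
      have p3 : 0 < ε * R n := mul_pos hε (hR n)
      refine ⟨?_, ?_⟩
      · show ‖q.2.1‖ < ε * R n
        nlinarith
      · show ‖q.2.2‖ < ε * R n * Real.sqrt (R n)
        nlinarith
    refine tendsto_nhds_of_eventually_eq ?_
    filter_upwards [h2] with n hn
    rw [hn]
    simp

end Vale.Agent.P353.Z.AN.SfuA
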