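import Vale.Agent.P353.AN.GL.Stmt

/-! # P353, all `N`, block GL: rescaling identities for GL6 -/

set_option linter.all false

open MeasureTheory Filter Topology
open scoped ContDiff

namespace Vale.Agent.P353.Z.AN

variable {d dh dm r ds : ℕ} {F : Type*} [NormedAddCommGroup F] [InnerProductSpace ℂ F]

namespace Cnv

/-- index map -/
def idx (ψ : Spz r ds dh) : (Fin 9 × Fin r) ⊕ (Fin 9 × Fin ds) → Fin 9 × Fin dh :=
  Sum.elim (fun p => (p.1, ψ (Sum.inl p.2))) fun p => (p.1, ψ (Sum.inr p.2))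

theorem idx_bij (ψ : Spz r ds dh) : Function.Bijective (idx ψ) := by
  constructor
  · rintro (⟨i, A⟩ | ⟨i, A⟩) (⟨i', A'⟩ | ⟨i', A'⟩) h
    all_goals simp only [idx, Sum.elim_inl, Sum.elim_inr, Prod.mk.injEq,
      EmbeddingLike.apply_eq_iff_eq, Sum.inr.injEq, Sum.inl.injEq, true_and, reduceCtorEq,
      and_false] at h
    · rw [h.1, h.2]
    · rw [h.1, h.2]
  · rintro ⟨i, A⟩
    obtain ⟨s, rfl⟩ := ψ.surjective A
    rcases s with A | B
    · exact ⟨Sum.inl (i, A), rfl⟩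
    · exact ⟨Sum.inr (i, B), rfl⟩

/-- the index equivalence -/
noncomputable def ide (ψ : Spz r ds dh) : (Fin 9 × Fin r) ⊕ (Fin 9 × Fin ds) ≃ Fin 9 × Fin dh :=
  Equiv.ofBijective _ (idx_bij ψ)

theorem sp_mp (ψ : Spz r ds dh) :
    MeasurePreserving (fun z : Cfg dh => (hz ψ z, hs ψ z)) volume (volume.prod volume) := by
  have m1 := PiLp.volume_preserving_ofLp (Fin 9 × Fin dh)
  have m2 := (volume_measurePreserving_piCongrLeft (fun _ : Fin 9 × Fin dh => ℝ) (ide ψ)).symm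
  have m3 := volume_measurePreserving_sumPiEquivProdPi
    (fun _ : (Fin 9 × Fin r) ⊕ (Fin 9 × Fin ds) => ℝ)
  have n1 := PiLp.volume_preserving_toLp (Fin 9 × Fin r)
  have n2 := PiLp.volume_preserving_toLp (Fin 9 × Fin ds)
  exact (n1.prod n2).comp (m3.comp (m2.comp m1))

theorem hz_cmb (ψ : Spz r ds dh) (η : Cfg r) (s : Cfg ds) : hz ψ (cmb ψ η s) = η := by
  ext p
  simp [hz, cmb]

theorem hs_cmb (ψ : Spz r ds dh) (η : Cfg r) (s : Cfg ds) : hs ψ (cmb ψ η s) = s := by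
  ext p
  simp [hs, cmb]

theorem cmb_hz_hs (ψ : Spz r ds dh) (y : Cfg dh) : cmb ψ (hz ψ y) (hs ψ y) = y := by
  ext ⟨i, A⟩
  obtain ⟨a, rfl⟩ := ψ.surjective A
  rcases a with a | a <;> simp [cmb, hz, hs]

theorem cmb_smul (ψ : Spz r ds dh) (c : ℝ) (η : Cfg r) (s : Cfg ds) :
    cmb ψ (c • η) (c • s) = c • cmb ψ η s := by
  ext ⟨i, A⟩
  obtain ⟨a, rfl⟩ := ψ.surjective A
  rcases a with a | a <;> simp [cmb]

theorem cmb_sub (ψ : Spz r ds dh) (η η' : Cfg r) (s s' : Cfg ds) :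
    cmb ψ (η - η') (s - s') = cmb ψ η s - cmb ψ η' s' := by
  ext ⟨i, A⟩
  obtain ⟨a, rfl⟩ := ψ.surjective A
  rcases a with a | a <;> simp [cmb]

/-- continuity of the coordinates -/
theorem cmb_cont (ψ : Spz r ds dh) : Continuous (fun q : Cfg r × Cfg ds => cmb ψ q.1 q.2) := by
  refine (PiLp.continuous_toLp 2 _).comp (continuous_pi fun p => ?_)
  obtain ⟨i, A⟩ := p
  obtain ⟨a, rfl⟩ := ψ.surjective A
  rcases a with a | a
  · simp only [Equiv.symm_apply_apply, Sum.elim_inl]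
    exact (continuous_apply _).comp ((PiLp.continuous_ofLp 2 _).comp continuous_fst)
  · simp only [Equiv.symm_apply_apply, Sum.elim_inr]
    exact (continuous_apply _).comp ((PiLp.continuous_ofLp 2 _).comp continuous_snd)

theorem hz_cont (ψ : Spz r ds dh) : Continuous (hz ψ) :=
  (PiLp.continuous_toLp 2 _).comp (continuous_pi fun p => (continuous_apply _).comp (PiLp.continuous_ofLp 2 _))

theorem hs_cont (ψ : Spz r ds dh) : Continuous (hs ψ) :=
  (PiLp.continuous_toLp 2 _).comp (continuous_pi fun p => (continuous_apply _).comp (PiLp.continuous_ofLp 2 _))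

/-- the coordinates as a homeomorphism -/
noncomputable def hom (ψ : Spz r ds dh) : Cfg r × Cfg ds ≃ₜ Cfg dh where
  toFun q := cmb ψ q.1 q.2
  invFun y := (hz ψ y, hs ψ y)
  left_inv q := by
    show (hz ψ (cmb ψ q.1 q.2), hs ψ (cmb ψ q.1 q.2)) = q
    rw [hz_cmb, hs_cmb]
  right_inv y := cmb_hz_hs ψ y
  continuous_toFun := cmb_cont ψ
  continuous_invFun := (hz_cont ψ).prodMk (hs_cont ψ)

theorem cmb_mp (ψ : Spz r ds dh) :
    MeasurePreserving (fun q : Cfg r × Cfg ds => cmb ψ q.1 q.2) (volume.prod volume) volume := by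
  have h1 : MeasurePreserving ((hom ψ).toMeasurableEquiv.symm) volume
      ((volume : Measure (Cfg r)).prod (volume : Measure (Cfg ds))) := sp_mp ψ
  exact h1.symm

/-- rescaling of the slice -/
noncomputable def sq (ψ : Spz r ds dh) (R : ℝ) (q : Cfg r × Cfg ds × Wsp dm) : Cfg dh × Wsp dm :=
  (cmb ψ (R • q.1) q.2.1, (Real.sqrt R)⁻¹ • q.2.2)

/-- rescaling as a homeomorphism -/
noncomputable def sqh (ψ : Spz r ds dh) (dm : ℕ) (R : ℝ) (hR : 0 < R) : Cfg r × Cfg ds × Wsp dm ≃ₜ Cfg dh × Wsp dm :=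
  ((Homeomorph.smulOfNeZero R hR.ne').prodCongr ((Homeomorph.refl (Cfg ds)).prodCongr
    (Homeomorph.smulOfNeZero (Real.sqrt R)⁻¹ (inv_ne_zero (Real.sqrt_pos.2 hR).ne')))).trans
    ((Homeomorph.prodAssoc (Cfg r) (Cfg ds) (Wsp dm)).symm.trans ((hom ψ).prodCongr (Homeomorph.refl (Wsp dm))))

theorem sqh_apply (ψ : Spz r ds dh) (R : ℝ) (hR : 0 < R) (q : Cfg r × Cfg ds × Wsp dm) :
    sqh ψ dm R hR q = sq ψ R q := rfl

theorem sq_map (ψ : Spz r ds dh) (R : ℝ) (hR : 0 < R) :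
    Measure.map (sq (dm := dm) ψ R) (volume.prod (volume.prod volume)) =
      ENNReal.ofReal (R ^ (4 * (dm : ℝ) - 9 * (r : ℝ))) • ((volume : Measure (Cfg dh)).prod (volume : Measure (Wsp dm))) := by
  have hs := Real.sqrt_pos.2 hR
  have m1 : Measure.map (fun x : Cfg r => R • x) volume = ENNReal.ofReal ((R ^ (9 * r))⁻¹) • volume := by
    rw [Measure.map_addHaar_smul volume hR.ne']
    congr 2
    rw [abs_of_nonneg (by positivity)]
    congr 2
    rw [finrank_euclideanSpace]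
    simp
  have m2 : Measure.map (fun x : Wsp dm => (Real.sqrt R)⁻¹ • x) volume = ENNReal.ofReal (R ^ (4 * dm)) • volume := by
    rw [Measure.map_addHaar_smul volume (inv_ne_zero hs.ne')]
    congr 2
    rw [abs_of_nonneg (by positivity)]
    have : Module.finrank ℝ (Wsp dm) = 2 * (4 * dm) := by
      rw [finrank_euclideanSpace]
      simp
      ring
    rw [this, pow_mul, inv_pow, Real.sq_sqrt hR.le, inv_pow, inv_inv]
  have m3 : Measure.map (Prod.map (fun x : Cfg r => R • x) (Prod.map (id : Cfg ds → Cfg ds) (fun x : Wsp dm => (Real.sqrt R)⁻¹ • x)))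
      (volume.prod (volume.prod volume)) =
      (ENNReal.ofReal ((R ^ (9 * r))⁻¹) * ENNReal.ofReal (R ^ (4 * dm))) • (volume.prod (volume.prod volume)) := by
    rw [← Measure.map_prod_map _ _ (measurable_const_smul R) (measurable_id.prodMap (measurable_const_smul _)),
      ← Measure.map_prod_map _ _ measurable_id (measurable_const_smul _), m1, m2, Measure.map_id,
      Measure.prod_smul_left, Measure.prod_smul_right, Measure.prod_smul_right, smul_smul]
  have m4 : MeasurePreserving (fun q : Cfg r × Cfg ds × Wsp dm => (cmb ψ q.1 q.2.1, q.2.2))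
      (volume.prod (volume.prod volume)) (volume.prod volume) :=
    ((cmb_mp ψ).prod (MeasurePreserving.id volume)).comp
      (measurePreserving_prodAssoc (volume : Measure (Cfg r)) (volume : Measure (Cfg ds)) (volume : Measure (Wsp dm))).symm
  have e : (sq (dm := dm) ψ R) = (fun q : Cfg r × Cfg ds × Wsp dm => (cmb ψ q.1 q.2.1, q.2.2)) ∘
      (Prod.map (fun x : Cfg r => R • x) (Prod.map (id : Cfg ds → Cfg ds) (fun x : Wsp dm => (Real.sqrt R)⁻¹ • x))) := rfl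
  rw [e, ← Measure.map_map m4.measurable
    ((measurable_const_smul R).prodMap (measurable_id.prodMap (measurable_const_smul _))), m3, Measure.map_smul, m4.map_eq]
  congr 1
  rw [← ENNReal.ofReal_mul (by positivity)]
  congr 1
  rw [Real.rpow_sub hR]
  have e1 : R ^ (4 * (dm : ℝ)) = R ^ (4 * dm) := by
    rw [← Real.rpow_natCast]
    push_cast
    rfl
  have e2 : R ^ (9 * (r : ℝ)) = R ^ (9 * r) := by
    rw [← Real.rpow_natCast]
    push_cast
    rfl
  rw [e1, e2]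
  field_simp

theorem lint_sq (ψ : Spz r ds dh) (R : ℝ) (hR : 0 < R) (f : Cfg dh × Wsp dm → ENNReal) :
    ∫⁻ q : Cfg r × Cfg ds × Wsp dm, f (sq ψ R q) ∂(volume.prod (volume.prod volume)) =
      ENNReal.ofReal (R ^ (4 * (dm : ℝ) - 9 * (r : ℝ))) * ∫⁻ p, f p ∂(volume.prod volume) := by
  have he : MeasurableEmbedding (sq (dm := dm) ψ R) := (sqh ψ dm R hR).measurableEmbedding
  rw [← he.lintegral_map, sq_map ψ R hR, lintegral_smul_measure]
  rfl

theorem Dm_smul (S : Setup d F) (φ : Spl dh dm d) (c : ℝ) (v : Fin dh → ℝ) :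
    S.Dm φ (c • v) = c • S.Dm φ v := by
  ext B C
  simp only [Setup.Dm, Matrix.of_apply, Matrix.smul_apply, Pi.smul_apply, smul_eq_mul, Finset.mul_sum]
  exact Finset.sum_congr rfl fun A _ => by ring

theorem Dy_smul (S : Setup d F) (φ : Spl dh dm d) (i : Fin 9) (c : ℝ) (y : Cfg dh) :
    S.Dy φ i (c • y) = c • S.Dy φ i y := by
  unfold Setup.Dy
  rw [← Dm_smul]
  rfl

theorem Jd_sq (S : Setup d F) (φ : Spl dh dm d) (ψ : Spz r ds dh) {R : ℝ} (hR : 0 < R) (η : Cfg r) (s : Cfg ds) :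
    S.Jd φ (cmb ψ (R • η) s) = R ^ dm * |(S.Dy φ 8 (cmb ψ η (R⁻¹ • s))).det| := by
  have e : cmb ψ (R • η) s = R • cmb ψ η (R⁻¹ • s) := by
    rw [← cmb_smul, smul_smul, mul_inv_cancel₀ hR.ne', one_smul]
  unfold Setup.Jd
  rw [e, Dy_smul, Matrix.det_smul, abs_mul, Fintype.card_fin, abs_of_pos (pow_pos hR dm)]

theorem coef {R : ℝ} (hR : 0 < R) (dm r : ℕ) :
    Real.sqrt (R ^ dm) * (R ^ (3 * (dm : ℝ) - 9 * (r : ℝ) / 2) * ((R * Real.sqrt R)⁻¹) ^ dm) =
      R ^ (2 * (dm : ℝ) - 9 * (r : ℝ) / 2) := by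
  have e1 : Real.sqrt (R ^ dm) = R ^ ((dm : ℝ) / 2) := by
    rw [Real.sqrt_eq_rpow, ← Real.rpow_natCast, ← Real.rpow_mul hR.le]
    congr 1
    ring
  have e2 : ((R * Real.sqrt R)⁻¹) ^ dm = R ^ (-(3 / 2) * (dm : ℝ)) := by
    have : (R * Real.sqrt R)⁻¹ = R ^ (-(3 / 2) : ℝ) := by
      rw [Real.sqrt_eq_rpow, Real.rpow_neg hR.le]
      congr 1
      nth_rewrite 1 [← Real.rpow_one R]
      rw [← Real.rpow_add hR]
      norm_num
    rw [this, ← Real.rpow_natCast, ← Real.rpow_mul hR.le]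
  rw [e1, e2, ← Real.rpow_add hR, ← Real.rpow_add hR]
  congr 1
  ring

end Cnv

open Cnv in
/-- rescaling of the orbit average -/
theorem cnvA_Zt (S : Setup d F) (φ : Spl dh dm d) (ψ : Spz r ds dh) {R : ℝ} (hR : 0 < R)
    (j : EuclideanSpace ℝ (Fin dm) → ℝ) (ρ : ℝ) (b : Cfg r × Cfg ds × Cfg dm → F) (η : Cfg r) (s : Cfg ds) (om : Wsp dm) :
    Zt S φ j ρ (Zb φ ψ b R) (cmb ψ (R • η) s, (Real.sqrt R)⁻¹ • om) =
      ((R ^ (2 * (dm : ℝ) - 9 * (r : ℝ) / 2) : ℝ) : ℂ) •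
        (((Real.sqrt |(S.Dy φ 8 (cmb ψ η (R⁻¹ • s))).det| : ℝ) : ℂ) •
          ∫ al : EuclideanSpace ℝ (Fin dm),
            (Metric.ball (0 : EuclideanSpace ℝ (Fin dm)) (ρ * (R * Real.sqrt R))).indicator
              (fun al => ((j ((R * Real.sqrt R)⁻¹ • al) : ℝ) : ℂ) • spn S (-(exm φ ((R * Real.sqrt R)⁻¹ • al)))
                (b (R⁻¹ • hz ψ (zy φ (tub S φ ((R * Real.sqrt R)⁻¹ • al) (cmb ψ (R • η) s, (Real.sqrt R)⁻¹ • om))),
                  hs ψ (zy φ (tub S φ ((R * Real.sqrt R)⁻¹ • al) (cmb ψ (R • η) s, (Real.sqrt R)⁻¹ • om))),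
                  Real.sqrt R • pm φ (tub S φ ((R * Real.sqrt R)⁻¹ • al) (cmb ψ (R • η) s, (Real.sqrt R)⁻¹ • om))))) al) := by
  have hsR := Real.sqrt_pos.2 hR
  have hk : 0 < (R * Real.sqrt R)⁻¹ := inv_pos.2 (mul_pos hR hsR)
  set k : ℝ := (R * Real.sqrt R)⁻¹ with hkd
  set p : Cfg dh × Wsp dm := (cmb ψ (R • η) s, (Real.sqrt R)⁻¹ • om) with hp
  let G : EuclideanSpace ℝ (Fin dm) → F := fun a => ((j a : ℝ) : ℂ) • spn S (-(exm φ a))
    (b (R⁻¹ • hz ψ (zy φ (tub S φ a p)), hs ψ (zy φ (tub S φ a p)), Real.sqrt R • pm φ (tub S φ a p)))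
  let H : EuclideanSpace ℝ (Fin dm) → F := (Metric.ball (0 : EuclideanSpace ℝ (Fin dm)) ρ).indicator G
  have h1 : Zt S φ j ρ (Zb φ ψ b R) p = ((Real.sqrt (S.Jd φ (cmb ψ (R • η) s)) : ℝ) : ℂ) •
      (((R ^ (3 * (dm : ℝ) - 9 * (r : ℝ) / 2) : ℝ) : ℂ) • ∫ a, H a) := by
    unfold Zt
    congr 1
    rw [← integral_indicator Metric.isOpen_ball.measurableSet, ← integral_smul]
    refine integral_congr_ae (Filter.Eventually.of_forall fun a => ?_)
    show (Metric.ball (0 : EuclideanSpace ℝ (Fin dm)) ρ).indicator _ a =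
      ((R ^ (3 * (dm : ℝ) - 9 * (r : ℝ) / 2) : ℝ) : ℂ) • (Metric.ball (0 : EuclideanSpace ℝ (Fin dm)) ρ).indicator G a
    by_cases ha : a ∈ Metric.ball (0 : EuclideanSpace ℝ (Fin dm)) ρ
    · rw [Set.indicator_of_mem ha, Set.indicator_of_mem ha]
      show ((j a : ℝ) : ℂ) • spn S (-(exm φ a)) (((R ^ (3 * (dm : ℝ) - 9 * (r : ℝ) / 2) : ℝ) : ℂ) • _) = _
      rw [map_smul, smul_comm]
    · rw [Set.indicator_of_notMem ha, Set.indicator_of_notMem ha, smul_zero]
  have h2 : ∫ al, H (k • al) = ((k ^ dm)⁻¹ : ℝ) • ∫ a, H a := by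
    rw [Measure.integral_comp_smul, finrank_euclideanSpace, Fintype.card_fin, abs_of_pos (inv_pos.2 (pow_pos hk dm))]
  have h3 : ∫ a, H a = ((k ^ dm : ℝ) : ℂ) • ∫ al, H (k • al) := by
    rw [h2, Complex.coe_smul, smul_smul, mul_inv_cancel₀ (pow_pos hk dm).ne', one_smul]
  have h4 : ∀ al, H (k • al) = (Metric.ball (0 : EuclideanSpace ℝ (Fin dm)) (ρ * (R * Real.sqrt R))).indicator
      (fun al => G (k • al)) al := by
    intro al
    have hiff : k • al ∈ Metric.ball (0 : EuclideanSpace ℝ (Fin dm)) ρ ↔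
        al ∈ Metric.ball (0 : EuclideanSpace ℝ (Fin dm)) (ρ * (R * Real.sqrt R)) := by
      rw [mem_ball_zero_iff, mem_ball_zero_iff, norm_smul, Real.norm_eq_abs, abs_of_pos hk, hkd,
        inv_mul_lt_iff₀ (mul_pos hR hsR), mul_comm]
    show (Metric.ball (0 : EuclideanSpace ℝ (Fin dm)) ρ).indicator G (k • al) = _
    by_cases ha : k • al ∈ Metric.ball (0 : EuclideanSpace ℝ (Fin dm)) ρ
    · rw [Set.indicator_of_mem ha, Set.indicator_of_mem (hiff.1 ha)]
    · rw [Set.indicator_of_notMem ha, Set.indicator_of_notMem (fun h => ha (hiff.2 h))]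
  rw [h1, h3, integral_congr_ae (Filter.Eventually.of_forall h4), Jd_sq S φ ψ hR, Real.sqrt_mul (pow_pos hR dm).le,
    smul_smul, smul_smul, smul_smul]
  congr 1
  rw [← coef hR dm r, ← hkd]
  push_cast
  ring

end Vale.Agent.P353.Z.AN
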