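import Vale.Agent.P353.AN.GL.GluBd

/-! # P353, all `N`, block GL: Gaussian profiles -/

set_option linter.all false

open MeasureTheory Filter Topology
open scoped ContDiff ENNReal

namespace Vale.Agent.P353.Z.AN

variable {d dh dm r ds : ℕ} {F : Type*} [NormedAddCommGroup F] [InnerProductSpace ℂ F]

section tools

variable {α : Type*} [MeasurableSpace α] {μ : Measure α}

/-- dominated convergence in `L²` -/
lemma glu_dc {f : ℕ → α → F} {g : α → F} (hf : ∀ k, StronglyMeasurable (f k)) (hg : MemLp g 2 μ)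
    (hle : ∀ k x, ‖f k x‖ ≤ ‖g x‖) (hlim : ∀ x, Tendsto (fun k => f k x) atTop (𝓝 0)) :
    Tendsto (fun k => eLpNorm (f k) 2 μ) atTop (𝓝 0) := by
  have h1 : Tendsto (fun k => ∫⁻ x, ‖f k x‖ₑ ^ 2 ∂μ) atTop (𝓝 (∫⁻ x, (0 : ℝ≥0∞) ∂μ)) := by
    refine tendsto_lintegral_of_dominated_convergence (fun x => ‖g x‖ₑ ^ 2) (fun k => (hf k).enorm.pow_const 2)
      (fun k => ae_of_all _ fun x => ?_) ?_ (ae_of_all _ fun x => ?_)
    · exact pow_le_pow_left₀ (by positivity) (enorm_le_iff_norm_le.2 (hle k x)) 2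
    · rw [glu_sq]
      exact (ENNReal.pow_lt_top hg.2).ne
    · have h2 := (continuous_enorm.tendsto (0 : F)).comp (hlim x)
      have h3 := (ENNReal.Tendsto.pow (n := 2) h2)
      simpa using h3
  rw [lintegral_zero] at h1
  have h2 : ∀ k, eLpNorm (f k) 2 μ = (∫⁻ x, ‖f k x‖ₑ ^ 2 ∂μ) ^ (1 / 2 : ℝ) := by
    intro k
    rw [glu_sq, ← ENNReal.rpow_natCast, ← ENNReal.rpow_mul]
    norm_num
  simp only [h2]
  have h3 := (ENNReal.continuous_rpow_const (y := (1 / 2 : ℝ))).tendsto (0 : ℝ≥0∞)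
  have h4 : Tendsto (fun k => (∫⁻ x, ‖f k x‖ₑ ^ 2 ∂μ) ^ (1 / 2 : ℝ)) atTop (𝓝 ((0 : ℝ≥0∞) ^ (1 / 2 : ℝ))) := h3.comp h1
  rwa [ENNReal.zero_rpow_of_pos (by norm_num)] at h4

lemma glu_tri {α β γ : Type*} [MeasurableSpace α] [MeasurableSpace β] [MeasurableSpace γ] {μ : Measure α}
    {ν : Measure β} {σ : Measure γ} [SFinite μ] [SFinite ν] [SFinite σ] {f : α × β × γ → ℝ≥0∞} {g : α × β → ℝ≥0∞}
    (hf : Measurable f) (hg : Measurable g) (h : ∀ a b, ∫⁻ c, f (a, b, c) ∂σ ≤ g (a, b)) :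
    ∫⁻ p, f p ∂(μ.prod (ν.prod σ)) ≤ ∫⁻ p, g p ∂(μ.prod ν) := by
  rw [lintegral_prod _ hf.aemeasurable, lintegral_prod _ hg.aemeasurable]
  refine lintegral_mono fun a => ?_
  have h1 : Measurable fun q : β × γ => f (a, q) := hf.comp (measurable_const.prodMk measurable_id)
  rw [lintegral_prod _ h1.aemeasurable]
  exact lintegral_mono fun b => h a b

end tools

/-- `Nf exp(-½qX)` as a function of `q` -/
noncomputable def gTh (κ : ℝ) (Om : Cfg r → Matrix (Fin dm) (Fin dm) ℝ) (q : Cfg r × Cfg ds × Cfg dm) : ℝ :=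
  Nf κ (Om q.1) * Real.exp (-(1 / 2) * qX (Om q.1) q.2.2)

lemma gTh_nn (κ : ℝ) (Om : Cfg r → Matrix (Fin dm) (Fin dm) ℝ) (q : Cfg r × Cfg ds × Cfg dm) : 0 ≤ gTh κ Om q :=
  mul_nonneg (Real.sqrt_nonneg _) (Real.exp_pos _).le

lemma glu_bG (κ : ℝ) (Om : Cfg r → Matrix (Fin dm) (Fin dm) ℝ) (a : Cfg r → Cfg ds → F) (q : Cfg r × Cfg ds × Cfg dm) :
    bG κ Om a q = ((gTh κ Om q : ℝ) : ℂ) • a q.1 q.2.1 := rfl

/-- good data near `z₀` -/
structure GOm (S : Setup d F) (φ : Spl dh dm d) (ψ : Spz r ds dh) (z₀ : Cfg r) (δ : ℝ)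
    (Om : Cfg r → Matrix (Fin dm) (Fin dm) ℝ) : Prop where
  frz : ∀ η, ‖η - z₀‖ ≤ δ → Frz (Dz S φ ψ η) ∧ IsOm S.κ (Dz S φ ψ η) (Om η)
  cont : ContinuousOn Om {η | ‖η - z₀‖ ≤ δ}
  nf : ContinuousOn (fun η => Nf S.κ (Om η)) {η | ‖η - z₀‖ ≤ δ}

variable {S : Setup d F} {φ : Spl dh dm d} {ψ : Spz r ds dh} {z₀ : Cfg r} {δ : ℝ} {Om : Cfg r → Matrix (Fin dm) (Fin dm) ℝ}

lemma gTh_contOn (h : GOm S φ ψ z₀ δ Om) :
    ContinuousOn (gTh S.κ Om : Cfg r × Cfg ds × Cfg dm → ℝ) {q | ‖q.1 - z₀‖ ≤ δ} := by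
  have hmap : Set.MapsTo (fun q : Cfg r × Cfg ds × Cfg dm => q.1) {q | ‖q.1 - z₀‖ ≤ δ} {η | ‖η - z₀‖ ≤ δ} := fun q hq => hq
  have h1 : ContinuousOn (fun q : Cfg r × Cfg ds × Cfg dm => Nf S.κ (Om q.1)) {q | ‖q.1 - z₀‖ ≤ δ} :=
    h.nf.comp continuous_fst.continuousOn hmap
  have h2 : ContinuousOn (fun q : Cfg r × Cfg ds × Cfg dm => Om q.1) {q | ‖q.1 - z₀‖ ≤ δ} :=
    h.cont.comp continuous_fst.continuousOn hmap
  have h3 : ∀ B C, ContinuousOn (fun q : Cfg r × Cfg ds × Cfg dm => Om q.1 B C) {q | ‖q.1 - z₀‖ ≤ δ} := by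
    intro B C
    exact (continuousOn_pi.1 ((continuousOn_pi.1 h2) B)) C
  have h4 : ContinuousOn (fun q : Cfg r × Cfg ds × Cfg dm => qX (Om q.1) q.2.2) {q | ‖q.1 - z₀‖ ≤ δ} := by
    unfold qX
    refine continuousOn_finset_sum _ fun i _ => continuousOn_finset_sum _ fun B _ => continuousOn_finset_sum _ fun C _ => ?_
    have e1 : ∀ B, Continuous fun q : Cfg r × Cfg ds × Cfg dm => q.2.2 (i, B) := by
      intro B
      fun_prop
    exact ((e1 B).continuousOn.mul (h3 B C)).mul (e1 C).continuousOn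
  exact h1.mul (Real.continuous_exp.comp_continuousOn (continuousOn_const.mul h4))

lemma glu_closed (z₀ : Cfg r) (δ : ℝ) (ds dm : ℕ) : IsClosed {q : Cfg r × Cfg ds × Cfg dm | ‖q.1 - z₀‖ ≤ δ} :=
  isClosed_le (continuous_fst.sub continuous_const).norm continuous_const

lemma glu_bG_meas (h : GOm S φ ψ z₀ δ Om) {a : Cfg r → Cfg ds → F}
    (ha : StronglyMeasurable (fun q : Cfg r × Cfg ds => a q.1 q.2)) (hsup : ∀ η s, a η s ≠ 0 → ‖η - z₀‖ ≤ δ) :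
    StronglyMeasurable (bG S.κ Om a : Cfg r × Cfg ds × Cfg dm → F) := by
  classical
  set K : Set (Cfg r × Cfg ds × Cfg dm) := {q | ‖q.1 - z₀‖ ≤ δ} with hK
  have h1 : Measurable (K.piecewise (gTh S.κ Om) (fun _ => (0 : ℝ))) :=
    ContinuousOn.measurable_piecewise (gTh_contOn h) continuousOn_const (glu_closed z₀ δ ds dm).measurableSet
  have h2 : (bG S.κ Om a : Cfg r × Cfg ds × Cfg dm → F) =
      fun q => ((K.piecewise (gTh S.κ Om) (fun _ => (0 : ℝ)) q : ℝ) : ℂ) • a q.1 q.2.1 := by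
    funext q
    rw [glu_bG]
    by_cases hq : q ∈ K
    · rw [Set.piecewise_eq_of_mem _ _ _ hq]
    · have : a q.1 q.2.1 = 0 := by
        by_contra hne
        exact hq (hsup _ _ hne)
      rw [this, smul_zero, smul_zero]
  rw [h2]
  have h3 : Measurable fun q : Cfg r × Cfg ds × Cfg dm => (q.1, q.2.1) :=
    measurable_fst.prodMk (measurable_fst.comp measurable_snd)
  exact ((Complex.measurable_ofReal.comp h1).stronglyMeasurable).smul (ha.comp_measurable h3)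

lemma glu_bG_in {C : ℝ} {η : Cfg r} {s : Cfg ds} {a : Cfg r → Cfg ds → F}
    (hmom : a η s ≠ 0 → ∫⁻ X : Cfg dm, ENNReal.ofReal ((1 + ‖X‖ ^ 2) ^ (dm + 1) *
      (Nf S.κ (Om η) * Real.exp (-(1 / 2) * qX (Om η) X)) ^ 2) ≤ ENNReal.ofReal C) :
    ∫⁻ X : Cfg dm, ENNReal.ofReal ((1 + ‖X‖ ^ 2) ^ (dm + 1)) * ‖bG S.κ Om a (η, s, X)‖ₑ ^ 2 ≤
      ENNReal.ofReal C * ‖a η s‖ₑ ^ 2 := by
  by_cases hz : a η s = 0
  · have : ∀ X : Cfg dm, bG S.κ Om a (η, s, X) = 0 := fun X => by rw [glu_bG]; simp [hz]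
    simp [this]
  · have h1 : ∀ X : Cfg dm, ENNReal.ofReal ((1 + ‖X‖ ^ 2) ^ (dm + 1)) * ‖bG S.κ Om a (η, s, X)‖ₑ ^ 2 =
        ENNReal.ofReal ((1 + ‖X‖ ^ 2) ^ (dm + 1) * (Nf S.κ (Om η) * Real.exp (-(1 / 2) * qX (Om η) X)) ^ 2) * ‖a η s‖ₑ ^ 2 := by
      intro X
      rw [glu_bG, enorm_smul, mul_pow, ← mul_assoc]
      congr 1
      rw [ENNReal.ofReal_mul (by positivity)]
      congr 1
      rw [← ofReal_norm_eq_enorm, Complex.norm_real, Real.norm_eq_abs, abs_of_nonneg (gTh_nn _ _ _),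
        ← ENNReal.ofReal_pow (gTh_nn _ _ _)]
      rfl
    simp only [h1]
    rw [lintegral_mul_const' _ _ (by simp)]
    gcongr
    exact hmom hz

/-- weighted norm of Gaussian profiles -/
lemma glu_bG_norm (h : GOm S φ ψ z₀ δ Om) {C : ℝ} (hC : 0 < C)
    (hmom : ∀ η, ‖η - z₀‖ ≤ δ → ∫⁻ X : Cfg dm, ENNReal.ofReal ((1 + ‖X‖ ^ 2) ^ (dm + 1) *
      (Nf S.κ (Om η) * Real.exp (-(1 / 2) * qX (Om η) X)) ^ 2) ≤ ENNReal.ofReal C)
    {a : Cfg r → Cfg ds → F}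
    (ha : StronglyMeasurable (fun q : Cfg r × Cfg ds => a q.1 q.2)) (hsup : ∀ η s, a η s ≠ 0 → ‖η - z₀‖ ≤ δ) :
    eLpNorm (bG S.κ Om a : Cfg r × Cfg ds × Cfg dm → F) 2 (wM r ds dm) ≤
      ENNReal.ofReal (Real.sqrt C) * eLpNorm (fun q : Cfg r × Cfg ds => a q.1 q.2) 2 (volume.prod volume) := by
  have hb := glu_bG_meas h ha hsup
  have hm1 : Measurable fun q : Cfg r × Cfg ds × Cfg dm =>
      ENNReal.ofReal ((1 + ‖q.2.2‖ ^ 2) ^ (dm + 1)) * ‖bG S.κ Om a q‖ₑ ^ 2 :=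
    (glu_w_meas r ds dm).mul (hb.enorm.pow_const 2)
  have hm2 : Measurable fun q : Cfg r × Cfg ds => ENNReal.ofReal C * ‖a q.1 q.2‖ₑ ^ 2 :=
    (ha.enorm.pow_const 2).const_mul _
  have key := glu_tri (μ := (volume : Measure (Cfg r))) (ν := (volume : Measure (Cfg ds)))
    (σ := (volume : Measure (Cfg dm))) hm1 hm2 (fun η s => glu_bG_in fun hne => hmom η (hsup _ _ hne))
  rw [lintegral_const_mul' _ _ ENNReal.ofReal_ne_top, glu_w_sq hb, glu_sq] at key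
  refine glu_le_of_sq ?_
  rw [glu_sq, mul_pow, ← ENNReal.ofReal_pow (Real.sqrt_nonneg _), Real.sq_sqrt hC.le]
  exact key

/-- `vG a = Vb (bG a)` -/
lemma glu_vG [CompleteSpace F] (hg : GauStmt) (h : GOm S φ ψ z₀ δ Om) {a : Cfg r → Cfg ds → F} (hsup : ∀ η s, a η s ≠ 0 → ‖η - z₀‖ ≤ δ)
    (η : Cfg r) (s : Cfg ds) (w : Wsp dm) : vG S φ ψ Om a η s w = Vb S φ ψ (bG S.κ Om a) η s w := by
  by_cases hz : a η s = 0
  · have h1 : ∀ X : Cfg dm, bG S.κ Om a (η, s, X) = 0 := fun X => by rw [glu_bG]; simp [hz]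
    simp only [vG, Vb, hz, h1, smul_zero, integral_zero]
  · obtain ⟨h1, h2⟩ := h.frz η (hsup _ _ hz)
    obtain ⟨-, -, -, -, -, h3⟩ := hg dm S.κ (Dz S φ ψ η) (Om η) S.κ_pos h1 h2
    obtain ⟨-, h4⟩ := h3 w
    have h5 : (∫ a' : EuclideanSpace ℝ (Fin dm), bG S.κ Om a (η, s, xi (Dz S φ ψ η) w a')) =
        ((Nf S.κ (Om η) * ∫ a' : EuclideanSpace ℝ (Fin dm), Real.exp (-(1 / 2) * qX (Om η) (xi (Dz S φ ψ η) w a')) : ℝ) : ℂ) •
          a η s := by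
      have e1 : ∀ a' : EuclideanSpace ℝ (Fin dm), bG S.κ Om a (η, s, xi (Dz S φ ψ η) w a') =
          (Nf S.κ (Om η) * Real.exp (-(1 / 2) * qX (Om η) (xi (Dz S φ ψ η) w a'))) • a η s := by
        intro a'
        rw [glu_bG, Complex.coe_smul]
        rfl
      simp only [e1]
      rw [integral_smul_const, integral_const_mul, Complex.coe_smul]
    rw [vG, Vb, h5, smul_smul, ← Complex.ofReal_mul, h4]

end Vale.Agent.P353.Z.AN
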