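import Vale.Agent.P353.AN.GL.GluB

/-! # P353, all `N`, block GL: the two functionals -/

set_option linter.all false

open MeasureTheory Filter Topology
open scoped ContDiff ENNReal

namespace Vale.Agent.P353.Z.AN

variable {d dh dm r ds : ℕ} {F : Type*} [NormedAddCommGroup F] [InnerProductSpace ℂ F]

lemma glu_apx {x : ℕ → ℂ} (h : ∀ e : ℝ≥0∞, 0 < e → ∃ y : ℕ → ℂ, Tendsto y atTop (𝓝 0) ∧ ∀ᶠ n in atTop, ‖x n - y n‖ₑ ≤ e) :
    Tendsto x atTop (𝓝 0) := by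
  rw [tendsto_iff_edist_tendsto_0, ENNReal.tendsto_nhds_zero]
  intro e he
  obtain ⟨y, hy, hxy⟩ := h (e / 2) (ENNReal.half_pos he.ne')
  rw [tendsto_iff_edist_tendsto_0, ENNReal.tendsto_nhds_zero] at hy
  filter_upwards [hy (e / 2) (ENNReal.half_pos he.ne'), hxy] with n h1 h2
  calc edist (x n) 0 ≤ edist (x n) (y n) + edist (y n) 0 := edist_triangle _ _ _
    _ ≤ e / 2 + e / 2 := add_le_add (by rwa [edist_eq_enorm_sub]) h1
    _ = e := ENNReal.add_halves e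

/-- global functional -/
noncomputable def gGl (φ : Spl dh dm d) (ψ : Spz r ds dh) (R : ℝ) (b : Cfg r × Cfg ds × Cfg dm → F) (u : Cfg d → F) : ℂ :=
  ∫ x, inner ℂ (Zb φ ψ b R x) (u x)

/-- slice functional -/
noncomputable def gSl (S : Setup d F) (φ : Spl dh dm d) (ψ : Spz r ds dh) (z₀ : Cfg r) (ε R : ℝ)
    (v : Cfg r → Cfg ds → Wsp dm → F) (u : Cfg d → F) : ℂ :=
  ∫ p in Nb (cmb ψ z₀ 0) dm R ε, inner ℂ (Ts0 ψ v R p.1 p.2) (S.res φ u p.1 p.2) ∂(volume.prod volume)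

lemma gGl_sub (φ : Spl dh dm d) (ψ : Spz r ds dh) {R : ℝ} (hR : 0 < R) {b b' : Cfg r × Cfg ds × Cfg dm → F}
    (hb : MemLp b 2 (wM r ds dm)) (hb' : MemLp b' 2 (wM r ds dm)) {u : Cfg d → F} (hu : Setup.Tst u) :
    gGl φ ψ R b u - gGl φ ψ R b' u = gGl φ ψ R (fun q => b q - b' q) u := by
  have h1 := glu_int (glu_memLp φ ψ R hR (hb.mono_measure (glu_w_le r ds dm))) hu.memLp
  have h2 := glu_int (glu_memLp φ ψ R hR (hb'.mono_measure (glu_w_le r ds dm))) hu.memLp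
  unfold gGl
  rw [← integral_sub h1 h2]
  refine integral_congr_ae (ae_of_all _ fun x => ?_)
  show inner ℂ (Zb φ ψ b R x) (u x) - inner ℂ (Zb φ ψ b' R x) (u x) = inner ℂ (Zb φ ψ (fun q => b q - b' q) R x) (u x)
  rw [← inner_sub_left]
  congr 1
  unfold Zb
  rw [smul_sub]

lemma glu_Ts_memLp (S : Setup d F) (fd : FiniteDimensional ℂ F) (hm : MeaStmt S) {φ : Spl dh dm d} {ψ : Spz r ds dh}
    (hsub : S.IsSub φ) {R : ℝ} (hR : 0 < R) {v : Cfg r → Cfg ds → Wsp dm → F}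
    (hv : StronglyMeasurable (fun q : Cfg r × Cfg ds × Wsp dm => v q.1 q.2.1 q.2.2))
    (hv2 : MemLp (fun q : Cfg r × Cfg ds × Wsp dm => v q.1 q.2.1 q.2.2) 2 (volume.prod (volume.prod volume))) :
    MemLp (fun p : Cfg dh × Wsp dm => Ts0 ψ v R p.1 p.2) 2 (volume.prod volume) ∧
    eLpNorm (fun p : Cfg dh × Wsp dm => Ts0 ψ v R p.1 p.2) 2 (volume.prod volume) =
      eLpNorm (fun q : Cfg r × Cfg ds × Wsp dm => v q.1 q.2.1 q.2.2) 2 (volume.prod (volume.prod volume)) := by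
  obtain ⟨h1, h2⟩ := (hm fd dh dm r ds φ ψ hsub).2.2 R v hR hv
  rw [glu_sq, glu_sq] at h2
  have h3 : eLpNorm (fun p : Cfg dh × Wsp dm => Ts0 ψ v R p.1 p.2) 2 (volume.prod volume) =
      eLpNorm (fun q : Cfg r × Cfg ds × Wsp dm => v q.1 q.2.1 q.2.2) 2 (volume.prod (volume.prod volume)) := by
    have := congrArg (fun t : ℝ≥0∞ => t ^ (1 / 2 : ℝ)) h2
    simp only [← ENNReal.rpow_natCast, ← ENNReal.rpow_mul] at this
    norm_num at this
    exact this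
  exact ⟨⟨h1.aestronglyMeasurable, h3 ▸ hv2.2⟩, h3⟩

lemma gSl_sub (S : Setup d F) (fd : FiniteDimensional ℂ F) (hm : MeaStmt S) {φ : Spl dh dm d} {ψ : Spz r ds dh}
    (hsub : S.IsSub φ) (z₀ : Cfg r) (ε : ℝ) {R : ℝ} (hR : 0 < R) {v v' : Cfg r → Cfg ds → Wsp dm → F}
    (hv : StronglyMeasurable (fun q : Cfg r × Cfg ds × Wsp dm => v q.1 q.2.1 q.2.2))
    (hv2 : MemLp (fun q : Cfg r × Cfg ds × Wsp dm => v q.1 q.2.1 q.2.2) 2 (volume.prod (volume.prod volume)))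
    (hv' : StronglyMeasurable (fun q : Cfg r × Cfg ds × Wsp dm => v' q.1 q.2.1 q.2.2))
    (hv2' : MemLp (fun q : Cfg r × Cfg ds × Wsp dm => v' q.1 q.2.1 q.2.2) 2 (volume.prod (volume.prod volume)))
    {u : Cfg d → F} (hu : Setup.Tst u) :
    gSl S φ ψ z₀ ε R v u - gSl S φ ψ z₀ ε R v' u = gSl S φ ψ z₀ ε R (fun η s w => v η s w - v' η s w) u := by
  have hr := glu_res_memLp S φ hu.1.continuous (cmb ψ z₀ 0) R ε
  have h1 := glu_int ((glu_Ts_memLp S fd hm (ψ := ψ) hsub hR hv hv2).1.mono_measure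
    (Measure.restrict_le_self (s := Nb (cmb ψ z₀ 0) dm R ε))) hr
  have h2 := glu_int ((glu_Ts_memLp S fd hm (ψ := ψ) hsub hR hv' hv2').1.mono_measure
    (Measure.restrict_le_self (s := Nb (cmb ψ z₀ 0) dm R ε))) hr
  unfold gSl
  rw [← integral_sub h1 h2]
  refine integral_congr_ae (ae_of_all _ fun x => ?_)
  show inner ℂ (Ts0 ψ v R x.1 x.2) (S.res φ u x.1 x.2) - inner ℂ (Ts0 ψ v' R x.1 x.2) (S.res φ u x.1 x.2) =
    inner ℂ (Ts0 ψ (fun η s w => v η s w - v' η s w) R x.1 x.2) (S.res φ u x.1 x.2)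
  rw [← inner_sub_left]
  congr 1
  unfold Ts0
  rw [smul_sub]

lemma gSl_bd (S : Setup d F) (fd : FiniteDimensional ℂ F) (hm : MeaStmt S) {φ : Spl dh dm d} {ψ : Spz r ds dh}
    (hsub : S.IsSub φ) {z₀ : Cfg r} {j : EuclideanSpace ℝ (Fin dm) → ℝ} {ε ρ δ c Cw : ℝ} (D : GluD S φ ψ z₀ j ε ρ δ c Cw)
    {R : ℝ} (hR : 0 < R) {v : Cfg r → Cfg ds → Wsp dm → F}
    (hv : StronglyMeasurable (fun q : Cfg r × Cfg ds × Wsp dm => v q.1 q.2.1 q.2.2))
    (hv2 : MemLp (fun q : Cfg r × Cfg ds × Wsp dm => v q.1 q.2.1 q.2.2) 2 (volume.prod (volume.prod volume)))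
    {u : Cfg d → F} (hu : Setup.Tst u) (hG : ∀ C x, S.G C u x = 0) :
    ‖gSl S φ ψ z₀ ε R v u‖ₑ ≤
      eLpNorm (fun q : Cfg r × Cfg ds × Wsp dm => v q.1 q.2.1 q.2.2) 2 (volume.prod (volume.prod volume)) *
        (ENNReal.ofReal (Real.sqrt c)⁻¹ * eLpNorm u 2 volume) := by
  obtain ⟨h1, h2⟩ := glu_Ts_memLp S fd hm (ψ := ψ) hsub hR hv hv2
  refine le_trans (glu_cs (h1.1.mono_measure Measure.restrict_le_self)
    (glu_res_cont S φ hu.1.continuous).aestronglyMeasurable) ?_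
  refine mul_le_mul' ?_ (glu_res_le S φ (cmb ψ z₀ 0) R ε ρ c D.c_pos hu (D.nrm R hR u hu hG))
  rw [← h2]
  exact eLpNorm_mono_measure _ Measure.restrict_le_self

/-! ### cutoffs in `X` -/

/-- continuous cutoff -/
noncomputable def gxi (k : ℕ) (X : Cfg dm) : ℝ := max 0 (min 1 ((k : ℝ) + 1 - ‖X‖))

lemma gxi_cont (k : ℕ) : Continuous (gxi k : Cfg dm → ℝ) :=
  continuous_const.max (continuous_const.min (continuous_const.sub continuous_norm))

lemma gxi_nn (k : ℕ) (X : Cfg dm) : 0 ≤ gxi k X := le_max_left _ _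

lemma gxi_le (k : ℕ) (X : Cfg dm) : gxi k X ≤ 1 := max_le zero_le_one (min_le_left _ _)

lemma gxi_zero {k : ℕ} {X : Cfg dm} (h : gxi k X ≠ 0) : ‖X‖ ≤ k + 1 := by
  by_contra hX
  refine h (max_eq_left ?_)
  exact (min_le_right _ _).trans (by linarith [not_le.1 hX])

lemma gxi_lim (X : Cfg dm) : Tendsto (fun k => gxi k X) atTop (𝓝 1) := by
  obtain ⟨k₀, hk₀⟩ := exists_nat_ge ‖X‖
  refine tendsto_const_nhds.congr' ?_
  filter_upwards [eventually_ge_atTop k₀] with k hk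
  have : (k₀ : ℝ) ≤ k := by exact_mod_cast hk
  unfold gxi
  rw [min_eq_left (by linarith), max_eq_right zero_le_one]

variable {S : Setup d F} {φ : Spl dh dm d} {ψ : Spz r ds dh} {z₀ : Cfg r} {δ : ℝ} {Om : Cfg r → Matrix (Fin dm) (Fin dm) ℝ}

/-- domination by the full profile -/
lemma glu_vG_dom [CompleteSpace F] (hg : GauStmt) (h : GOm S φ ψ z₀ δ Om) {a : Cfg r → Cfg ds → F}
    (hsup : ∀ η s, a η s ≠ 0 → ‖η - z₀‖ ≤ δ) (ξ : Cfg dm → ℝ) (h0 : ∀ X, 0 ≤ ξ X) (h1 : ∀ X, ξ X ≤ 1)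
    (η : Cfg r) (s : Cfg ds) (w : Wsp dm) :
    ‖Vb S φ ψ (fun q => ((ξ q.2.2 : ℝ) : ℂ) • bG S.κ Om a q) η s w‖ ≤ ‖vG S φ ψ Om a η s w‖ := by
  by_cases hz : a η s = 0
  · have e1 : ∀ X : Cfg dm, bG S.κ Om a (η, s, X) = 0 := fun X => by rw [glu_bG]; simp [hz]
    simp only [Vb, e1, smul_zero, integral_zero, norm_zero]
    exact norm_nonneg _
  · obtain ⟨g1, g2⟩ := h.frz η (hsup _ _ hz)
    obtain ⟨-, -, -, -, -, h3⟩ := hg dm S.κ (Dz S φ ψ η) (Om η) S.κ_pos g1 g2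
    obtain ⟨h5, h4⟩ := h3 w
    have hN : 0 ≤ Nf S.κ (Om η) := Real.sqrt_nonneg _
    have e1 : ‖∫ a' : EuclideanSpace ℝ (Fin dm), ((ξ (xi (Dz S φ ψ η) w a') : ℝ) : ℂ) •
        bG S.κ Om a (η, s, xi (Dz S φ ψ η) w a')‖ ≤
        ∫ a' : EuclideanSpace ℝ (Fin dm), Nf S.κ (Om η) * Real.exp (-(1 / 2) * qX (Om η) (xi (Dz S φ ψ η) w a')) * ‖a η s‖ := by
      refine norm_integral_le_of_norm_le ((h5.const_mul _).mul_const _) (ae_of_all _ fun a' => ?_)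
      rw [glu_bG, norm_smul, norm_smul, Complex.norm_real, Complex.norm_real, Real.norm_eq_abs, Real.norm_eq_abs,
        abs_of_nonneg (h0 _), abs_of_nonneg (gTh_nn _ _ _)]
      refine mul_le_of_le_one_left (mul_nonneg (gTh_nn _ _ _) (norm_nonneg _)) (h1 _)
    rw [integral_mul_const, integral_const_mul] at e1
    have e2 : ‖vG S φ ψ Om a η s w‖ = Real.sqrt |(Dz S φ ψ η 8).det| *
        ((Nf S.κ (Om η) * ∫ a' : EuclideanSpace ℝ (Fin dm), Real.exp (-(1 / 2) * qX (Om η) (xi (Dz S φ ψ η) w a'))) * ‖a η s‖) := by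
      rw [vG, norm_smul, Complex.norm_real, ← h4, Real.norm_eq_abs, abs_of_nonneg, mul_assoc]
      exact mul_nonneg (Real.sqrt_nonneg _) (mul_nonneg hN (integral_nonneg fun _ => (Real.exp_pos _).le))
    rw [e2]
    unfold Vb
    rw [norm_smul, Complex.norm_real, Real.norm_eq_abs, abs_of_nonneg (Real.sqrt_nonneg _)]
    exact mul_le_mul_of_nonneg_left e1 (Real.sqrt_nonneg _)

lemma glu_xi_cont (D : Fin 9 → Matrix (Fin dm) (Fin dm) ℝ) (w : Wsp dm) :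
    Continuous fun a : EuclideanSpace ℝ (Fin dm) => xi D w a := by
  unfold xi
  refine (PiLp.continuous_toLp 2 _).comp (continuous_pi fun p => ?_)
  refine continuous_const.sub (continuous_finset_sum _ fun C _ => continuous_const.mul ?_)
  fun_prop

lemma glu_vG_lim [CompleteSpace F] (hg : GauStmt) (h : GOm S φ ψ z₀ δ Om) {a : Cfg r → Cfg ds → F}
    (hsup : ∀ η s, a η s ≠ 0 → ‖η - z₀‖ ≤ δ) (η : Cfg r) (s : Cfg ds) (w : Wsp dm) :
    Tendsto (fun k : ℕ => Vb S φ ψ (fun q => ((gxi k q.2.2 : ℝ) : ℂ) • bG S.κ Om a q) η s w) atTop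
      (𝓝 (vG S φ ψ Om a η s w)) := by
  rw [glu_vG hg h hsup]
  by_cases hz : a η s = 0
  · have e1 : ∀ X : Cfg dm, bG S.κ Om a (η, s, X) = 0 := fun X => by rw [glu_bG]; simp [hz]
    simp only [Vb, e1, smul_zero, integral_zero]
    exact tendsto_const_nhds
  · obtain ⟨g1, g2⟩ := h.frz η (hsup _ _ hz)
    obtain ⟨-, -, -, -, -, h3⟩ := hg dm S.κ (Dz S φ ψ η) (Om η) S.κ_pos g1 g2
    obtain ⟨h5, h4⟩ := h3 w
    have hq : Continuous fun X : Cfg dm => qX (Om η) X := by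
      unfold qX
      refine continuous_finset_sum _ fun i _ => continuous_finset_sum _ fun B _ => continuous_finset_sum _ fun C _ => ?_
      fun_prop
    have hbc : Continuous fun X : Cfg dm => bG S.κ Om a (η, s, X) := by
      have e0 : Continuous fun X : Cfg dm => ((Nf S.κ (Om η) * Real.exp (-(1 / 2) * qX (Om η) X) : ℝ) : ℂ) :=
        Complex.continuous_ofReal.comp (continuous_const.mul (Real.continuous_exp.comp (continuous_const.mul hq)))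
      exact e0.smul (continuous_const (y := a η s))
    unfold Vb
    refine Tendsto.const_smul ?_ _
    refine tendsto_integral_of_dominated_convergence
      (fun a' => Nf S.κ (Om η) * Real.exp (-(1 / 2) * qX (Om η) (xi (Dz S φ ψ η) w a')) * ‖a η s‖)
      (fun k => ?_) ((h5.const_mul _).mul_const _) (fun k => ae_of_all _ fun a' => ?_) (ae_of_all _ fun a' => ?_)
    · exact ((Complex.continuous_ofReal.comp ((gxi_cont k).comp (glu_xi_cont _ w))).smul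
        (hbc.comp (glu_xi_cont _ w))).aestronglyMeasurable
    · show ‖((gxi k (xi (Dz S φ ψ η) w a') : ℝ) : ℂ) • bG S.κ Om a (η, s, xi (Dz S φ ψ η) w a')‖ ≤ _
      rw [glu_bG, norm_smul, norm_smul, Complex.norm_real, Complex.norm_real, Real.norm_eq_abs, Real.norm_eq_abs,
        abs_of_nonneg (gxi_nn _ _), abs_of_nonneg (gTh_nn _ _ _)]
      refine mul_le_of_le_one_left (mul_nonneg (gTh_nn _ _ _) (norm_nonneg _)) (gxi_le _ _)
    · have e1 := (Complex.continuous_ofReal.tendsto (1 : ℝ)).comp (gxi_lim (xi (Dz S φ ψ η) w a'))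
      have e2 := e1.smul_const (bG S.κ Om a (η, s, xi (Dz S φ ψ η) w a'))
      simpa using e2

lemma glu_vG_meas [CompleteSpace F] (hg : GauStmt) (fd : FiniteDimensional ℂ F) (hm : MeaStmt S) (hsb : S.IsSub φ)
    (h : GOm S φ ψ z₀ δ Om) {a : Cfg r → Cfg ds → F}
    (ha : StronglyMeasurable (fun q : Cfg r × Cfg ds => a q.1 q.2)) (hsup : ∀ η s, a η s ≠ 0 → ‖η - z₀‖ ≤ δ) :
    StronglyMeasurable (fun q : Cfg r × Cfg ds × Wsp dm => vG S φ ψ Om a q.1 q.2.1 q.2.2) := by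
  have h1 := ((hm fd dh dm r ds φ ψ hsb).2.1 1 _ (glu_bG_meas h ha hsup)).2
  have h2 : (fun q : Cfg r × Cfg ds × Wsp dm => vG S φ ψ Om a q.1 q.2.1 q.2.2) =
      fun q : Cfg r × Cfg ds × Wsp dm => Vb S φ ψ (bG S.κ Om a) q.1 q.2.1 q.2.2 := by
    funext q
    exact glu_vG hg h hsup _ _ _
  rw [h2]
  exact h1

/-- `|vG a| ≤ |a|` -/
lemma glu_vG_norm [CompleteSpace F] (hg : GauStmt) (fd : FiniteDimensional ℂ F) (hm : MeaStmt S) (hsb : S.IsSub φ)
    (h : GOm S φ ψ z₀ δ Om) {a : Cfg r → Cfg ds → F}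
    (ha : StronglyMeasurable (fun q : Cfg r × Cfg ds => a q.1 q.2)) (hsup : ∀ η s, a η s ≠ 0 → ‖η - z₀‖ ≤ δ) :
    eLpNorm (fun q : Cfg r × Cfg ds × Wsp dm => vG S φ ψ Om a q.1 q.2.1 q.2.2) 2 (volume.prod (volume.prod volume)) ≤
      eLpNorm (fun q : Cfg r × Cfg ds => a q.1 q.2) 2 (volume.prod volume) := by
  have hv := glu_vG_meas hg fd hm hsb h ha hsup
  have hm1 : Measurable fun q : Cfg r × Cfg ds × Wsp dm => ‖vG S φ ψ Om a q.1 q.2.1 q.2.2‖ₑ ^ 2 := hv.enorm.pow_const 2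
  have hm2 : Measurable fun q : Cfg r × Cfg ds => ‖a q.1 q.2‖ₑ ^ 2 := ha.enorm.pow_const 2
  have key := glu_tri (μ := (volume : Measure (Cfg r))) (ν := (volume : Measure (Cfg ds)))
    (σ := (volume : Measure (Wsp dm))) hm1 hm2 (fun η s => ?_)
  · refine glu_le_of_sq (key.trans (le_of_eq (glu_sq _)))
  · show ∫⁻ w : Wsp dm, ‖vG S φ ψ Om a η s w‖ₑ ^ 2 ≤ ‖a η s‖ₑ ^ 2
    by_cases hz : a η s = 0
    · simp [vG, hz]
    · obtain ⟨g1, g2⟩ := h.frz η (hsup _ _ hz)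
      obtain ⟨-, -, -, h3, h4, -⟩ := hg dm S.κ (Dz S φ ψ η) (Om η) S.κ_pos g1 g2
      set N := ∫ w', gR (Dz S φ ψ η) (Om η) 1 w' ^ 2 with hN
      have e1 : ∀ w : Wsp dm, ‖vG S φ ψ Om a η s w‖ₑ ^ 2 =
          ENNReal.ofReal (N⁻¹ * gR (Dz S φ ψ η) (Om η) 1 w ^ 2) * ‖a η s‖ₑ ^ 2 := by
        intro w
        rw [vG, enorm_smul, mul_pow, ← ofReal_norm_eq_enorm, Complex.norm_real, ← ENNReal.ofReal_pow (norm_nonneg _),
          Real.norm_eq_abs, sq_abs, div_pow, Real.sq_sqrt h3.le, div_eq_inv_mul]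
      simp only [e1]
      rw [lintegral_mul_const' _ _ (by simp), ← ofReal_integral_eq_lintegral_ofReal (h4.const_mul _)
        (ae_of_all _ fun w => mul_nonneg (inv_nonneg.2 h3.le) (sq_nonneg _)), integral_const_mul, ← hN,
        inv_mul_cancel₀ h3.ne', ENNReal.ofReal_one, one_mul]

end Vale.Agent.P353.Z.AN
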