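import Vale.Agent.P353.AN.GL.GluC

/-! # P353, all `N`, block GL: the global functional and the slice functional have the same limit -/

set_option linter.all false

open MeasureTheory Filter Topology
open scoped ContDiff ENNReal

namespace Vale.Agent.P353.Z.AN

variable {d dh dm r ds : ℕ} {F : Type*} [NormedAddCommGroup F] [InnerProductSpace ℂ F]

/-- the moment bound -/
def GMo (κ : ℝ) (z₀ : Cfg r) (δ CM : ℝ) (Om : Cfg r → Matrix (Fin dm) (Fin dm) ℝ) : Prop :=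
  ∀ η, ‖η - z₀‖ ≤ δ → ∫⁻ X : Cfg dm, ENNReal.ofReal ((1 + ‖X‖ ^ 2) ^ (dm + 1) *
      (Nf κ (Om η) * Real.exp (-(1 / 2) * qX (Om η) X)) ^ 2) ≤ ENNReal.ofReal CM

/-- data of the sequences -/
structure GSq (S : Setup d F) (R : ℕ → ℝ) (u : ℕ → Cfg d → F) (U : ℝ≥0∞) : Prop where
  R_lim : Tendsto R atTop atTop
  tst : ∀ n, Setup.Tst (u n)
  gau : ∀ n C x, S.G C (u n) x = 0
  bd : ∀ n, eLpNorm (u n) 2 volume ≤ U
  U_top : U ≠ ⊤

/-- admissible sections -/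
structure GSc (z₀ : Cfg r) (δ : ℝ) (a : Cfg r → Cfg ds → F) : Prop where
  meas : StronglyMeasurable (fun q : Cfg r × Cfg ds => a q.1 q.2)
  mem : MemLp (fun q : Cfg r × Cfg ds => a q.1 q.2) 2 (volume.prod volume)
  sup : ∀ η s, a η s ≠ 0 → ‖η - z₀‖ ≤ δ

/-- admissible cutoffs -/
structure GCt (δ₀ : ℝ) (R : ℕ → ℝ) (χ : ℕ → Cfg r × Cfg ds × Cfg dm → ℝ) : Prop where
  meas : ∀ n, Measurable (χ n)
  nn : ∀ n q, 0 ≤ χ n q
  le : ∀ n q, χ n q ≤ 1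
  lim : ∀ q, Tendsto (fun n => χ n q) atTop (𝓝 1)
  sup : ∀ n q, χ n q ≠ 0 → ‖q.2.1‖ ≤ δ₀ * R n ∧ ‖q.2.2‖ ≤ δ₀ * (R n * Real.sqrt (R n))

section one

variable {S : Setup d F} {φ : Spl dh dm d} {ψ : Spz r ds dh} {z₀ : Cfg r} {δ CM : ℝ} {Om : Cfg r → Matrix (Fin dm) (Fin dm) ℝ}

lemma glu_norm_smul {t : ℝ} (h0 : 0 ≤ t) (v : F) : ‖((t : ℝ) : ℂ) • v‖ = t * ‖v‖ := by
  rw [norm_smul, Complex.norm_real, Real.norm_eq_abs, abs_of_nonneg h0]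

lemma glu_bG_memW (h : GOm S φ ψ z₀ δ Om) (hCM : 0 < CM) (hmo : GMo S.κ z₀ δ CM Om) {a : Cfg r → Cfg ds → F}
    (ha : GSc z₀ δ a) : MemLp (bG S.κ Om a : Cfg r × Cfg ds × Cfg dm → F) 2 (wM r ds dm) :=
  ⟨(glu_bG_meas h ha.meas ha.sup).aestronglyMeasurable,
    lt_of_le_of_lt (glu_bG_norm h hCM hmo ha.meas ha.sup) (ENNReal.mul_lt_top ENNReal.ofReal_lt_top ha.mem.2)⟩

lemma glu_cut_meas (h : GOm S φ ψ z₀ δ Om) {a : Cfg r → Cfg ds → F} (ha : GSc z₀ δ a)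
    {χ : Cfg r × Cfg ds × Cfg dm → ℝ} (hχ : Measurable χ) :
    StronglyMeasurable (fun q : Cfg r × Cfg ds × Cfg dm => ((χ q : ℝ) : ℂ) • bG S.κ Om a q) :=
  (Complex.measurable_ofReal.comp hχ).stronglyMeasurable.smul (glu_bG_meas h ha.meas ha.sup)

lemma glu_cut_memW (h : GOm S φ ψ z₀ δ Om) (hCM : 0 < CM) (hmo : GMo S.κ z₀ δ CM Om) {a : Cfg r → Cfg ds → F}
    (ha : GSc z₀ δ a) {χ : Cfg r × Cfg ds × Cfg dm → ℝ} (hχ : Measurable χ) (h0 : ∀ q, 0 ≤ χ q) (h1 : ∀ q, χ q ≤ 1) :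
    MemLp (fun q : Cfg r × Cfg ds × Cfg dm => ((χ q : ℝ) : ℂ) • bG S.κ Om a q) 2 (wM r ds dm) ∧
    eLpNorm (fun q : Cfg r × Cfg ds × Cfg dm => ((χ q : ℝ) : ℂ) • bG S.κ Om a q) 2 (wM r ds dm) ≤
      eLpNorm (bG S.κ Om a : Cfg r × Cfg ds × Cfg dm → F) 2 (wM r ds dm) := by
  have e1 : eLpNorm (fun q : Cfg r × Cfg ds × Cfg dm => ((χ q : ℝ) : ℂ) • bG S.κ Om a q) 2 (wM r ds dm) ≤
      eLpNorm (bG S.κ Om a : Cfg r × Cfg ds × Cfg dm → F) 2 (wM r ds dm) := by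
    refine eLpNorm_mono fun q => ?_
    rw [glu_norm_smul (h0 q)]
    exact mul_le_of_le_one_left (norm_nonneg _) (h1 q)
  exact ⟨⟨(glu_cut_meas h ha hχ).aestronglyMeasurable, lt_of_le_of_lt e1 (glu_bG_memW h hCM hmo ha).2⟩, e1⟩

/-- the slice side of the cut profile -/
lemma glu_Vk [CompleteSpace F] (hg : GauStmt) (fd : FiniteDimensional ℂ F) (hm : MeaStmt S) (hsb : S.IsSub φ)
    (h : GOm S φ ψ z₀ δ Om) {a : Cfg r → Cfg ds → F} (ha : GSc z₀ δ a) (k : ℕ) :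
    StronglyMeasurable (fun q : Cfg r × Cfg ds × Wsp dm =>
      Vb S φ ψ (fun q => ((gxi k q.2.2 : ℝ) : ℂ) • bG S.κ Om a q) q.1 q.2.1 q.2.2) ∧
    MemLp (fun q : Cfg r × Cfg ds × Wsp dm =>
      Vb S φ ψ (fun q => ((gxi k q.2.2 : ℝ) : ℂ) • bG S.κ Om a q) q.1 q.2.1 q.2.2) 2 (volume.prod (volume.prod volume)) := by
  have hχ : Measurable fun q : Cfg r × Cfg ds × Cfg dm => gxi k q.2.2 :=
    ((gxi_cont k).measurable).comp (measurable_snd.comp measurable_snd)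
  have h1 := ((hm fd dh dm r ds φ ψ hsb).2.1 1 _ (glu_cut_meas h ha hχ)).2
  refine ⟨h1, h1.aestronglyMeasurable, ?_⟩
  refine lt_of_le_of_lt (eLpNorm_mono fun q => glu_vG_dom hg h ha.sup (gxi k) (gxi_nn k) (gxi_le k) q.1 q.2.1 q.2.2) ?_
  exact lt_of_le_of_lt (glu_vG_norm hg fd hm hsb h ha.meas ha.sup) ha.mem.2

lemma glu_vG_mem [CompleteSpace F] (hg : GauStmt) (fd : FiniteDimensional ℂ F) (hm : MeaStmt S) (hsb : S.IsSub φ)
    (h : GOm S φ ψ z₀ δ Om) {a : Cfg r → Cfg ds → F} (ha : GSc z₀ δ a) :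
    MemLp (fun q : Cfg r × Cfg ds × Wsp dm => vG S φ ψ Om a q.1 q.2.1 q.2.2) 2 (volume.prod (volume.prod volume)) :=
  ⟨(glu_vG_meas hg fd hm hsb h ha.meas ha.sup).aestronglyMeasurable,
    lt_of_le_of_lt (glu_vG_norm hg fd hm hsb h ha.meas ha.sup) ha.mem.2⟩

/-- the slice error tends to zero -/
lemma glu_e3 [CompleteSpace F] (hg : GauStmt) (fd : FiniteDimensional ℂ F) (hm : MeaStmt S) (hsb : S.IsSub φ)
    (h : GOm S φ ψ z₀ δ Om) {a : Cfg r → Cfg ds → F} (ha : GSc z₀ δ a) :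
    Tendsto (fun k : ℕ => eLpNorm (fun q : Cfg r × Cfg ds × Wsp dm => vG S φ ψ Om a q.1 q.2.1 q.2.2 -
      Vb S φ ψ (fun q => ((gxi k q.2.2 : ℝ) : ℂ) • bG S.κ Om a q) q.1 q.2.1 q.2.2) 2 (volume.prod (volume.prod volume)))
      atTop (𝓝 0) := by
  refine glu_dc (g := fun q : Cfg r × Cfg ds × Wsp dm => (2 : ℂ) • vG S φ ψ Om a q.1 q.2.1 q.2.2)
    (fun k => (glu_vG_meas hg fd hm hsb h ha.meas ha.sup).sub (glu_Vk hg fd hm hsb h ha k).1)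
    ((glu_vG_mem hg fd hm hsb h ha).const_smul 2) (fun k q => ?_) (fun q => ?_)
  · refine (norm_sub_le _ _).trans ?_
    have h1 := glu_vG_dom hg h ha.sup (gxi k) (gxi_nn k) (gxi_le k) q.1 q.2.1 q.2.2
    rw [norm_smul, Complex.norm_ofNat]
    linarith
  · have h1 := glu_vG_lim hg h ha.sup q.1 q.2.1 q.2.2
    have h2 := (tendsto_const_nhds (x := vG S φ ψ Om a q.1 q.2.1 q.2.2)).sub h1
    rwa [sub_self] at h2

/-- the errors on the global side -/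
lemma glu_e1 (h : GOm S φ ψ z₀ δ Om) (hCM : 0 < CM) (hmo : GMo S.κ z₀ δ CM Om) {a : Cfg r → Cfg ds → F}
    (ha : GSc z₀ δ a) {χ : ℕ → Cfg r × Cfg ds × Cfg dm → ℝ} (hχ : ∀ n, Measurable (χ n)) (h0 : ∀ n q, 0 ≤ χ n q)
    (h1 : ∀ n q, χ n q ≤ 1) (h2 : ∀ q, Tendsto (fun n => χ n q) atTop (𝓝 1)) :
    Tendsto (fun n => eLpNorm (fun q : Cfg r × Cfg ds × Cfg dm => ((1 - χ n q : ℝ) : ℂ) • bG S.κ Om a q) 2 (wM r ds dm))
      atTop (𝓝 0) := by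
  refine glu_dc (g := bG S.κ Om a) (fun n => glu_cut_meas h ha (measurable_const.sub (hχ n)))
    (glu_bG_memW h hCM hmo ha) (fun n q => ?_) (fun q => ?_)
  · rw [glu_norm_smul (sub_nonneg.2 (h1 n q))]
    exact mul_le_of_le_one_left (norm_nonneg _) (by linarith [h0 n q])
  · have e1 := (Complex.continuous_ofReal.tendsto (0 : ℝ)).comp (by
      have := (tendsto_const_nhds (x := (1 : ℝ))).sub (h2 q)
      rwa [sub_self] at this)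
    have e2 := e1.smul_const (bG S.κ Om a q)
    simpa using e2

end one

end Vale.Agent.P353.Z.AN
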