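import Vale.Agent.P353.AN.GL.GluE

/-! # P353, all `N`, block GL: the global functional and the slice functional have the same limit -/

set_option linter.all false

open MeasureTheory Filter Topology
open scoped ContDiff ENNReal

namespace Vale.Agent.P353.Z.AN

variable {d dh dm r ds : ℕ} {F : Type*} [NormedAddCommGroup F] [InnerProductSpace ℂ F]

section one

variable {S : Setup d F} {φ : Spl dh dm d} {ψ : Spz r ds dh} {z₀ : Cfg r} {δ CM : ℝ} {Om : Cfg r → Matrix (Fin dm) (Fin dm) ℝ}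
  {j : EuclideanSpace ℝ (Fin dm) → ℝ} {ε ρ δ₁ c Cw : ℝ} {R : ℕ → ℝ} {u : ℕ → Cfg d → F} {U : ℝ≥0∞}

lemma glu_large (hδ : 0 < δ₁) (hR : Tendsto R atTop atTop) {b : Cfg r × Cfg ds × Cfg dm → F} (hbs : HasCompactSupport b) :
    ∀ᶠ n in atTop, 1 ≤ R n ∧ ∀ q, b q ≠ 0 → ‖q.2.1‖ ≤ δ₁ * R n ∧ ‖q.2.2‖ ≤ δ₁ * (R n * Real.sqrt (R n)) := by
  obtain ⟨M, hM⟩ := hbs.isCompact.isBounded.exists_norm_le
  filter_upwards [hR.eventually_ge_atTop 1, (hR.const_mul_atTop hδ).eventually_ge_atTop M] with n h1 h2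
  refine ⟨h1, fun q hq => ?_⟩
  have h3 : ‖q‖ ≤ M := hM q (subset_tsupport _ hq)
  have h4 : ‖q.2.1‖ ≤ M := ((norm_fst_le q.2).trans (norm_snd_le q)).trans h3
  have h5 : ‖q.2.2‖ ≤ M := ((norm_snd_le q.2).trans (norm_snd_le q)).trans h3
  have h6 : 1 ≤ Real.sqrt (R n) := Real.one_le_sqrt.2 h1
  refine ⟨h4.trans h2, h5.trans (h2.trans ?_)⟩
  refine mul_le_mul_of_nonneg_left ?_ hδ.le
  nlinarith

lemma glu_C0 (fd : FiniteDimensional ℂ F) (hm : MeaStmt S) (hsb : S.IsSub φ) (D : GluD S φ ψ z₀ j ε ρ δ₁ c Cw)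
    (Q : GSq S R u U) {b : Cfg r × Cfg ds × Cfg dm → F}
    (hcv : Tendsto (fun R : ℝ => ∫⁻ p in Nb (cmb ψ z₀ 0) dm R ε,
      ‖Zt S φ j ρ (Zb φ ψ b R) p - Ts0 ψ (Vb S φ ψ b) R p.1 p.2‖ₑ ^ 2 ∂(volume.prod volume)) atTop (𝓝 0))
    (hb : StronglyMeasurable b) (hbs : HasCompactSupport b) (hb1 : ∀ q, b q ≠ 0 → ‖q.1 - z₀‖ ≤ δ₁)
    (hbw : MemLp b 2 (wM r ds dm))
    (hv : StronglyMeasurable (fun q : Cfg r × Cfg ds × Wsp dm => Vb S φ ψ b q.1 q.2.1 q.2.2))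
    (hv2 : MemLp (fun q : Cfg r × Cfg ds × Wsp dm => Vb S φ ψ b q.1 q.2.1 q.2.2) 2 (volume.prod (volume.prod volume))) :
    Tendsto (fun n => gGl φ ψ (R n) b (u n) - gSl S φ ψ z₀ ε (R n) (Vb S φ ψ b) (u n)) atTop (𝓝 0) := by
  rw [tendsto_iff_edist_tendsto_0]
  have h1 := hcv.comp Q.R_lim
  have h2 := ((ENNReal.continuous_rpow_const (y := (1 / 2 : ℝ))).tendsto (0 : ℝ≥0∞)).comp h1
  rw [ENNReal.zero_rpow_of_pos (by norm_num)] at h2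
  have h3 : Tendsto (fun n => (∫⁻ p in Nb (cmb ψ z₀ 0) dm (R n) ε,
      ‖Zt S φ j ρ (Zb φ ψ b (R n)) p - Ts0 ψ (Vb S φ ψ b) (R n) p.1 p.2‖ₑ ^ 2 ∂(volume.prod volume)) ^ (1 / 2 : ℝ) *
      (ENNReal.ofReal (Real.sqrt c)⁻¹ * U)) atTop (𝓝 0) := by
    have := ENNReal.Tendsto.mul_const (b := ENNReal.ofReal (Real.sqrt c)⁻¹ * U) h2
      (Or.inr (ENNReal.mul_ne_top ENNReal.ofReal_ne_top Q.U_top))
    rw [zero_mul] at this
    exact this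
  refine tendsto_of_tendsto_of_tendsto_of_le_of_le' tendsto_const_nhds h3 (Eventually.of_forall fun n => zero_le') ?_
  filter_upwards [glu_large D.δ_pos Q.R_lim hbs] with n hn
  obtain ⟨hR, hs⟩ := hn
  have hR0 : 0 < R n := lt_of_lt_of_le one_pos hR
  have hZm := ((hm fd dh dm r ds φ ψ hsb).2.1 (R n) b hb).1
  have hZ2 : MemLp (Zb φ ψ b (R n)) 2 volume := glu_memLp φ ψ (R n) hR0 (hbw.mono_measure (glu_w_le r ds dm))
  have hsup := D.sup (R n) hR0 b (fun q hq => ⟨hb1 q hq, hs q hq⟩)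
  have e1 : gGl φ ψ (R n) b (u n) = _ := D.pair (R n) hR0 (Zb φ ψ b (R n)) (u n) hZm hZ2 hsup (Q.tst n) (Q.gau n)
  have hZt := (hm fd dh dm r ds φ ψ hsb).1 j ρ (Zb φ ψ b (R n)) D.j_cont hZm
  have w1 := D.wgt (R n) hR b hb
  rw [glu_w_sq hb] at w1
  have w2 : eLpNorm (Zt S φ j ρ (Zb φ ψ b (R n))) 2 ((volume.prod volume).restrict (Nb (cmb ψ z₀ 0) dm (R n) ε)) ≤
      ENNReal.ofReal (Real.sqrt Cw) * eLpNorm b 2 (wM r ds dm) := by
    refine glu_le_of_sq (le_trans w1 (le_of_eq ?_))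
    rw [mul_pow, ← ENNReal.ofReal_pow (Real.sqrt_nonneg _), Real.sq_sqrt D.Cw_pos.le]
  have hZtL : MemLp (Zt S φ j ρ (Zb φ ψ b (R n))) 2 ((volume.prod volume).restrict (Nb (cmb ψ z₀ 0) dm (R n) ε)) :=
    ⟨hZt.aestronglyMeasurable, lt_of_le_of_lt w2 (ENNReal.mul_lt_top ENNReal.ofReal_lt_top hbw.2)⟩
  have hTL := (glu_Ts_memLp S fd hm (ψ := ψ) hsb hR0 hv hv2).1.mono_measure
    (Measure.restrict_le_self (s := Nb (cmb ψ z₀ 0) dm (R n) ε))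
  have hr := glu_res_memLp S φ (Q.tst n).1.continuous (cmb ψ z₀ 0) (R n) ε
  have e2 : gGl φ ψ (R n) b (u n) - gSl S φ ψ z₀ ε (R n) (Vb S φ ψ b) (u n) =
      ∫ p in Nb (cmb ψ z₀ 0) dm (R n) ε, inner ℂ (Zt S φ j ρ (Zb φ ψ b (R n)) p - Ts0 ψ (Vb S φ ψ b) (R n) p.1 p.2)
        (S.res φ (u n) p.1 p.2) ∂(volume.prod volume) := by
    rw [e1]
    unfold gSl
    rw [← integral_sub (glu_int hZtL hr) (glu_int hTL hr)]
    refine integral_congr_ae (ae_of_all _ fun x => ?_)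
    show inner ℂ (Zt S φ j ρ (Zb φ ψ b (R n)) x) (S.res φ (u n) x.1 x.2) -
      inner ℂ (Ts0 ψ (Vb S φ ψ b) (R n) x.1 x.2) (S.res φ (u n) x.1 x.2) = _
    rw [← inner_sub_left]
  rw [e2, edist_zero_right]
  refine le_trans (glu_cs (hZtL.1.sub hTL.1) hr.1) ?_
  refine mul_le_mul' ?_ ((glu_res_le S φ (cmb ψ z₀ 0) (R n) ε ρ c D.c_pos (Q.tst n)
    (D.nrm (R n) hR0 (u n) (Q.tst n) (Q.gau n))).trans (mul_le_mul' le_rfl (Q.bd n)))
  refine glu_le_of_sq (le_of_eq ?_)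
  rw [← ENNReal.rpow_natCast, ← ENNReal.rpow_mul]
  norm_num

lemma glu_bG_cont (h : GOm S φ ψ z₀ δ Om) {a : Cfg r → Cfg ds → F} (hac : Continuous (fun q : Cfg r × Cfg ds => a q.1 q.2))
    (hts : tsupport (fun q : Cfg r × Cfg ds => a q.1 q.2) ⊆ {q | ‖q.1 - z₀‖ < δ}) :
    Continuous (bG S.κ Om a : Cfg r × Cfg ds × Cfg dm → F) := by
  have hp : Continuous fun q : Cfg r × Cfg ds × Cfg dm => (q.1, q.2.1) :=
    continuous_fst.prodMk (continuous_fst.comp continuous_snd)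
  have ho : IsOpen {q : Cfg r × Cfg ds × Cfg dm | ‖q.1 - z₀‖ < δ} :=
    isOpen_lt (continuous_fst.sub continuous_const).norm continuous_const
  have h1 : ContinuousOn (bG S.κ Om a : Cfg r × Cfg ds × Cfg dm → F) {q : Cfg r × Cfg ds × Cfg dm | ‖q.1 - z₀‖ < δ} := by
    have e1 : ContinuousOn (gTh S.κ Om : Cfg r × Cfg ds × Cfg dm → ℝ) {q : Cfg r × Cfg ds × Cfg dm | ‖q.1 - z₀‖ < δ} :=
      (gTh_contOn h).mono fun q (hq : ‖q.1 - z₀‖ < δ) => hq.le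
    have e2 : ContinuousOn (fun q : Cfg r × Cfg ds × Cfg dm => ((gTh S.κ Om q : ℝ) : ℂ))
        {q : Cfg r × Cfg ds × Cfg dm | ‖q.1 - z₀‖ < δ} := Complex.continuous_ofReal.comp_continuousOn e1
    have e3 : ContinuousOn (fun q : Cfg r × Cfg ds × Cfg dm => a q.1 q.2.1)
        {q : Cfg r × Cfg ds × Cfg dm | ‖q.1 - z₀‖ < δ} := (hac.comp hp).continuousOn
    have e4 : (bG S.κ Om a : Cfg r × Cfg ds × Cfg dm → F) = fun q => ((gTh S.κ Om q : ℝ) : ℂ) • a q.1 q.2.1 := by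
      funext q
      exact glu_bG _ _ _ _
    rw [e4]
    exact e2.smul e3
  refine h1.continuous_of_tsupport_subset ho ?_
  have hcl : IsClosed ((fun q : Cfg r × Cfg ds × Cfg dm => (q.1, q.2.1)) ⁻¹' (tsupport (fun q : Cfg r × Cfg ds => a q.1 q.2))) :=
    (isClosed_tsupport _).preimage hp
  have h3 : Function.support (bG S.κ Om a : Cfg r × Cfg ds × Cfg dm → F) ⊆
      (fun q : Cfg r × Cfg ds × Cfg dm => (q.1, q.2.1)) ⁻¹' (tsupport (fun q : Cfg r × Cfg ds => a q.1 q.2)) := by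
    intro q hq
    have h4 : (q.1, q.2.1) ∈ Function.support (fun q : Cfg r × Cfg ds => a q.1 q.2) := by
      rw [Function.mem_support] at hq ⊢
      intro h0
      refine hq ?_
      rw [glu_bG]
      show ((gTh S.κ Om q : ℝ) : ℂ) • a q.1 q.2.1 = 0
      have h0' : a q.1 q.2.1 = 0 := h0
      rw [h0', smul_zero]
    exact subset_tsupport _ h4
  have h2 : tsupport (bG S.κ Om a : Cfg r × Cfg ds × Cfg dm → F) ⊆
      (fun q : Cfg r × Cfg ds × Cfg dm => (q.1, q.2.1)) ⁻¹' (tsupport (fun q : Cfg r × Cfg ds => a q.1 q.2)) :=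
    closure_minimal h3 hcl
  intro q hq
  have h5 : (q.1, q.2.1) ∈ tsupport (fun q : Cfg r × Cfg ds => a q.1 q.2) := h2 hq
  have h6 : (q.1, q.2.1) ∈ {q : Cfg r × Cfg ds | ‖q.1 - z₀‖ < δ} := hts h5
  exact h6

lemma glu_bk_supp {a : Cfg r → Cfg ds → F} (has : HasCompactSupport (fun q : Cfg r × Cfg ds => a q.1 q.2)) (κ : ℝ) (k : ℕ) :
    HasCompactSupport (fun q : Cfg r × Cfg ds × Cfg dm => ((gxi k q.2.2 : ℝ) : ℂ) • bG κ Om a q) := by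
  have hi : Continuous fun p : (Cfg r × Cfg ds) × Cfg dm => (p.1.1, p.1.2, p.2) :=
    (continuous_fst.comp continuous_fst).prodMk ((continuous_snd.comp continuous_fst).prodMk continuous_snd)
  have hK := ((has.isCompact).prod (isCompact_closedBall (0 : Cfg dm) ((k : ℝ) + 1))).image hi
  refine HasCompactSupport.intro hK fun q hq => ?_
  by_contra hne
  refine hq ⟨((q.1, q.2.1), q.2.2), ⟨subset_tsupport _ ?_, ?_⟩, rfl⟩
  · show a q.1 q.2.1 ≠ 0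
    intro h0
    refine hne ?_
    rw [glu_bG, h0, smul_zero, smul_zero]
  · rw [mem_closedBall_zero_iff]
    refine gxi_zero (k := k) ?_
    intro h0
    refine hne ?_
    rw [h0, Complex.ofReal_zero, zero_smul]

lemma glu_C1 [CompleteSpace F] (fd : FiniteDimensional ℂ F) (hg : GauStmt) (hm : MeaStmt S) (hsb : S.IsSub φ)
    (D : GluD S φ ψ z₀ j ε ρ δ₁ c Cw)
    (hcv : ∀ b : Cfg r × Cfg ds × Cfg dm → F, Continuous b → HasCompactSupport b → (∀ q, b q ≠ 0 → ‖q.1 - z₀‖ ≤ ε / 2) →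
      Tendsto (fun R : ℝ => ∫⁻ p in Nb (cmb ψ z₀ 0) dm R ε,
      ‖Zt S φ j ρ (Zb φ ψ b R) p - Ts0 ψ (Vb S φ ψ b) R p.1 p.2‖ₑ ^ 2 ∂(volume.prod volume)) atTop (𝓝 0))
    (Q : GSq S R u U) (h : GOm S φ ψ z₀ δ Om) (hCM : 0 < CM) (hmo : GMo S.κ z₀ δ CM Om) (hδ1 : δ ≤ δ₁) (hδ2 : δ ≤ ε / 2)
    {a : Cfg r → Cfg ds → F} (ha : GSc z₀ δ a) (hac : Continuous (fun q : Cfg r × Cfg ds => a q.1 q.2))
    (has : HasCompactSupport (fun q : Cfg r × Cfg ds => a q.1 q.2))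
    (hts : tsupport (fun q : Cfg r × Cfg ds => a q.1 q.2) ⊆ {q | ‖q.1 - z₀‖ < δ})
    {δ₀ : ℝ} (hδ0 : δ₀ ≤ δ₁) {χ : ℕ → Cfg r × Cfg ds × Cfg dm → ℝ} (X : GCt δ₀ R χ) :
    Tendsto (fun n => gGl φ ψ (R n) (fun q => ((χ n q : ℝ) : ℂ) • bG S.κ Om a q) (u n) -
      gSl S φ ψ z₀ ε (R n) (vG S φ ψ Om a) (u n)) atTop (𝓝 0) := by
  refine glu_apx fun e he => ?_
  set K₁ : ℝ≥0∞ := ENNReal.ofReal (Real.sqrt Cw * (Real.sqrt c)⁻¹) with hK₁
  set K₂ : ℝ≥0∞ := ENNReal.ofReal (Real.sqrt c)⁻¹ with hK₂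
  have hξm : ∀ k : ℕ, Measurable fun q : Cfg r × Cfg ds × Cfg dm => gxi k q.2.2 := fun k =>
    ((gxi_cont k).measurable).comp (measurable_snd.comp measurable_snd)
  have t1 := glu_e1 h hCM hmo ha (χ := fun k q => gxi k q.2.2) hξm (fun k q => gxi_nn k _) (fun k q => gxi_le k _)
    (fun q => gxi_lim _)
  have t3 := glu_e3 hg fd hm hsb h ha
  have t2 := glu_e1 h hCM hmo ha X.meas X.nn X.le X.lim
  have hE : Tendsto (fun k : ℕ => K₁ * eLpNorm (fun q : Cfg r × Cfg ds × Cfg dm => ((1 - gxi k q.2.2 : ℝ) : ℂ) • bG S.κ Om a q) 2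
      (wM r ds dm) * U + eLpNorm (fun q : Cfg r × Cfg ds × Wsp dm => vG S φ ψ Om a q.1 q.2.1 q.2.2 -
      Vb S φ ψ (fun q => ((gxi k q.2.2 : ℝ) : ℂ) • bG S.κ Om a q) q.1 q.2.1 q.2.2) 2 (volume.prod (volume.prod volume)) *
      (K₂ * U)) atTop (𝓝 0) := by
    have a1 := ENNReal.Tendsto.mul_const (b := U) (ENNReal.Tendsto.const_mul (a := K₁) t1 (Or.inr ENNReal.ofReal_ne_top))
      (Or.inr Q.U_top)
    have a2 := ENNReal.Tendsto.mul_const (b := K₂ * U) t3 (Or.inr (ENNReal.mul_ne_top ENNReal.ofReal_ne_top Q.U_top))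
    have a3 := a1.add a2
    simpa using a3
  have hF : Tendsto (fun n : ℕ => K₁ * eLpNorm (fun q : Cfg r × Cfg ds × Cfg dm => ((1 - χ n q : ℝ) : ℂ) • bG S.κ Om a q) 2
      (wM r ds dm) * U) atTop (𝓝 0) := by
    have a1 := ENNReal.Tendsto.mul_const (b := U) (ENNReal.Tendsto.const_mul (a := K₁) t2 (Or.inr ENNReal.ofReal_ne_top))
      (Or.inr Q.U_top)
    simpa using a1
  obtain ⟨k, hk⟩ := ((ENNReal.tendsto_nhds_zero.1 hE) (e / 2) (ENNReal.half_pos he.ne')).exists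
  set b : Cfg r × Cfg ds × Cfg dm → F := fun q => ((gxi k q.2.2 : ℝ) : ℂ) • bG S.κ Om a q with hb
  have hbne : ∀ q, b q ≠ 0 → ‖q.1 - z₀‖ ≤ δ := by
    intro q hq
    refine ha.sup q.1 q.2.1 fun h0 => hq ?_
    rw [hb]
    show ((gxi k q.2.2 : ℝ) : ℂ) • bG S.κ Om a q = 0
    rw [glu_bG, h0, smul_zero, smul_zero]
  have hbc : Continuous b :=
    (Complex.continuous_ofReal.comp ((gxi_cont k).comp (continuous_snd.comp continuous_snd))).smul (glu_bG_cont h hac hts)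
  have hbs : HasCompactSupport b := glu_bk_supp has S.κ k
  have hbm : StronglyMeasurable b := glu_cut_meas h ha (hξm k)
  have hbw : MemLp b 2 (wM r ds dm) := (glu_cut_memW h hCM hmo ha (hξm k) (fun q => gxi_nn k _) (fun q => gxi_le k _)).1
  obtain ⟨hv, hv2⟩ := glu_Vk hg fd hm hsb h ha k
  refine ⟨_, glu_C0 fd hm hsb D Q (hcv b hbc hbs fun q hq => (hbne q hq).trans hδ2) hbm hbs
    (fun q hq => (hbne q hq).trans hδ1) hbw hv hv2, ?_⟩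
  filter_upwards [glu_large D.δ_pos Q.R_lim hbs, (ENNReal.tendsto_nhds_zero.1 hF) (e / 2) (ENNReal.half_pos he.ne')]
    with n hn hFn
  obtain ⟨hR, hs⟩ := hn
  have hR0 : 0 < R n := lt_of_lt_of_le one_pos hR
  have hcm := glu_cut_memW h hCM hmo ha (X.meas n) (X.nn n) (X.le n)
  have e0 : (gGl φ ψ (R n) (fun q => ((χ n q : ℝ) : ℂ) • bG S.κ Om a q) (u n) -
      gSl S φ ψ z₀ ε (R n) (vG S φ ψ Om a) (u n)) - (gGl φ ψ (R n) b (u n) - gSl S φ ψ z₀ ε (R n) (Vb S φ ψ b) (u n)) =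
      gGl φ ψ (R n) (fun q => ((χ n q : ℝ) : ℂ) • bG S.κ Om a q - b q) (u n) -
      gSl S φ ψ z₀ ε (R n) (fun η s w => vG S φ ψ Om a η s w - Vb S φ ψ b η s w) (u n) := by
    rw [← gGl_sub φ ψ hR0 hcm.1 hbw (Q.tst n), ← gSl_sub S fd hm hsb z₀ ε hR0 (glu_vG_meas hg fd hm hsb h ha.meas ha.sup)
      (glu_vG_mem hg fd hm hsb h ha) hv hv2 (Q.tst n)]
    ring
  rw [e0]
  refine (enorm_sub_le).trans ?_
  have hsup : ∀ q, ((χ n q : ℝ) : ℂ) • bG S.κ Om a q - b q ≠ 0 →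
      ‖q.1 - z₀‖ ≤ δ₁ ∧ ‖q.2.1‖ ≤ δ₁ * R n ∧ ‖q.2.2‖ ≤ δ₁ * (R n * Real.sqrt (R n)) := by
    intro q hq
    have ha0 : a q.1 q.2.1 ≠ 0 := by
      intro h0
      refine hq ?_
      rw [hb]
      show ((χ n q : ℝ) : ℂ) • bG S.κ Om a q - ((gxi k q.2.2 : ℝ) : ℂ) • bG S.κ Om a q = 0
      rw [glu_bG, h0, smul_zero, smul_zero, smul_zero, sub_zero]
    refine ⟨(ha.sup _ _ ha0).trans hδ1, ?_⟩
    by_cases hb0 : b q = 0
    · have hχ0 : χ n q ≠ 0 := by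
        intro h0
        refine hq ?_
        rw [h0, hb0, Complex.ofReal_zero, zero_smul, sub_zero]
      obtain ⟨q1, q2⟩ := X.sup n q hχ0
      exact ⟨q1.trans (mul_le_mul_of_nonneg_right hδ0 hR0.le),
        q2.trans (mul_le_mul_of_nonneg_right hδ0 (mul_nonneg hR0.le (Real.sqrt_nonneg _)))⟩
    · exact hs q hb0
  have b1 := glu_bd S fd hm hsb D (R n) hR (fun q => ((χ n q : ℝ) : ℂ) • bG S.κ Om a q - b q)
    ((glu_cut_meas h ha (X.meas n)).sub hbm) hsup (hcm.1.sub hbw) (u n) (Q.tst n) (Q.gau n)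
  have b2 := gSl_bd S fd hm hsb D hR0 (v := fun η s w => vG S φ ψ Om a η s w - Vb S φ ψ b η s w)
    ((glu_vG_meas hg fd hm hsb h ha.meas ha.sup).sub hv) ((glu_vG_mem hg fd hm hsb h ha).sub hv2) (Q.tst n) (Q.gau n)
  have b3 : eLpNorm (fun q : Cfg r × Cfg ds × Cfg dm => ((χ n q : ℝ) : ℂ) • bG S.κ Om a q - b q) 2 (wM r ds dm) ≤
      eLpNorm (fun q : Cfg r × Cfg ds × Cfg dm => ((1 - χ n q : ℝ) : ℂ) • bG S.κ Om a q) 2 (wM r ds dm) +
      eLpNorm (fun q : Cfg r × Cfg ds × Cfg dm => ((1 - gxi k q.2.2 : ℝ) : ℂ) • bG S.κ Om a q) 2 (wM r ds dm) := by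
    have e1 : (fun q : Cfg r × Cfg ds × Cfg dm => ((χ n q : ℝ) : ℂ) • bG S.κ Om a q - b q) =
        (fun q : Cfg r × Cfg ds × Cfg dm => ((1 - gxi k q.2.2 : ℝ) : ℂ) • bG S.κ Om a q) -
        (fun q : Cfg r × Cfg ds × Cfg dm => ((1 - χ n q : ℝ) : ℂ) • bG S.κ Om a q) := by
      funext q
      show ((χ n q : ℝ) : ℂ) • bG S.κ Om a q - ((gxi k q.2.2 : ℝ) : ℂ) • bG S.κ Om a q =
        ((1 - gxi k q.2.2 : ℝ) : ℂ) • bG S.κ Om a q - ((1 - χ n q : ℝ) : ℂ) • bG S.κ Om a q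
      rw [← sub_smul, ← sub_smul]
      congr 1
      push_cast
      ring
    rw [e1, add_comm]
    exact eLpNorm_sub_le (glu_cut_meas h ha (measurable_const.sub (hξm k))).aestronglyMeasurable
      (glu_cut_meas h ha (measurable_const.sub (X.meas n))).aestronglyMeasurable one_le_two
  have hUn := Q.bd n
  have b4 : ‖gGl φ ψ (R n) (fun q => ((χ n q : ℝ) : ℂ) • bG S.κ Om a q - b q) (u n)‖ₑ ≤
      K₁ * eLpNorm (fun q : Cfg r × Cfg ds × Cfg dm => ((1 - χ n q : ℝ) : ℂ) • bG S.κ Om a q) 2 (wM r ds dm) * U +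
      K₁ * eLpNorm (fun q : Cfg r × Cfg ds × Cfg dm => ((1 - gxi k q.2.2 : ℝ) : ℂ) • bG S.κ Om a q) 2 (wM r ds dm) * U := by
    refine le_trans b1 ?_
    rw [← add_mul, ← mul_add]
    gcongr
  have b5 : ‖gSl S φ ψ z₀ ε (R n) (fun η s w => vG S φ ψ Om a η s w - Vb S φ ψ b η s w) (u n)‖ₑ ≤
      eLpNorm (fun q : Cfg r × Cfg ds × Wsp dm => vG S φ ψ Om a q.1 q.2.1 q.2.2 -
      Vb S φ ψ b q.1 q.2.1 q.2.2) 2 (volume.prod (volume.prod volume)) * (K₂ * U) := by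
    refine le_trans b2 ?_
    gcongr
  calc _ ≤ _ := add_le_add b4 b5
    _ ≤ e / 2 + e / 2 := by
      rw [add_assoc]
      exact add_le_add hFn hk
    _ = e := ENNReal.add_halves e

end one

end Vale.Agent.P353.Z.AN
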