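import Vale.Agent.P353.AN.GL.SfuA

/-! # P353, all `N`, block GL: GL12, measurability -/

open MeasureTheory Filter Topology Matrix
open scoped ContDiff

namespace Vale.Agent.P353.Z.AN.SfuA

variable {d dh dm ds dz : ℕ} {F : Type*} [NormedAddCommGroup F] [InnerProductSpace ℂ F]

section mat

variable {X : Type*} [MeasurableSpace X] {n : ℕ}

lemma meas_det {m : Type*} [Fintype m] [DecidableEq m] (A : X → Matrix m m ℝ) (hA : ∀ i j, Measurable fun x => A x i j) :
    Measurable fun x => (A x).det := by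
  simp only [Matrix.det_apply]
  refine Finset.measurable_sum _ fun σ _ => ?_
  refine Measurable.const_smul ?_ _
  exact Finset.measurable_prod _ fun i _ => hA _ _

lemma meas_inv (A : X → Matrix (Fin n) (Fin n) ℝ) (hA : ∀ i j, Measurable fun x => A x i j) (i j : Fin n) :
    Measurable fun x => (A x)⁻¹ i j := by
  have h : (fun x => (A x)⁻¹ i j) = fun x => ((A x).det)⁻¹ * ((A x).updateRow j (Pi.single i 1)).det := by
    funext x
    rw [Matrix.inv_def, Matrix.smul_apply, Matrix.adjugate_apply, Ring.inverse_eq_inv', smul_eq_mul]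
  rw [h]
  refine (meas_det A hA).inv.mul (meas_det _ fun k l => ?_)
  by_cases hk : k = j
  · subst hk
    simp only [Matrix.updateRow_self]
    exact measurable_const
  · simp only [Matrix.updateRow_ne hk]
    exact hA k l

lemma meas_mul (A B : X → Matrix (Fin n) (Fin n) ℝ) (hA : ∀ i j, Measurable fun x => A x i j)
    (hB : ∀ i j, Measurable fun x => B x i j) (i j : Fin n) : Measurable fun x => (A x * B x) i j := by
  simp only [Matrix.mul_apply]
  exact Finset.measurable_sum _ fun k _ => (hA i k).mul (hB k j)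

lemma meas_mulVec (A : X → Matrix (Fin n) (Fin n) ℝ) (v : X → Fin n → ℝ) (hA : ∀ i j, Measurable fun x => A x i j)
    (hv : ∀ i, Measurable fun x => v x i) (i : Fin n) : Measurable fun x => (A x *ᵥ v x) i := by
  simp only [Matrix.mulVec, dotProduct]
  exact Finset.measurable_sum _ fun k _ => (hA i k).mul (hv k)

/-- measurability of the quadratic form -/
lemma meas_qf (D : X → Fin 9 → Matrix (Fin dm) (Fin dm) ℝ) (Om : X → Matrix (Fin dm) (Fin dm) ℝ)
    (w : X → Wsp dm) (hD : ∀ i A B, Measurable fun x => D x i A B) (hO : ∀ A B, Measurable fun x => Om x A B)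
    (hw : ∀ p, Measurable fun x => w x p) : Measurable fun x => qf (D x) (Om x) (w x) := by
  have hwt : ∀ i B, Measurable fun x => wt (w x) i B := by
    intro i B
    refine Fin.lastCases ?_ (fun j => ?_) i
    · simp only [wt, Fin.lastCases_last]
      exact measurable_const
    · simp only [wt, Fin.lastCases_castSucc]
      exact hw (j, B)
  have htI : ∀ i A B, Measurable fun x => tI (D x) i A B := fun i =>
    meas_mul _ _ (meas_inv _ (hD 8)) (hD i)
  have ht2 : ∀ A B, Measurable fun x => t2 (D x) A B := by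
    intro A B
    simp only [t2, Matrix.sum_apply]
    exact Finset.measurable_sum _ fun i _ => meas_mul _ _ (htI i) (htI i) A B
  have hsV : ∀ A, Measurable fun x => sV (D x) (w x) A := by
    intro A
    unfold sV
    refine meas_mulVec _ (fun x => ∑ i, tI (D x) i *ᵥ wt (w x) i) (meas_inv _ ht2) (fun B => ?_) A
    simp only [Finset.sum_apply]
    exact Finset.measurable_sum _ fun i _ => meas_mulVec _ _ (htI i) (hwt i) B
  have hVV : ∀ i A, Measurable fun x => VV (D x) (w x) i A := by
    intro i A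
    unfold VV
    simp only [Pi.sub_apply]
    exact (hwt i A).sub (meas_mulVec _ _ (htI i) hsV A)
  unfold qf
  refine Finset.measurable_sum _ fun i _ => ?_
  simp only [dotProduct]
  exact Finset.measurable_sum _ fun A _ => (hVV i A).mul (meas_mulVec _ _ hO (hVV i) A)

/-- measurability of the normalised vacuum -/
lemma meas_gh (D : X → Fin 9 → Matrix (Fin dm) (Fin dm) ℝ) (Om : X → Matrix (Fin dm) (Fin dm) ℝ)
    (hD : ∀ i A B, Measurable fun x => D x i A B) (hO : ∀ A B, Measurable fun x => Om x A B) :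
    Measurable fun q : X × Wsp dm => gh (D q.1) (Om q.1) q.2 := by
  have hg : Measurable fun q : X × Wsp dm => gR (D q.1) (Om q.1) 1 q.2 := by
    unfold gR
    refine Real.measurable_exp.comp (Measurable.const_mul ?_ _)
    refine meas_qf (X := X × Wsp dm) (fun q => D q.1) (fun q => Om q.1) (fun q => q.2)
      (fun i A B => (hD i A B).comp measurable_fst) (fun A B => (hO A B).comp measurable_fst) (fun p => ?_)
    have : Measurable fun v : Wsp dm => v p := by fun_prop
    exact this.comp measurable_snd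
  unfold gh
  refine hg.div (Real.continuous_sqrt.measurable.comp ?_)
  have h1 : StronglyMeasurable fun x : X => ∫ w', gR (D x) (Om x) 1 w' ^ 2 := by
    have h2 : StronglyMeasurable fun q : X × Wsp dm => gR (D q.1) (Om q.1) 1 q.2 ^ 2 :=
      (hg.pow_const 2).stronglyMeasurable
    exact h2.integral_prod_right
  exact h1.measurable.comp measurable_fst

end mat

/-- modified `Ω`, zero outside the good ball -/
noncomputable def OmC (S : Setup d F) (φ : Spl dh dm d) (ψ : Spl ds dz dh) (z₀ : Cfg dz) (δ : ℝ) (η : Cfg dz) :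
    Matrix (Fin dm) (Fin dm) ℝ :=
  (Metric.closedBall z₀ δ).indicator (fun η => AD.omc S.κ (AD.Dz S φ ψ η)) η

lemma meas_OmC (S : Setup d F) (φ : Spl dh dm d) (ψ : Spl ds dz dh) (z₀ : Cfg dz) (δ : ℝ)
    (h : ContinuousOn (fun η => AD.omc S.κ (AD.Dz S φ ψ η)) {η | ‖η - z₀‖ ≤ δ}) (A B : Fin dm) :
    Measurable fun η => OmC S φ ψ z₀ δ η A B := by
  have hset : {η : Cfg dz | ‖η - z₀‖ ≤ δ} = Metric.closedBall z₀ δ := by
    ext η
    rw [Metric.mem_closedBall, dist_eq_norm]
    rfl
  rw [hset] at h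
  have h1 : ContinuousOn (fun η => AD.omc S.κ (AD.Dz S φ ψ η) A B) (Metric.closedBall z₀ δ) := by
    have := continuousOn_pi.1 (continuousOn_pi.1 h A) B
    exact this
  have h2 : (fun η => OmC S φ ψ z₀ δ η A B) =
      (Metric.closedBall z₀ δ).indicator (fun η => AD.omc S.κ (AD.Dz S φ ψ η) A B) := by
    funext η
    unfold OmC
    by_cases hη : η ∈ Metric.closedBall z₀ δ
    · rw [Set.indicator_of_mem hη, Set.indicator_of_mem hη]
    · rw [Set.indicator_of_notMem hη, Set.indicator_of_notMem hη]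
      rfl
  rw [h2]
  classical
  rw [← Set.piecewise_eq_indicator]
  exact h1.measurable_piecewise continuousOn_const Metric.isClosed_closedBall.measurableSet

lemma meas_Dz (S : Setup d F) (φ : Spl dh dm d) (ψ : Spl ds dz dh) (i : Fin 9) (A B : Fin dm) :
    Measurable fun η : Cfg dz => AD.Dz S φ ψ η i A B := by
  simp only [AD.Dz, Setup.Dy, Setup.Dm, Matrix.of_apply]
  refine Finset.measurable_sum _ fun C _ => Measurable.const_mul ?_ _
  obtain ⟨a, rfl⟩ := ψ.surjective C
  rcases a with a | a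
  · have : (fun η : Cfg dz => AD.cmb ψ (0 : Cfg ds) η (i, ψ (Sum.inl a))) = fun _ => 0 := by
      funext η; simp [AD.cmb]
    rw [this]; exact measurable_const
  · have : (fun η : Cfg dz => AD.cmb ψ (0 : Cfg ds) η (i, ψ (Sum.inr a))) = fun η => η (i, a) := by
      funext η; simp [AD.cmb]
    rw [this]; fun_prop

/-- strong measurability of the section `a(η,s)` -/
lemma sm_aP [FiniteDimensional ℂ F] (S : Setup d F) (φ : Spl dh dm d) (ψ : Spl ds dz dh) (z₀ : Cfg dz) (δ : ℝ)
    (h : ∀ v : F, ContinuousOn (fun η => (S.F0 φ (AD.Dz S φ ψ η) (AD.omc S.κ (AD.Dz S φ ψ η))).starProjection v)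
      {η | ‖η - z₀‖ ≤ δ}) (χ : Cfg dz → ℝ) (hc : Continuous χ) (hχ : ∀ η, χ η ≠ 0 → ‖η - z₀‖ ≤ δ)
    (o : Cfg ds → F) (ho : StronglyMeasurable o) :
    StronglyMeasurable fun q : Cfg dz × Cfg ds => aP S φ ψ χ o q.1 q.2 := by
  have hset : {η : Cfg dz | ‖η - z₀‖ ≤ δ} = Metric.closedBall z₀ δ := by
    ext η
    rw [Metric.mem_closedBall, dist_eq_norm]
    rfl
  rw [hset] at h
  let b := stdOrthonormalBasis ℂ F
  have h1 : ∀ v : F, StronglyMeasurable fun η : Cfg dz => aP S φ ψ χ (fun _ : Cfg ds => v) η 0 := by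
    intro v
    have e : (fun η : Cfg dz => aP S φ ψ χ (fun _ : Cfg ds => v) η 0) = fun η => ((χ η : ℝ) : ℂ) •
        (Metric.closedBall z₀ δ).indicator (fun η =>
          (S.F0 φ (AD.Dz S φ ψ η) (AD.omc S.κ (AD.Dz S φ ψ η))).starProjection v) η := by
      funext η
      unfold aP
      by_cases hη : η ∈ Metric.closedBall z₀ δ
      · rw [Set.indicator_of_mem hη]
      · have h0 : χ η = 0 := by
          by_contra h0
          exact hη (by rw [Metric.mem_closedBall, dist_eq_norm]; exact hχ η h0)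
        rw [h0]; simp
    rw [e]
    refine StronglyMeasurable.smul ((Complex.continuous_ofReal.comp hc).stronglyMeasurable) ?_
    classical
    rw [← Set.piecewise_eq_indicator]
    borelize F
    have hm : Measurable ((Metric.closedBall z₀ δ).piecewise (fun η =>
          (S.F0 φ (AD.Dz S φ ψ η) (AD.omc S.κ (AD.Dz S φ ψ η))).starProjection v) 0) :=
      (h v).measurable_piecewise continuousOn_const Metric.isClosed_closedBall.measurableSet
    have : SecondCountableTopology F := by
      have := FiniteDimensional.proper ℂ F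
      infer_instance
    exact hm.stronglyMeasurable
  have e : (fun q : Cfg dz × Cfg ds => aP S φ ψ χ o q.1 q.2) = fun q => ∑ i, inner ℂ (b i) (o q.2) •
      aP S φ ψ χ (fun _ : Cfg ds => b i) q.1 0 := by
    funext q
    unfold aP
    conv_lhs => rw [← b.sum_repr (o q.2)]
    rw [map_sum, Finset.smul_sum]
    refine Finset.sum_congr rfl fun i _ => ?_
    rw [map_smul, smul_comm, b.repr_apply_apply]
  rw [e]
  refine Finset.stronglyMeasurable_fun_sum _ fun i _ => ?_
  refine StronglyMeasurable.smul ?_ ((h1 (b i)).comp_measurable measurable_fst)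
  exact (StronglyMeasurable.inner stronglyMeasurable_const (ho.comp_measurable measurable_snd))

lemma aP_norm_le [FiniteDimensional ℂ F] (S : Setup d F) (φ : Spl dh dm d) (ψ : Spl ds dz dh) (χ : Cfg dz → ℝ)
    (o : Cfg ds → F) (η : Cfg dz) (s : Cfg ds) : ‖aP S φ ψ χ o η s‖ ≤ |χ η| * ‖o s‖ := by
  unfold aP
  rw [norm_smul, Complex.norm_real, Real.norm_eq_abs]
  refine mul_le_mul_of_nonneg_left ?_ (abs_nonneg _)
  exact Submodule.norm_starProjection_apply_le _ _

/-- strong measurability of the slice section -/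
lemma sm_vv [FiniteDimensional ℂ F] (S : Setup d F) (φ : Spl dh dm d) (ψ : Spl ds dz dh) (z₀ : Cfg dz) (δ : ℝ)
    (hO : ContinuousOn (fun η => AD.omc S.κ (AD.Dz S φ ψ η)) {η | ‖η - z₀‖ ≤ δ})
    (χ : Cfg dz → ℝ) (hχ : ∀ η, χ η ≠ 0 → ‖η - z₀‖ ≤ δ) (o : Cfg ds → F)
    (ha : StronglyMeasurable fun q : Cfg dz × Cfg ds => aP S φ ψ χ o q.1 q.2) :
    StronglyMeasurable fun q : Cfg dz × Cfg ds × Wsp dm => vv S φ ψ χ o q.1 q.2.1 q.2.2 := by
  have e : (fun q : Cfg dz × Cfg ds × Wsp dm => vv S φ ψ χ o q.1 q.2.1 q.2.2) = fun q =>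
      ((gh (AD.Dz S φ ψ q.1) (OmC S φ ψ z₀ δ q.1) q.2.2 : ℝ) : ℂ) • aP S φ ψ χ o q.1 q.2.1 := by
    funext q
    rw [vv_eq]
    by_cases h0 : χ q.1 = 0
    · have : aP S φ ψ χ o q.1 q.2.1 = 0 := by unfold aP; rw [h0]; simp
      rw [this, smul_zero, smul_zero]
    · unfold OmC
      rw [Set.indicator_of_mem]
      rw [Metric.mem_closedBall, dist_eq_norm]
      exact hχ _ h0
  rw [e]
  refine StronglyMeasurable.smul ?_ ?_
  · have h1 := meas_gh (X := Cfg dz) (fun η => AD.Dz S φ ψ η) (OmC S φ ψ z₀ δ) (fun i A B => meas_Dz S φ ψ i A B)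
      (meas_OmC S φ ψ z₀ δ hO)
    have h2 : Measurable fun q : Cfg dz × Cfg ds × Wsp dm => (q.1, q.2.2) := by fun_prop
    exact (Complex.measurable_ofReal.comp (h1.comp h2)).stronglyMeasurable
  · have h2 : Measurable fun q : Cfg dz × Cfg ds × Wsp dm => (q.1, q.2.1) := by fun_prop
    exact ha.comp_measurable h2

end Vale.Agent.P353.Z.AN.SfuA
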