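import Vale.Agent.P353.AN.GL.SfuE

/-! # P353, all `N`, block GL: GL12, bounded sequences and a strongly measurable `o` -/

open MeasureTheory Filter Topology Matrix
open scoped ContDiff ENNReal

namespace Vale.Agent.P353.Z.AN.SfuA

variable {d dh dm ds dz : ℕ} {F : Type*} [NormedAddCommGroup F] [InnerProductSpace ℂ F]

/-- difference of the two regions -/
lemma region [FiniteDimensional ℂ F] {S : Setup d F} (hM : MeaStmt S) (hCmb : AD.CmbStmt) {φ : Spl dh dm d}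
    (hsub : S.IsSub φ) (ψ : Spl ds dz dh) {z₀ : Cfg dz} {ε εG ρ cN C : ℝ} (hε : 0 < ε) (hεG : 2 * ε ≤ εG)
    (hcN : 0 < cN) (χ : Cfg dz → ℝ) (hχ : ∀ η, χ η ≠ 0 → ‖η - z₀‖ < ε) (o : Cfg ds → F)
    (hv : StronglyMeasurable fun q : Cfg dz × Cfg ds × Wsp dm => vv S φ ψ χ o q.1 q.2.1 q.2.2)
    (hfin : ∫⁻ q : Cfg dz × Cfg ds × Wsp dm, ‖vv S φ ψ χ o q.1 q.2.1 q.2.2‖ₑ ^ 2
      ∂(volume.prod (volume.prod volume)) ≠ ⊤)
    (R : ℕ → ℝ) (hR : ∀ n, 0 < R n) (hlim : Tendsto R atTop atTop) (u : ℕ → Cfg d → F) (hu : ∀ n, Setup.Tst (u n))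
    (hC : ∀ n, ∫ x, ‖u n x‖ ^ 2 ≤ C)
    (hN : ∀ n, ∫ x in Tube S φ (cmb (swp ψ) z₀ 0) (R n) εG ρ, ‖u n x‖ ^ 2 =
      cN * ∫ p in Nb (cmb (swp ψ) z₀ 0) dm (R n) εG, ‖S.res φ (u n) p.1 p.2‖ ^ 2 ∂(volume.prod volume)) :
    Tendsto (fun n => (∫ p in Eb ψ dm ε (R n), (inner ℂ (Ts0 (swp ψ) (vv S φ ψ χ o) (R n) p.1 p.2)
        (S.res φ (u n) p.1 p.2) : ℂ) ∂(volume.prod volume)) -
      ∫ p in Nb (cmb (swp ψ) z₀ 0) dm (R n) εG, inner ℂ (Ts0 (swp ψ) (vv S φ ψ χ o) (R n) p.1 p.2)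
        (S.res φ (u n) p.1 p.2) ∂(volume.prod volume)) atTop (𝓝 0) := by
  have hmem : ∀ n, MemLp (fun p : Cfg dh × Wsp dm => Ts0 (swp ψ) (vv S φ ψ χ o) (R n) p.1 p.2) 2
      (volume.prod volume) := by
    intro n
    obtain ⟨-, -, h⟩ := hM inferInstance dh dm dz ds φ (swp ψ) hsub
    obtain ⟨h1, h2⟩ := h (R n) (vv S φ ψ χ o) (hR n) hv
    refine (memLp_two h1.aestronglyMeasurable).2 ?_
    rw [h2]
    exact hfin.lt_top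
  have ht := tail_tendsto hM hsub ψ hε R hR hlim (vv S φ ψ χ o) hv hfin
  have hK : ∀ n, ∫⁻ p in Nb (cmb (swp ψ) z₀ 0) dm (R n) εG, ‖S.res φ (u n) p.1 p.2‖ₑ ^ 2 ∂(volume.prod volume) ≤
      ENNReal.ofReal (C / cN) := fun n => lint_res (hu n) hcN (hN n) (hC n)
  have hb : ∀ n, ‖(∫ p in Eb ψ dm ε (R n), (inner ℂ (Ts0 (swp ψ) (vv S φ ψ χ o) (R n) p.1 p.2)
        (S.res φ (u n) p.1 p.2) : ℂ) ∂(volume.prod volume)) -
      ∫ p in Nb (cmb (swp ψ) z₀ 0) dm (R n) εG, inner ℂ (Ts0 (swp ψ) (vv S φ ψ χ o) (R n) p.1 p.2)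
        (S.res φ (u n) p.1 p.2) ∂(volume.prod volume)‖ₑ ≤
      (∫⁻ p in (Eb ψ dm ε (R n))ᶜ, ‖Ts0 (swp ψ) (vv S φ ψ χ o) (R n) p.1 p.2‖ₑ ^ 2
        ∂(volume.prod volume)) ^ (1 / 2 : ℝ) * ENNReal.ofReal (C / cN) ^ (1 / 2 : ℝ) := by
    intro n
    refine (diff_le (hmem n) (memLp_res S φ (hu n)) (meas_Eb ψ ε (R n)) (meas_Nb _ (R n) εG)
      (fun p hp h0 => supp_Nb S φ ψ hCmb (hR n) hε hεG χ hχ o p hp h0)).trans ?_
    exact mul_le_mul_right (ENNReal.rpow_le_rpow (hK n) (by norm_num)) _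
  have hl : Tendsto (fun n => (∫⁻ p in (Eb ψ dm ε (R n))ᶜ, ‖Ts0 (swp ψ) (vv S φ ψ χ o) (R n) p.1 p.2‖ₑ ^ 2
        ∂(volume.prod volume)) ^ (1 / 2 : ℝ) * ENNReal.ofReal (C / cN) ^ (1 / 2 : ℝ)) atTop (𝓝 0) := by
    have h1 : Tendsto (fun n => (∫⁻ p in (Eb ψ dm ε (R n))ᶜ, ‖Ts0 (swp ψ) (vv S φ ψ χ o) (R n) p.1 p.2‖ₑ ^ 2
        ∂(volume.prod volume)) ^ (1 / 2 : ℝ)) atTop (𝓝 ((0 : ℝ≥0∞) ^ (1 / 2 : ℝ))) :=
      (ENNReal.continuous_rpow_const.tendsto _).comp ht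
    rw [ENNReal.zero_rpow_of_pos (by norm_num)] at h1
    have h2 := ENNReal.Tendsto.mul_const (b := ENNReal.ofReal (C / cN) ^ (1 / 2 : ℝ)) h1
      (Or.inr (ENNReal.rpow_ne_top_of_nonneg (by norm_num) ENNReal.ofReal_ne_top))
    rwa [zero_mul] at h2
  rw [tendsto_zero_iff_norm_tendsto_zero]
  have h3 := tendsto_of_tendsto_of_tendsto_of_le_of_le tendsto_const_nhds hl (fun n => zero_le) hb
  have h4 := (ENNReal.tendsto_toReal ENNReal.zero_ne_top).comp h3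
  simpa only [Function.comp_def, toReal_enorm, ENNReal.toReal_zero] using h4

/-- **GL12** for bounded sequences and strongly measurable `o` -/
theorem sfu_bdd [FiniteDimensional ℂ F] (S : Setup d F) (hGlu : GluStmt S) (hPc : PcStmt S) (hN : NormStmt S)
    (hM : MeaStmt S) (hGau : GauStmt) (hCmb : AD.CmbStmt) (φ : Spl dh dm d) (ψ : Spl ds dz dh) (z₀ : Cfg dz)
    (h2 : AD.Std2 S φ ψ z₀) : ∃ ε₀ : ℝ, 0 < ε₀ ∧ ∀ ε : ℝ, 0 < ε → ε ≤ ε₀ → ∀ c : ℝ → ℝ, Ctf c →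
    ∀ (χ : Cfg dz → ℝ) (o : Cfg ds → F), ContDiff ℝ ∞ χ → tsupport χ ⊆ Metric.ball z₀ ε → StronglyMeasurable o →
    MemLp o 2 (volume : Measure (Cfg ds)) → ∀ (R : ℕ → ℝ) (u : ℕ → Cfg d → F) (C : ℝ), Tendsto R atTop atTop →
    (∀ n, 0 < R n) → (∀ n, AD.GInv S (u n)) → (∀ n, ∫ x, ‖u n x‖ ^ 2 ≤ C) →
    Tendsto (fun n => AD.sfun S φ ψ ε (R n) χ o (u n) - ∫ x, inner ℂ (Zgl S φ ψ c ε (R n) χ o x) (u n x))
      atTop (𝓝 0) := by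
  have hstd : Std S φ (cmb (swp ψ) z₀ 0) := by
    rw [cmb_swp]
    exact h2.std
  have hIsZ : IsZ S φ (swp ψ) := fun a B C => h2.cen a B C
  obtain ⟨εG0, hεG0, hG⟩ := hGlu inferInstance dh dm dz ds φ (swp ψ) z₀ hIsZ hstd
  obtain ⟨εN, ρN, hεN, hρN, hNn⟩ := hN dh dm φ (cmb (swp ψ) z₀ 0) hstd
  obtain ⟨δP, hδP, hP1, hP2, hP3, hP4⟩ := hPc inferInstance dh dm ds dz φ ψ z₀ h2
  obtain ⟨εG, hεGdef⟩ : ∃ εG, εG = min εG0 εN := ⟨_, rfl⟩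
  have hεG : 0 < εG := by rw [hεGdef]; exact lt_min hεG0 hεN
  obtain ⟨cN, δN, hcN, -, hNR⟩ := hNn εG ρN hεG (by rw [hεGdef]; exact min_le_right _ _) hρN le_rfl
  obtain ⟨δ₀, hδ₀, hG1⟩ := hG εG hεG (by rw [hεGdef]; exact min_le_left _ _)
  obtain ⟨δ, hδdef⟩ : ∃ δ, δ = min δ₀ (δP / 2) := ⟨_, rfl⟩
  have hδ : 0 < δ := by rw [hδdef]; exact lt_min hδ₀ (by linarith)
  have hδ1 : δ ≤ δ₀ := by rw [hδdef]; exact min_le_left _ _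
  have hδ2 : 2 * δ ≤ δP := by
    have : δ ≤ δP / 2 := by rw [hδdef]; exact min_le_right _ _
    linarith
  refine ⟨min δ (εG / 2), lt_min hδ (by linarith), ?_⟩
  intro ε hε hεle c hc χ o hχ hsupp ho1 ho R u C hlim hR hu hC
  have hε1 : ε ≤ δ := hεle.trans (min_le_left _ _)
  have hε2 : 2 * ε ≤ εG := by
    have := hεle.trans (min_le_right _ _)
    linarith
  have hχε : ∀ η, χ η ≠ 0 → ‖η - z₀‖ < ε := by
    intro η hη
    have := hsupp (subset_tsupport _ hη)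
    rwa [Metric.mem_ball, dist_eq_norm] at this
  have hχδ : ∀ η, χ η ≠ 0 → ‖η - z₀‖ ≤ δ := fun η hη => (hχε η hη).le.trans hε1
  have hχP : ∀ η, χ η ≠ 0 → ‖η - z₀‖ ≤ δP := fun η hη => (hχδ η hη).trans (by linarith)
  have hcs : HasCompactSupport χ := by
    refine HasCompactSupport.of_support_subset_isCompact (isCompact_closedBall z₀ ε) fun η hη => ?_
    rw [Metric.mem_closedBall, dist_eq_norm]
    exact (hχε η hη).le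
  have ha := sm_aP S φ ψ z₀ δP hP3 χ hχ.continuous hχP o ho1
  have hv := sm_vv S φ ψ z₀ δP hP2 χ hχP o ha
  have haL : ∫⁻ q : Cfg dz × Cfg ds, ‖aP S φ ψ χ o q.1 q.2‖ₑ ^ 2 ∂(volume.prod volume) < ⊤ :=
    lint_aP S φ ψ χ hχ.continuous hcs o ho
  have hvL : ∫⁻ q : Cfg dz × Cfg ds × Wsp dm, ‖vv S φ ψ χ o q.1 q.2.1 q.2.2‖ₑ ^ 2
      ∂(volume.prod (volume.prod volume)) ≠ ⊤ :=
    ((lint_vv S φ ψ hGau z₀ δP (fun η hη => (hP1 η hη).2) χ hχP o ha hv).trans_lt haL).ne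
  have hmem : ∀ n, MemLp (fun p : Cfg dh × Wsp dm => Ts0 (swp ψ) (vv S φ ψ χ o) (R n) p.1 p.2) 2
      (volume.prod volume) := by
    intro n
    obtain ⟨-, -, h⟩ := hM inferInstance dh dm dz ds φ (swp ψ) hstd.sub
    obtain ⟨h1, h3⟩ := h (R n) (vv S φ ψ χ o) (hR n) hv
    refine (memLp_two h1.aestronglyMeasurable).2 ?_
    rw [h3]
    exact hvL.lt_top
  -- the two limits
  have l1 := hG1 δ hδ hδ1 (fun η => AD.omc S.κ (AD.Dz S φ ψ η))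
    (fun η hη => by
      rw [Dz_swp]
      exact (hP1 η (hη.trans hδ2)).2)
    (hP2.mono fun η hη => le_trans hη hδ2) (aP S φ ψ χ o) ha
    ((memLp_two ha.aestronglyMeasurable).2 haL)
    (fun η s h0 => hχδ η (fun h => h0 (by unfold aP; rw [h]; simp)))
    R (fun n => chn c ε (R n)) u C hlim (fun n => chn_meas hc ε (R n)) (fun n q => chn_bd hc ε (R n) q)
    (fun q => chn_lim hc hε hlim q) (fun n q hq => chn_supp hc hε (hε1.trans hδ1) (hR n) q hq)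
    (fun n => (hu n).1) (fun n => (hu n).2) hC
  have l2 := region hM hCmb hstd.sub ψ hε hε2 hcN χ hχε o hv hvL R hR hlim u (fun n => (hu n).1) hC
    (fun n => ((hNR (R n) (hR n)).2 (u n) (hu n).1 (hu n).2).1)
  have l3 := l2.sub l1
  rw [sub_zero] at l3
  refine l3.congr fun n => ?_
  rw [sfun_eq S φ ψ hCmb (δ := δP) hP4 χ hχP o (hR n) ε (u n) (hu n).1 (hmem n)]
  have e1 : (∫ x, (inner ℂ (Zgl S φ ψ c ε (R n) χ o x) (u n x) : ℂ)) =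
      ∫ x, inner ℂ (Zb φ (swp ψ) (fun q => ((chn c ε (R n) q : ℝ) : ℂ) •
        bG S.κ (fun η => AD.omc S.κ (AD.Dz S φ ψ η)) (aP S φ ψ χ o) q) (R n) x) (u n x) := rfl
  rw [e1]
  show _ - (_ - ∫ p in Nb (cmb (swp ψ) z₀ 0) dm (R n) εG, inner ℂ (Ts0 (swp ψ) (vv S φ ψ χ o) (R n) p.1 p.2)
    (S.res φ (u n) p.1 p.2) ∂(volume.prod volume)) = _
  abel

end Vale.Agent.P353.Z.AN.SfuA
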