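import Vale.Agent.P353.AN.GL.Stmt
import Vale.Agent.P353.AN.D.Defs

/-! # P353, all `N`, block GL: the slice functionals `AD.sfun` of block D are limits of one global functional -/

open MeasureTheory Filter Topology
open scoped ContDiff

namespace Vale.Agent.P353.Z.AN

variable {d dh dm ds dz : ℕ} {F : Type*} [NormedAddCommGroup F] [InnerProductSpace ℂ F]

/-- swapped splitting (centre first) -/
def swp (ψ : Spl ds dz dh) : Spz dz ds dh := (Equiv.sumComm (Fin dz) (Fin ds)).trans ψ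

lemma cmb_swp (ψ : Spl ds dz dh) (ys : Cfg ds) (yz : Cfg dz) : cmb (swp ψ) yz ys = AD.cmb ψ ys yz := by
  ext ⟨i, A⟩
  obtain ⟨a, rfl⟩ := ψ.surjective A
  rcases a with a | a <;> simp [cmb, AD.cmb, swp]

lemma Dz_swp (S : Setup d F) (φ : Spl dh dm d) (ψ : Spl ds dz dh) (η : Cfg dz) :
    Dz S φ (swp ψ) η = AD.Dz S φ ψ η := by
  funext i
  rw [Dz, AD.Dz, cmb_swp]

/-- smooth cutoff functions: `1` on `(-∞, 1/4]`, `0` on `[1, ∞)` -/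
structure Ctf (c : ℝ → ℝ) : Prop where
  sm : ContDiff ℝ ∞ c
  one : ∀ t, t ≤ 1 / 4 → c t = 1
  zero : ∀ t, 1 ≤ t → c t = 0
  bd : ∀ t, 0 ≤ c t ∧ c t ≤ 1

/-- the section `a(η,s) = χ(η) Π_{F0(η)} o(s)` -/
noncomputable def aP [FiniteDimensional ℂ F] (S : Setup d F) (φ : Spl dh dm d) (ψ : Spl ds dz dh) (χ : Cfg dz → ℝ)
    (o : Cfg ds → F) (η : Cfg dz) (s : Cfg ds) : F :=
  ((χ η : ℝ) : ℂ) • (S.F0 φ (AD.Dz S φ ψ η) (AD.omc S.κ (AD.Dz S φ ψ η))).starProjection (o s)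

/-- the global functional:
`R^{3dm-9dz/2} c(|x^s|²/(εR)²) c(|x^m|²/(εR)²) Nf exp(-½⟨x^m, Ω(x^z) x^m⟩) χ(x^z/R) Π_{F0(x^z)} o(x^s)`, `Nf = Nf(κ, Ω(x^z/R))` -/
noncomputable def Zgl [FiniteDimensional ℂ F] (S : Setup d F) (φ : Spl dh dm d) (ψ : Spl ds dz dh) (c : ℝ → ℝ) (ε R : ℝ)
    (χ : Cfg dz → ℝ) (o : Cfg ds → F) (x : Cfg d) : F :=
  Zb φ (swp ψ) (fun q => ((c (‖q.2.1‖ ^ 2 / (ε * R) ^ 2) * c (‖q.2.2‖ ^ 2 / ((ε * R) ^ 2 * R)) : ℝ) : ℂ) •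
    bG S.κ (fun η => AD.omc S.κ (AD.Dz S φ ψ η)) (aP S φ ψ χ o) q) R x

/-- **GL11** the frozen data near `z₀` are continuous. PROOF: `Frz`: `D_i(η)` are linear in `η`, antisymmetric and commute (`z` central, Jacobi),
`D_8` invertible near `z₀`. `omc = Ω` is unique (`OmUStmt`), `Ω² = -κ²∑D_i²` is continuous and the positive square root is continuous.
`Π_{F0(η)} = U(η)Π_KU(η)⁻¹` with the vacuum bundle of block X, or directly: `Π_{F0}` is the projection onto the kernel of `NF`, whose rank is locally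
constant; `F0` is invariant under `D ↦ RD`. -/
def PcStmt (S : Setup d F) : Prop := ∀ _ : FiniteDimensional ℂ F, ∀ (dh dm ds dz : ℕ) (φ : Spl dh dm d)
  (ψ : Spl ds dz dh) (z₀ : Cfg dz), AD.Std2 S φ ψ z₀ → ∃ δ : ℝ, 0 < δ ∧
  (∀ η, ‖η - z₀‖ ≤ δ → AN.Std S φ (AD.cmb ψ 0 η) ∧ Frz (AD.Dz S φ ψ η) ∧
    IsOm S.κ (AD.Dz S φ ψ η) (AD.omc S.κ (AD.Dz S φ ψ η))) ∧
  ContinuousOn (fun η => AD.omc S.κ (AD.Dz S φ ψ η)) {η | ‖η - z₀‖ ≤ δ} ∧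
  (∀ v : F, ContinuousOn (fun η => (S.F0 φ (AD.Dz S φ ψ η) (AD.omc S.κ (AD.Dz S φ ψ η))).starProjection v)
    {η | ‖η - z₀‖ ≤ δ}) ∧
  ∀ η, ‖η - z₀‖ ≤ δ → ∀ R : ℝ, 0 < R → AD.omc S.κ (AD.Dz S φ ψ (R • η)) = R • AD.omc S.κ (AD.Dz S φ ψ η) ∧
    S.F0 φ (AD.Dz S φ ψ (R • η)) (AD.omc S.κ (AD.Dz S φ ψ (R • η))) =
      S.F0 φ (AD.Dz S φ ψ η) (AD.omc S.κ (AD.Dz S φ ψ η))

/-- **GL12** `sfun` = global functional in the limit, for sequences with bounded mass in shells.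
PROOF. (1) Multiply `u_n` with a radial cutoff (`= 1` on the shell `|z₀|R/2 < |x| < 2|z₀|R + …`, still gauge invariant): `‖u_n‖ ≤ C`.
(2) Partition of unity of `χ` into pieces supported in balls of radius `δ_k` around points `z_k ∈ tsupport χ` (compact; `Std` at `z_k` by `PcStmt`);
`GluStmt` at `z_k` with `a = aP`, cutoffs `χ_n(q) = c(…)c(…)` multiplied with the sharp cutoff `|s|, |X| ≤ δ_kR…` (the difference is a functional of norm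
`→ 0`: the mass of `a(η,·)` in `|s| > δ_kR/…` tends to `0`; the Gaussian is exponentially small at `|x^m| > δ_kR`).
(3) `sfun` is the slice integral of `Ts0 (vG aP)` over `|ys| < εR`, `|w| < εR` (`gR` homogeneous: `gR(D(Rη))(RΩ)(w) = gR(D(η))Ω(√R w)`,
`∫gR² = R^{-4dm}∫gR²`); `Nb` at `z_k` and this region differ by a region where the section has mass `→ 0`, and `‖res u_n‖` is bounded on the slice ball of
radius `2ε` around `R z₀` (`NormStmt`). -/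
def SfuStmt (S : Setup d F) : Prop := ∀ _ : FiniteDimensional ℂ F, ∀ (dh dm ds dz : ℕ) (φ : Spl dh dm d)
  (ψ : Spl ds dz dh) (z₀ : Cfg dz), z₀ ≠ 0 → AD.Std2 S φ ψ z₀ → ∃ ε₀ : ℝ, 0 < ε₀ ∧ ∀ ε : ℝ, 0 < ε → ε ≤ ε₀ →
  ∀ c : ℝ → ℝ, Ctf c → ∀ (χ : Cfg dz → ℝ) (o : Cfg ds → F), ContDiff ℝ ∞ χ → tsupport χ ⊆ Metric.ball z₀ ε →
  MemLp o 2 (volume : Measure (Cfg ds)) → ∀ (R : ℕ → ℝ) (u : ℕ → Cfg d → F), Tendsto R atTop atTop →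
  (∀ n, AD.GInv S (u n)) → (∀ s t : ℝ, 0 < s → s < t → ∃ C : ℝ, ∀ n, AD.mas (u n) (AD.shl d (s * R n) (t * R n)) ≤ C) →
  Tendsto (fun n => AD.sfun S φ ψ ε (R n) χ o (u n) - ∫ x, inner ℂ (Zgl S φ ψ c ε (R n) χ o x) (u n x)) atTop (𝓝 0)

/-- **GL13** FINAL: in every frame `R₀ ∈ O(9)` the slice functionals have the same limit as the frame independent global functional.
PROOF: GL12 for `S.rot R₀ 1` and covariance: `AD.Dz (S.rot R₀ 1) (rox η) i = ∑_jR₀_{ij}D_j(η)`, so `∑D_i²`, `omc` (`OmUStmt`), `F0` (`CovF0Stmt` of block X), `qX`, `Nf`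
and all norms are unchanged: `Zgl (S.rot R₀ 1) (χ∘rox⁻¹) (o∘rox⁻¹) (rox x) = Zgl S χ o x`; `rox` preserves the measure (`RotStmt`). -/
def GlobStmt (S : Setup d F) : Prop := ∀ _ : FiniteDimensional ℂ F, ∀ (R₀ : Matrix (Fin 9) (Fin 9) ℝ)
  (hR : R₀ * R₀.transpose = 1) (h1 : (1 : Matrix (Fin d) (Fin d) ℝ) * (1 : Matrix (Fin d) (Fin d) ℝ).transpose = 1)
  (dh dm ds dz : ℕ) (φ : Spl dh dm d)
  (ψ : Spl ds dz dh) (z₀ : Cfg dz), z₀ ≠ 0 → AD.Std2 (S.rot R₀ hR 1 h1) φ ψ (rox R₀ 1 z₀) →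
  ∃ ε₀ : ℝ, 0 < ε₀ ∧ ∀ ε : ℝ, 0 < ε → ε ≤ ε₀ →
  ∀ c : ℝ → ℝ, Ctf c → ∀ (χ : Cfg dz → ℝ) (o : Cfg ds → F), ContDiff ℝ ∞ χ → tsupport χ ⊆ Metric.ball z₀ ε →
  MemLp o 2 (volume : Measure (Cfg ds)) → ∀ (R : ℕ → ℝ) (u : ℕ → Cfg d → F), Tendsto R atTop atTop →
  (∀ n, AD.GInv S (u n)) → (∀ s t : ℝ, 0 < s → s < t → ∃ C : ℝ, ∀ n, AD.mas (u n) (AD.shl d (s * R n) (t * R n)) ≤ C) →
  Tendsto (fun n => AD.sfun (S.rot R₀ hR 1 h1) φ ψ ε (R n) (fun z => χ (rox R₀.transpose 1 z))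
      (fun s => o (rox R₀.transpose 1 s)) (fun x => u n (rox R₀.transpose 1 x)) -
    ∫ x, inner ℂ (Zgl S φ ψ c ε (R n) χ o x) (u n x)) atTop (𝓝 0)

end Vale.Agent.P353.Z.AN
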